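import Vale.Agent.P182.H430.NFinal

/-!
# N1 for the concrete bundle `N`, constants form
-/

namespace Vale.Agent.P182.H430

open Polynomial Module Matrix

namespace NData

variable {k : Type*} [Field k] {J : Type*} [Fintype J] [DecidableEq J] (X : NData k J)
variable {F : Type*} [Field F] [Algebra k[X] F] [IsFractionRing k[X] F]
  [Algebra k F] [IsScalarTower k k[X] F]

section closed

variable [IsAlgClosed k]

variable (F) in
/-- `tht` is a theta characteristic -/
theorem theta : Theta (X.cur F) X.tht := by
  refine ⟨X.tht_fin, ?_, ?_⟩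
  · intro p
    rw [cur_per]
    rcases p with _ | q
    · rw [tht_none, per_unmarked X X.not_marked_none]; norm_num
    by_cases hm : X.Marked (some q)
    · obtain ⟨s, hs⟩ := hm
      rw [hs, tht_z, per_marked, Int.emod_eq_of_lt (by positivity) (by push_cast; omega)]
      push_cast; ring
    · rw [tht_unmarked X hm, per_unmarked X hm]; norm_num
  · unfold Curve.deg
    rw [finsum_eq_single _ none]
    · rw [tht_none, cur_per, per_unmarked X X.not_marked_none]; norm_num
    · intro p hp
      rw [cur_per]
      rcases p with _ | q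
      · exact absurd rfl hp
      by_cases hm : X.Marked (some q)
      · obtain ⟨s, hs⟩ := hm
        rw [hs, tht_z, per_marked]
        exact Int.ediv_eq_zero_of_lt (by positivity) (by push_cast; omega)
      · rw [tht_unmarked X hm]; simp

/-- `H⁰(N*) = 0` -/
theorem hN0 (φ : (J → F) →ₗ[F] F) (h : ∀ p a x, x ∈ ((X.N F).ch p).L a →
    φ x ∈ ((X.cur F).pl p).M ((X.cur F).per p) a) : φ = 0 := by
  have h' : ∀ p a x, x ∈ ((X.N F).ch p).L a → φ x ∈ (linePl k F p).M (X.per p) a := h
  have key : ∀ l, φ (ev (k := k) F l) = 0 := by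
    intro l
    obtain ⟨c, hc⟩ := line_H0 (k := k) (φ (ev (k := k) F l)) (fun p => by
      have h1 := h' p _ _ (X.const_mem_N (F := F) p (Pi.single l (1 : k)))
      rcases p with _ | q
      · rw [per_unmarked X X.not_marked_none, w0_none] at h1
        exact h1
      by_cases hm : X.Marked (some q)
      · obtain ⟨s, hs⟩ := hm
        obtain rfl : q = X.z s := Option.some_injective _ hs
        rw [w0_z] at h1
        rw [← M_marked X s]
        exact Place.M_anti _ (by have : (0 : ℤ) ≤ X.n := Int.natCast_nonneg _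
                                 linarith) h1
      · rw [w0_unmarked X hm, per_unmarked X hm] at h1
        exact h1)
    have h1 := h' _ _ _ (X.e_mem (F := F) (some (X.z (X.arm l))) l)
    have h2 : φ (cv F (Pi.single l (1 : k))) = algebraMap k F c := hc.symm
    rw [wA_z, h2] at h1
    by_cases hc0 : c = 0
    · rw [← hc, hc0, map_zero]
    · exfalso
      have hne : algebraMap k F c ≠ 0 := fun h0 => hc0
        ((map_eq_zero_iff _ (algebraMap k F).injective).1 h0)
      rw [Place.mem_M_of_ne _ hne, (linePl k F _).ord_alg c hc0, mul_zero] at h1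
      have := X.hcn l
      omega
  apply LinearMap.ext
  intro x
  rw [sum_ev (k := k) x, map_sum, LinearMap.zero_apply]
  exact Finset.sum_eq_zero fun l _ => by rw [map_smul, key, smul_zero]

/-- `H¹(N θ) = 0` -/
theorem hN1 (φ : (J → F) →ₗ[F] F) (h : ∀ p a x, x ∈ ((X.N F).ch p).L a →
    φ x ∈ ((X.cur F).pl p).M ((X.cur F).per p) (a - X.tht p)) : φ = 0 := by
  have h' : ∀ p a x, x ∈ ((X.N F).ch p).L a →
    φ x ∈ (linePl k F p).M (X.per p) (a - X.tht p) := h
  have key : ∀ l, φ (ev (k := k) F l) = 0 := by
    intro l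
    apply reg_zero (k := k)
    · intro q
      have h1 := h' (some q) _ _ (X.const_mem_N (F := F) (some q) (Pi.single l (1 : k)))
      by_cases hm : X.Marked (some q)
      · obtain ⟨s, hs⟩ := hm
        obtain rfl : q = X.z s := Option.some_injective _ hs
        rw [w0_z, tht_z] at h1
        rw [← M_marked X s]
        exact Place.M_anti _ (by linarith) h1
      · rw [w0_unmarked X hm, per_unmarked X hm, tht_unmarked X hm] at h1
        exact h1
    · have h1 := h' none _ _ (X.const_mem_N (F := F) none (Pi.single l (1 : k)))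
      rw [w0_none, tht_none, per_unmarked X X.not_marked_none] at h1
      exact h1
  apply LinearMap.ext
  intro x
  rw [sum_ev (k := k) x, map_sum, LinearMap.zero_apply]
  exact Finset.sum_eq_zero fun l _ => by rw [map_smul, key, smul_zero]

variable (F) in
/-- THE BUNDLE `N` IS VERSAL (version without twist) -/
noncomputable def versN (hdet : IsUnit X.Om'.det) (h2 : (2 : k) ≠ 0) (hΩ : X.VersΩ) :
    H578.Vers (X.N F) (X.b F) (fun p => 2 * X.tht p) (Ders X) where
  δ := X.dF F
  D := X.Dp F
  conn := X.Dp_conn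
  comm := fun i p c hc T hT => by
    rw [X.tht_two p] at hc
    exact X.hom_N'.1 (X.comm_mem hdet i p c hc T (X.hom_N'.2 hT))
  vers := fun Y hYa hY hD => by
    have hk : (fun p => 2 * X.tht p) = X.kap := funext X.tht_two
    rw [hk] at hD
    refine (X.vers hdet h2 hΩ).vers Y hYa (fun p => ?_) hD
    rw [← X.tht_two p]
    exact X.hom_N'.2 (hY p)

/-- N1 for the concrete bundle -/
theorem noNil (hdet : IsUnit X.Om'.det) (h2 : (2 : k) ≠ 0) (hΩ : X.VersΩ)
    {Θ : (J → F) →ₗ[F] (J → F)} (hΘ : ∀ x y, X.b F (Θ x) y = X.b F x (Θ y))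
    (hΘp : ∀ p, ∀ a x, x ∈ ((X.N F).ch p).L a → Θ x ∈ ((X.N F).ch p).L (a - X.kap p))
    (hn : IsNilpotent Θ) : Θ = 0 := by
  have h2F : (2 : F) ≠ 0 := by
    intro h
    apply h2
    have : algebraMap k F 2 = 0 := by rw [map_ofNat]; exact h
    exact (map_eq_zero_iff _ (algebraMap k F).injective).1 this
  refine H578.no_nilpotent' (X.theta F) h2F (inv_mul_cancel₀ h2) ?_ (X.b_symm F)
    (X.b_nondeg hdet) (X.versN F hdet h2 hΩ) X.hN0 X.hN1 hΘ ?_ hn
  · intro p a x
    rw [X.N_self hdet, X.tht_two]
    rfl
  · intro p a x hx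
    rw [X.tht_two, ← sub_eq_add_neg]
    exact hΘp p a x hx

end closed

/-! ### the operator of a constant form -/

variable (F) in
/-- the matrix of the inverse form -/
noncomputable def GG : Matrix J J F := fun l m =>
  algebraMap k F (X.Om' l m) * (X.lin F (X.arm l))⁻¹ * (X.lin F (X.arm m))⁻¹

theorem GG_eq (l m : J) : X.GG F l m =
    algebraMap k F (X.Ω l m) * ((X.lin F (X.arm l))⁻¹ - (X.lin F (X.arm m))⁻¹) := by
  unfold GG
  have hl := X.lin_ne F (X.arm l)
  have hm := X.lin_ne F (X.arm m)
  have h4 : algebraMap k F (X.Om' l m) =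
      (X.lin F (X.arm m) - X.lin F (X.arm l)) * algebraMap k F (X.Ω l m) := by
    rw [X.lin_diff F (X.arm l) (X.arm m)]
    unfold Om'
    rw [map_mul]
    ring
  rw [h4]
  field_simp

/-- the operator of a constant form -/
noncomputable def thg (F : Type*) [Field F] [Algebra k[X] F] [IsFractionRing k[X] F]
    [Algebra k F] [IsScalarTower k k[X] F] (g : Matrix J J k) : (J → F) →ₗ[F] (J → F) :=
  Matrix.toLin' (X.GG F * g.map (algebraMap k F))

/-- the constant form -/
noncomputable def gform (F : Type*) [Field F] [Algebra k F] (g : Matrix J J k) :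
    (J → F) →ₗ[F] (J → F) →ₗ[F] F :=
  LinearMap.mk₂ F (fun x y => ∑ l, ∑ m, x l * y m * algebraMap k F (g l m))
    (fun x x' y => by
      rw [← Finset.sum_add_distrib]
      refine Finset.sum_congr rfl fun l _ => ?_
      rw [← Finset.sum_add_distrib]
      exact Finset.sum_congr rfl fun m _ => by rw [Pi.add_apply]; ring)
    (fun r x y => by
      rw [Finset.smul_sum]
      refine Finset.sum_congr rfl fun l _ => ?_
      rw [Finset.smul_sum]
      exact Finset.sum_congr rfl fun m _ => by
        rw [Pi.smul_apply, smul_eq_mul, smul_eq_mul]; ring)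
    (fun x y y' => by
      rw [← Finset.sum_add_distrib]
      refine Finset.sum_congr rfl fun l _ => ?_
      rw [← Finset.sum_add_distrib]
      exact Finset.sum_congr rfl fun m _ => by rw [Pi.add_apply]; ring)
    (fun r x y => by
      rw [Finset.smul_sum]
      refine Finset.sum_congr rfl fun l _ => ?_
      rw [Finset.smul_sum]
      exact Finset.sum_congr rfl fun m _ => by
        rw [Pi.smul_apply, smul_eq_mul, smul_eq_mul]; ring)

omit [DecidableEq J] in
theorem gform_apply (g : Matrix J J k) (x y : J → F) :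
    gform F g x y = ∑ l, ∑ m, x l * y m * algebraMap k F (g l m) := rfl

/-- the defining property of the operator -/
theorem b_thg (hdet : IsUnit X.Om'.det) {g : Matrix J J k} (hg : ∀ l m, g l m = g m l)
    (x y : J → F) : X.b F (X.thg F g x) y = gform F g x y := by
  have hM : X.Om' * X.Mi = 1 := Matrix.mul_nonsing_inv _ hdet
  have h1 : ∀ l, X.thg F g x l = ∑ m, X.GG F l m * ∑ j, algebraMap k F (g m j) * x j := by
    intro l
    unfold thg
    rw [Matrix.toLin'_apply, ← Matrix.mulVec_mulVec]
    rfl
  -- `∑_l GG l m * Bm l i = δ`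
  have h2 : ∀ m i, ∑ l, X.GG F l m * X.Bm F l i = if m = i then 1 else 0 := by
    intro m i
    have h3 : ∀ l, X.GG F l m * X.Bm F l i = (X.lin F (X.arm m))⁻¹ * X.lin F (X.arm i) *
        algebraMap k F (X.Om' m l * X.Mi l i) := by
      intro l
      unfold GG Bm
      rw [X.Om'_symm l m, map_mul]
      have := X.lin_ne F (X.arm l)
      field_simp
    simp only [h3]
    rw [← Finset.mul_sum, ← map_sum, ← Matrix.mul_apply, hM]
    by_cases hmi : m = i
    · subst hmi
      rw [Matrix.one_apply_eq, map_one, if_pos rfl, mul_one, inv_mul_cancel₀ (X.lin_ne F _)]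
    · rw [Matrix.one_apply_ne hmi, map_zero, if_neg hmi, mul_zero]
  rw [b_apply, gform_apply]
  simp only [h1]
  have h4 : ∀ l i, (∑ m, X.GG F l m * ∑ j, algebraMap k F (g m j) * x j) * y i * X.Bm F l i =
      ∑ m, (X.GG F l m * X.Bm F l i) * (y i * ∑ j, algebraMap k F (g m j) * x j) := by
    intro l i
    rw [Finset.sum_mul, Finset.sum_mul]
    exact Finset.sum_congr rfl fun m _ => by ring
  simp only [h4]
  rw [Finset.sum_comm]
  have h5 : ∀ i, ∑ l, ∑ m, (X.GG F l m * X.Bm F l i) *
      (y i * ∑ j, algebraMap k F (g m j) * x j) =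
      y i * ∑ j, algebraMap k F (g i j) * x j := by
    intro i
    rw [Finset.sum_comm]
    simp only [← Finset.sum_mul, h2]
    rw [Finset.sum_eq_single i]
    · rw [if_pos rfl, one_mul]
    · intro m _ hm
      rw [if_neg hm, zero_mul]
    · intro h; exact absurd (Finset.mem_univ _) h
  simp only [h5]
  rw [Finset.sum_comm]
  refine Finset.sum_congr rfl fun i _ => ?_
  rw [Finset.mul_sum]
  refine Finset.sum_congr rfl fun j _ => ?_
  rw [hg i j]
  ring

theorem gform_symm {g : Matrix J J k} (hg : ∀ l m, g l m = g m l) (x y : J → F) :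
    gform F g x y = gform F g y x := by
  rw [gform_apply, gform_apply, Finset.sum_comm]
  exact Finset.sum_congr rfl fun l _ => Finset.sum_congr rfl fun m _ => by rw [hg m l]; ring

omit [DecidableEq J] in
theorem gform_cv (g : Matrix J J k) (v v' : J → k) :
    gform F g (cv F v) (cv F v') = algebraMap k F (∑ l, ∑ m, v l * v' m * g l m) := by
  rw [gform_apply, map_sum]
  refine Finset.sum_congr rfl fun l _ => ?_
  rw [map_sum]
  refine Finset.sum_congr rfl fun m _ => ?_
  unfold cv
  rw [map_mul, map_mul]

omit [Fintype J] [DecidableEq J] in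
theorem const_mem' (p : Option k) (w : ℕ) {c : ℤ} (hc : c ≤ 0) (r : k) :
    algebraMap k F r ∈ (linePl k F p).M w c := Place.M_anti _ hc (const_mem p w r)

section closed

variable [IsAlgClosed k]

/-- integrality of the constant form -/
theorem gform_mem {g : Matrix J J k} (hg : ∀ l m, g l m = g m l)
    (h0 : ∀ l m, X.arm l = X.arm m → g l m = 0)
    (h1 : ∀ l m, X.arm l = X.arm m → X.c l ≤ X.c m → ∑ j, g l j * X.Ω m j = 0)
    (p : Option k) {a c : ℤ} {x y : J → F}
    (hx : x ∈ ((X.N F).ch p).L a) (hy : y ∈ ((X.N F).ch p).L c) :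
    gform F g x y ∈ (linePl k F p).M (X.per p) (a + c) := by
  have key : ∀ i j, gform F g (X.gx F i) (X.gx F j) ∈
      (linePl k F p).M (X.per p) (X.gw p i + X.gw p j + 0) := by
    intro i j
    rw [add_zero]
    obtain ⟨v, hv⟩ := X.gx_cv (F := F) i
    obtain ⟨v', hv'⟩ := X.gx_cv (F := F) j
    rcases p with _ | q
    · rw [hv, hv', gform_cv, gw_none, gw_none]
      exact const_mem' _ _ le_rfl _
    by_cases hm : X.Marked (some q)
    swap
    · rw [hv, hv', gform_cv, gw_unmarked X hm, gw_unmarked X hm]
      exact const_mem' _ _ le_rfl _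
    clear hv hv' v v'
    obtain ⟨s, hs⟩ := hm
    obtain rfl : q = X.z s := Option.some_injective _ hs
    have hee : ∀ l m, gform F g (cv F (Pi.single l (1 : k))) (cv F (Pi.single m (1 : k))) =
        algebraMap k F (g l m) := by
      intro l m
      rw [gform_cv, Finset.sum_eq_single l, Finset.sum_eq_single m]
      · simp
      · intro j _ hj; rw [Pi.single_eq_of_ne hj]; ring
      · intro h; exact absurd (Finset.mem_univ _) h
      · intro j _ hj
        refine Finset.sum_eq_zero fun m _ => ?_
        rw [Pi.single_eq_of_ne hj]; ring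
      · intro h; exact absurd (Finset.mem_univ _) h
    have hep : ∀ l m, gform F g (cv F (Pi.single l (1 : k))) (cv F (X.Ω m)) =
        algebraMap k F (∑ j, g l j * X.Ω m j) := by
      intro l m
      rw [gform_cv, Finset.sum_eq_single l]
      · congr 1
        refine Finset.sum_congr rfl fun j _ => ?_
        rw [Pi.single_eq_same]; ring
      · intro j _ hj
        refine Finset.sum_eq_zero fun m _ => ?_
        rw [Pi.single_eq_of_ne hj]; ring
      · intro h; exact absurd (Finset.mem_univ _) h
    have hB : ∀ l m, X.arm l = s → X.arm m = s →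
        gform F g (cv F (Pi.single l (1 : k))) (cv F (X.Ω m)) ∈
          (linePl k F (some (X.z s))).M (X.per (some (X.z s)))
            ((X.n + 1 - X.c l) + (X.c m - X.n)) := by
      intro l m hl hm
      rw [hep]
      by_cases hlm : X.c l ≤ X.c m
      · rw [h1 l m (hl.trans hm.symm) hlm, map_zero]
        exact Submodule.zero_mem _
      · exact const_mem' _ _ (by omega) _
    rcases X.gen_cases (F := F) s i with ⟨l, hl, hx, hw⟩ | ⟨l, hl, hx, hw⟩ | ⟨v, hx, hw⟩ <;>
      rcases X.gen_cases (F := F) s j with ⟨m, hm, hy, hw'⟩ | ⟨m, hm, hy, hw'⟩ | ⟨v', hy, hw'⟩ <;>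
      rw [hx, hy, hw, hw']
    · rw [hee, h0 l m (hl.trans hm.symm), map_zero]
      exact Submodule.zero_mem _
    · exact hB l m hl hm
    · have := X.hc1 l
      rw [gform_cv]
      exact const_mem' _ _ (by omega) _
    · rw [gform_symm hg]
      exact Place.M_anti _ (by linarith) (hB m l hm hl)
    · have := X.hcn l
      have := X.hcn m
      rw [gform_cv]
      exact const_mem' _ _ (by omega) _
    · have := X.hcn l
      rw [gform_cv]
      exact const_mem' _ _ (by omega) _
    · have := X.hc1 m
      rw [gform_cv]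
      exact const_mem' _ _ (by omega) _
    · have := X.hcn m
      rw [gform_cv]
      exact const_mem' _ _ (by omega) _
    · rw [gform_cv]
      exact const_mem' _ _ (by omega) _
  have h := (gen_bil (hx := X.hgen) (hx₂ := X.hgen) (Q := linePl k F p) (hp := X.per_pos p)
    (hp₂ := X.per_pos p) (β := gform F g) (d := 0)).2 key a x hx c y hy
  rwa [add_zero] at h

/-- integrality of the operator of a constant form -/
theorem thg_mem (hdet : IsUnit X.Om'.det) {g : Matrix J J k} (hg : ∀ l m, g l m = g m l)
    (h0 : ∀ l m, X.arm l = X.arm m → g l m = 0)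
    (h1 : ∀ l m, X.arm l = X.arm m → X.c l ≤ X.c m → ∑ j, g l j * X.Ω m j = 0)
    (p : Option k) {a : ℤ} {x : J → F} (hx : x ∈ ((X.N F).ch p).L a) :
    X.thg F g x ∈ ((X.N F).ch p).L (a - X.kap p) := by
  rw [X.N_self hdet]
  intro c y hy
  rw [X.b_thg hdet hg]
  exact Place.M_anti _ (by linarith) (X.gform_mem hg h0 h1 p hx hy)

/-- **N1, constants form**: a symmetric matrix satisfying the conditions of a Higgs field with
nilpotent operator is zero. -/
theorem N1_const (hdet : IsUnit X.Om'.det) (h2 : (2 : k) ≠ 0) (hΩ : X.VersΩ)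
    {g : Matrix J J k} (hg : ∀ l m, g l m = g m l)
    (h0 : ∀ l m, X.arm l = X.arm m → g l m = 0)
    (h1 : ∀ l m, X.arm l = X.arm m → X.c l ≤ X.c m → ∑ j, g l j * X.Ω m j = 0)
    (hn : IsNilpotent (X.GG F * g.map (algebraMap k F))) : g = 0 := by
  have hn' : IsNilpotent (X.thg F g) := hn.map (Matrix.toLinAlgEquiv' (R := F) (n := J))
  have h3 : X.thg F g = 0 := by
    refine X.noNil hdet h2 hΩ ?_ (fun p a x hx => X.thg_mem hdet hg h0 h1 p hx) hn'
    intro x y
    rw [X.b_thg hdet hg, X.b_symm F x, X.b_thg hdet hg, gform_symm hg]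
  have h4 : ∀ l m, g l m = 0 := by
    intro l m
    have h5 := X.b_thg hdet hg (F := F) (cv F (Pi.single l (1 : k))) (cv F (Pi.single m (1 : k)))
    rw [h3, LinearMap.zero_apply, map_zero, LinearMap.zero_apply, gform_cv,
      Finset.sum_eq_single l, Finset.sum_eq_single m] at h5
    · have h6 := (map_eq_zero_iff _ (algebraMap k F).injective).1 h5.symm
      simpa using h6
    · intro j _ hj; rw [Pi.single_eq_of_ne hj]; ring
    · intro h; exact absurd (Finset.mem_univ _) h
    · intro j _ hj
      refine Finset.sum_eq_zero fun m _ => ?_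
      rw [Pi.single_eq_of_ne hj]; ring
    · intro h; exact absurd (Finset.mem_univ _) h
  ext l m
  exact h4 l m

end closed

end NData

end Vale.Agent.P182.H430
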