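import Vale.Agent.P182.H430.Serre
import Vale.Agent.P182.H62.Hom

/-!
# Pairings of bundles: trace duality, and Serre duality for a perfect pairing
-/

namespace Vale.Agent.P182.H430

open LinearMap Submodule Module

section Local

variable {k F : Type*} [Field k] [Field F] [Algebra k F] {Q : Place k F} {p : ℕ}
variable {E : Type*} [AddCommGroup E] [Module F E] [Module k E] [IsScalarTower k F E]
  [FiniteDimensional F E]
variable {E₂ : Type*} [AddCommGroup E₂] [Module F E₂] [Module k E₂] [IsScalarTower k F E₂]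
  [FiniteDimensional F E₂]

/-- the level `-κ` of the dual chain is detected on the level `0` -/
theorem mem_dual_iff (C : LChain Q p E) {κ : ℤ} (hκ : κ % p = p - 1) {ξ : Dual F E} :
    ξ ∈ C.dual.L (-κ) ↔ ∀ x ∈ C.L 0, ξ x ∈ Q.M p (-κ) := by
  constructor
  · intro h x hx
    have := h 0 x hx
    rwa [zero_add] at this
  · intro h b x hx
    show ξ x ∈ Q.M p (b + -κ)
    have hp : (0 : ℤ) < p := by exact_mod_cast C.pos
    -- scale `x` into level `0`
    set c : F := Q.unif ^ (-(b / p)) with hc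
    have hc0 : c ≠ 0 := zpow_ne_zero _ Q.unif_ne
    have hco : Q.ord c = -(b / p) := Q.ord_zpow _
    have h1 : c • x ∈ C.L 0 := by
      rw [C.smul_iff c hc0, hco]
      refine C.anti _ _ ?_ hx
      have := Int.ediv_mul_le b hp.ne'
      linarith
    have h2 := h _ h1
    rw [map_smul, smul_eq_mul, Q.smul_mem_iff hc0, hco] at h2
    by_cases h0 : ξ x = 0
    · exact Or.inl h0
    rw [Q.mem_M_of_ne h0] at h2 ⊢
    -- arithmetic
    have h3 := Int.emod_add_mul_ediv κ p
    have h4 := Int.emod_add_mul_ediv b p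
    have h5 := Int.emod_lt_of_pos b hp
    rw [hκ] at h3
    set m := κ / p
    set q := b / p
    set o := Q.ord (ξ x)
    -- `p * (m + 1) > κ`, so `p * (o - q + m + 1) > 0`
    have h6 : 0 < (p : ℤ) * (o - q + m + 1) := by linarith
    have h7 : 0 < o - q + m + 1 := by
      by_contra h8
      push Not at h8
      have : (p : ℤ) * (o - q + m + 1) ≤ 0 := mul_nonpos_of_nonneg_of_nonpos hp.le h8
      linarith
    have h8 : 0 ≤ (p : ℤ) * (o - q + m) := mul_nonneg hp.le (by omega)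
    linarith

/-- the trace of a member of the chain of endomorphisms -/
theorem trace_mem (C : LChain Q p E) {c : ℤ} {φ : E →ₗ[F] E} (hφ : φ ∈ (C.hom C).L c) :
    LinearMap.trace F E φ ∈ Q.M p c := by
  obtain ⟨b, w, hb⟩ := C.exists_split
  rw [LinearMap.trace_eq_matrix_trace F b, Matrix.trace]
  refine Submodule.sum_mem _ fun i _ => ?_
  rw [Matrix.diag_apply, LinearMap.toMatrix_apply]
  have h1 := hφ _ _ (hb.basis_mem i)
  have h2 := (hb _ _).1 h1 i
  refine Q.M_anti (le_of_eq ?_) h2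
  ring

/-- TRACE DUALITY -/
theorem mem_hom_iff_trace (C : LChain Q p E) (C₂ : LChain Q p E₂) {c : ℤ} {ψ : E₂ →ₗ[F] E} :
    ψ ∈ (C₂.hom C).L c ↔ ∀ a, ∀ φ ∈ (C.hom C₂).L a,
      LinearMap.trace F E (ψ ∘ₗ φ) ∈ Q.M p (a + c) := by
  constructor
  · intro hψ a φ hφ
    exact trace_mem C (LChain.comp_mem C C₂ C hφ hψ)
  · intro h
    rw [LChain.mem_hom_iff_dual]
    intro a y hy b η hη
    let φ : E →ₗ[F] E₂ := η.smulRight y
    have hφ : φ ∈ (C.hom C₂).L (a + b) := by
      intro d x hx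
      have h1 := hη d x hx
      exact C₂.smul_mem' h1 hy (by linarith)
    have h2 := h _ φ hφ
    have h3 : LinearMap.trace F E (ψ ∘ₗ φ) = η (ψ y) := by
      have : ψ ∘ₗ φ = η.smulRight (ψ y) := by
        apply LinearMap.ext
        intro x
        simp [φ]
      rw [this, LinearMap.trace_smulRight]
    rwa [h3] at h2

end Local

variable {k F P : Type*} [Field k] [Field F] [Algebra k F] {C : Curve k F P}

section Global

variable {E : Type*} [AddCommGroup E] [Module F E] [Module k E] [IsScalarTower k F E]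
variable {E₂ : Type*} [AddCommGroup E₂] [Module F E₂] [Module k E₂] [IsScalarTower k F E₂]

/-- the lattices of a twist -/
def Bun.tw (n : P → ℤ) (B : Bun C E) : P → Submodule k E := fun p => (B.ch p).L (-n p)

/-- A perfect duality between two bundles. -/
structure DPair (A : Bun C E) (B : Bun C E₂) (T : E →ₗ[F] E₂ →ₗ[F] F) : Prop where
  bij : Function.Bijective T.flip
  mem : ∀ p c y, y ∈ (B.ch p).L c ↔
    ∀ a x, x ∈ (A.ch p).L a → T x y ∈ (C.pl p).M (C.per p) (a + c)

variable {A : Bun C E} {B : Bun C E₂} {T : E →ₗ[F] E₂ →ₗ[F] F}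

/-- the identification with the dual -/
noncomputable def DPair.equiv (h : DPair A B T) : E₂ ≃ₗ[F] Dual F E :=
  LinearEquiv.ofBijective T.flip h.bij

omit [IsScalarTower k F E] [IsScalarTower k F E₂] in
theorem DPair.equiv_apply (h : DPair A B T) (y : E₂) (x : E) : h.equiv y x = T x y := rfl

omit [IsScalarTower k F E₂] in
/-- the twist of the partner is the dual family -/
theorem DPair.mem_tw (h : DPair A B T) {κ : P → ℤ} (hκ : ∀ p, κ p % C.per p = C.per p - 1)
    (p : P) (y : E₂) : y ∈ B.tw κ p ↔ h.equiv y ∈ A.dl κ p := by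
  have := A.finiteDimensional
  have h1 : y ∈ B.tw κ p ↔ h.equiv y ∈ (A.ch p).dual.L (-κ p) := by
    rw [LChain.mem_dual]
    exact h.mem p (-κ p) y
  rw [h1, mem_dual_iff _ (hκ p)]
  rfl

/-- the pairing with a section of the partner -/
def pmap (T : E →ₗ[F] E₂ →ₗ[F] F) (y : E₂) : E →ₗ[k] F := (T.flip y).restrictScalars k

omit [IsScalarTower k F E₂] in
theorem DPair.maps (h : DPair A B T) {κ : P → ℤ} (y : HZ (B.tw κ)) :
    Maps (pmap (k := k) T (y : E₂)) A.lat (C.I κ) := by
  intro p x hx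
  have h1 := (h.mem p (-κ p) (y : E₂)).1 (mem_HZ.1 y.2 p) 0 x hx
  rwa [zero_add] at h1

/-- numerical Serre duality for a pairing -/
theorem DPair.serre (h : DPair A B T) {κ : P → ℤ} (hκ : Dualizing C κ) :
    FinCoh (B.tw κ) ∧ h0 (B.tw κ) = h1 A.lat ∧ h1 (B.tw κ) = h0 A.lat ∧
      chi (B.tw κ) = -chi A.lat := by
  have h1 := coh_equiv (h.equiv.restrictScalars k) (fun p y => h.mem_tw hκ.cong p y)
  have h2 := A.serre hκ
  exact ⟨h1.1.2 (A.finCoh_dl hκ), h1.2.1.trans h2.1, h1.2.2.1.trans h2.2,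
    h1.2.2.2.trans (A.chi_dl hκ)⟩

omit [IsScalarTower k F E₂] in
/-- SERRE DUALITY for a pairing: a class orthogonal to all sections vanishes -/
theorem DPair.eq_zero (h : DPair A B T) {κ : P → ℤ} (hκ : Dualizing C κ)
    {ρ : HO (C.I κ) →ₗ[k] k} (hρ : ρ ≠ 0) (z : HO A.lat)
    (hz : ∀ y : HZ (B.tw κ), ρ (hoMap _ (h.maps y) z) = 0) : z = 0 := by
  refine A.eq_zero_of_sp hκ hρ z fun ξ => ?_
  obtain ⟨y, hy⟩ := h.equiv.surjective (ξ : Dual F E)
  have hy' : y ∈ HZ (B.tw κ) := mem_HZ.2 fun p => by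
    rw [h.mem_tw hκ.cong, hy]
    exact mem_HZ.1 ξ.2 p
  have h1 := hz ⟨y, hy'⟩
  rw [Bun.sp_apply]
  have h2 : ((ξ : Dual F E).restrictScalars k) = pmap T y := by
    rw [← hy]; rfl
  have h3 : ∀ (g g' : E →ₗ[k] F) (hg : Maps g A.lat (C.I κ)) (hg' : Maps g' A.lat (C.I κ)),
      g = g' → hoMap g hg z = hoMap g' hg' z := by
    rintro g g' hg hg' rfl
    rfl
  rw [h3 _ _ (A.maps_of_hz ξ) (h.maps ⟨y, hy'⟩) h2, h1]

omit [IsScalarTower k F E₂] in
/-- Serre duality, in terms of families of principal parts -/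
theorem DPair.eq_zero' (h : DPair A B T) {κ : P → ℤ} (hκ : Dualizing C κ)
    {ρ : HO (C.I κ) →ₗ[k] k} (hρ : ρ ≠ 0) (u : FS A.lat)
    (hz : ∀ y : HZ (B.tw κ),
      ρ (cls (C.I κ) (fsLift (pmap (k := k) T (y : E₂)) (h.maps y) u)) = 0) :
    u ∈ diag A.lat :=
  cls_eq_zero.1 (h.eq_zero hκ hρ (cls A.lat u) hz)

omit [IsScalarTower k F E₂] in
/-- every functional on `H¹(A)` comes from a section of the partner -/
theorem DPair.surj (h : DPair A B T) {κ : P → ℤ} (hκ : Dualizing C κ)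
    {ρ : HO (C.I κ) →ₗ[k] k} (hρ : ρ ≠ 0) (φ : HO A.lat →ₗ[k] k) :
    ∃ y : HZ (B.tw κ), ∀ z, ρ (hoMap _ (h.maps y) z) = φ z := by
  obtain ⟨ξ, hξ⟩ := A.sp_surjective hκ hρ φ
  obtain ⟨y, hy⟩ := h.equiv.surjective (ξ : Dual F E)
  have hy' : y ∈ HZ (B.tw κ) := mem_HZ.2 fun p => by
    rw [h.mem_tw hκ.cong, hy]
    exact mem_HZ.1 ξ.2 p
  refine ⟨⟨y, hy'⟩, fun z => ?_⟩
  rw [← hξ, Bun.sp_apply]
  have h2 : ((ξ : Dual F E).restrictScalars k) = pmap T y := by
    rw [← hy]; rfl
  have h3 : ∀ (g g' : E →ₗ[k] F) (hg : Maps g A.lat (C.I κ)) (hg' : Maps g' A.lat (C.I κ)),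
      g = g' → hoMap g hg z = hoMap g' hg' z := by
    rintro g g' hg hg' rfl
    rfl
  rw [h3 _ _ (A.maps_of_hz ξ) (h.maps ⟨y, hy'⟩) h2]

omit [IsScalarTower k F E₂] in
/-- the pairing is symmetric -/
theorem DPair.symm (h : DPair A B T) : DPair B A T.flip := by
  have := A.finiteDimensional
  have := B.finiteDimensional
  have hb : Function.Bijective T.flip.flip := by
    have hd : finrank F E = finrank F (Dual F E₂) := by
      rw [Subspace.dual_finrank_eq, h.equiv.finrank_eq, Subspace.dual_finrank_eq]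
    have hi : Function.Injective T := by
      rw [injective_iff_map_eq_zero]
      intro x hx
      rw [← Module.forall_dual_apply_eq_zero_iff F]
      intro φ
      obtain ⟨y, rfl⟩ := h.equiv.surjective φ
      rw [h.equiv_apply, hx]
      rfl
    exact ⟨hi, (LinearMap.injective_iff_surjective_of_finrank_eq_finrank hd).1 hi⟩
  refine ⟨hb, ?_⟩
  intro p c x
  rw [LChain.mem_iff_dual]
  constructor
  · intro hx a y hy
    have h1 : h.equiv y ∈ (A.ch p).dual.L a := by
      rw [LChain.mem_dual]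
      exact (h.mem p a y).1 hy
    have h2 := hx a _ h1
    rw [add_comm] at h2
    exact h2
  · intro hx a φ hφ
    obtain ⟨y, rfl⟩ := h.equiv.surjective φ
    have h1 : y ∈ (B.ch p).L a := by
      rw [h.mem p a y]
      rw [LChain.mem_dual] at hφ
      exact hφ
    have h2 := hx a y h1
    rw [add_comm] at h2
    exact h2

end Global

end Vale.Agent.P182.H430
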