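import Vale.Agent.P182.H430.NKS
import Vale.Agent.P182.H578.N1b

/-!
# N1 for the concrete bundle `N`
-/

namespace Vale.Agent.P182.H430

open Polynomial Module Matrix

theorem sum_eta {J R : Type*} [Fintype J] [DecidableEq J] [CommRing R] {a b : J} (hab : a ≠ b)
    (f : J → J → R) :
    ∑ l, ∑ m, (if l = a ∧ m = b then (1 : R) else if l = b ∧ m = a then -1 else 0) * f l m =
      f a b - f b a := by
  rw [Finset.sum_eq_add a b hab]
  · rw [Finset.sum_eq_single b, Finset.sum_eq_single a]
    · simp only [and_self, if_true, hab, if_false, Ne.symm hab]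
      ring
    · intro c _ hc
      simp [hc, Ne.symm hab]
    · intro h; exact absurd (Finset.mem_univ _) h
    · intro c _ hc
      simp [hc, hab]
    · intro h; exact absurd (Finset.mem_univ _) h
  · rintro l _ ⟨h1, h4⟩
    refine Finset.sum_eq_zero fun m _ => ?_
    simp [h1, h4]
  · intro h; exact absurd (Finset.mem_univ _) h
  · intro h; exact absurd (Finset.mem_univ _) h

theorem eta_skew {J R : Type*} [DecidableEq J] [CommRing R] {a b : J} (hab : a ≠ b) (l m : J) :
    (if l = a ∧ m = b then (1 : R) else if l = b ∧ m = a then -1 else 0) =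
      -(if m = a ∧ l = b then (1 : R) else if m = b ∧ l = a then -1 else 0) := by
  by_cases h1 : l = a ∧ m = b
  · obtain ⟨rfl, rfl⟩ := h1
    have h4 : ¬ (m = l ∧ l = m) := fun h => hab h.2
    simp [h4]
  · by_cases h4 : l = b ∧ m = a
    · obtain ⟨rfl, rfl⟩ := h4
      simp [hab]
    · have h5 : ¬ (m = a ∧ l = b) := fun h => h4 ⟨h.2, h.1⟩
      have h6 : ¬ (m = b ∧ l = a) := fun h => h1 ⟨h.2, h.1⟩
      simp [h1, h4, h5, h6]

namespace NData

variable {k : Type*} [Field k] {J : Type*} [Fintype J] [DecidableEq J] (X : NData k J)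

theorem d_Om' (d : Ders X) {η : J → J → k} (hd : ∀ l m, d.1 (X.Ω l m) = η l m) (l m : J) :
    d.1 (X.Om' l m) = (X.z (X.arm l) - X.z (X.arm m)) * η l m := by
  unfold Om'
  rw [Derivation.leibniz, hd, map_sub, d.2, d.2, sub_zero, smul_zero, add_zero, smul_eq_mul]

/-- the matrix `Ω'` is nonsingular -/
theorem det_unit (h2 : (2 : k) ≠ 0) (hΩ : X.VersΩ)
    (hJ : ∀ s, 2 * Fintype.card {l // X.arm l = s} ≤ Fintype.card J) : IsUnit X.Om'.det := by
  classical
  by_contra hdet
  have hdet0 : X.Om'.det = 0 := by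
    by_contra h
    exact hdet (isUnit_iff_ne_zero.2 h)
  obtain ⟨w, hw0, hw⟩ := Matrix.exists_mulVec_eq_zero_iff.2 hdet0
  have hw' : ∀ l, ∑ m, X.Om' l m * w m = 0 := fun l => congrFun hw l
  -- Step 1
  have step1 : ∀ a b, X.arm a ≠ X.arm b → w a * w b = 0 := by
    intro a b hab
    have hab' : a ≠ b := fun h => hab (by rw [h])
    obtain ⟨d, hd⟩ := hΩ (fun l m => if l = a ∧ m = b then 1 else if l = b ∧ m = a then -1 else 0)
      (fun l m => eta_skew hab' l m)
    have h1 : ∀ l, ∑ m, ((X.z (X.arm l) - X.z (X.arm m)) *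
        (if l = a ∧ m = b then 1 else if l = b ∧ m = a then -1 else 0) * w m +
        X.Om' l m * d.1 (w m)) = 0 := by
      intro l
      have h3 := congrArg d.1 (hw' l)
      rw [map_zero, map_sum] at h3
      refine Eq.trans (Finset.sum_congr rfl fun m _ => ?_) h3
      rw [Derivation.leibniz, X.d_Om' d hd, smul_eq_mul, smul_eq_mul]
      ring
    have h3 : ∑ l, w l * ∑ m, ((X.z (X.arm l) - X.z (X.arm m)) *
        (if l = a ∧ m = b then 1 else if l = b ∧ m = a then -1 else 0) * w m +
        X.Om' l m * d.1 (w m)) = 0 := Finset.sum_eq_zero fun l _ => by rw [h1, mul_zero]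
    have h4 : ∑ l, w l * ∑ m, ((X.z (X.arm l) - X.z (X.arm m)) *
        (if l = a ∧ m = b then 1 else if l = b ∧ m = a then -1 else 0) * w m +
        X.Om' l m * d.1 (w m)) =
        (∑ l, ∑ m, (if l = a ∧ m = b then (1 : k) else if l = b ∧ m = a then -1 else 0) *
          (w l * w m * (X.z (X.arm l) - X.z (X.arm m)))) +
        ∑ m, d.1 (w m) * ∑ l, X.Om' m l * w l := by
      have e1 : ∑ m, d.1 (w m) * ∑ l, X.Om' m l * w l =
          ∑ l, ∑ m, w l * (X.Om' l m * d.1 (w m)) := by
        rw [Finset.sum_comm]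
        refine Finset.sum_congr rfl fun m _ => ?_
        rw [Finset.mul_sum]
        refine Finset.sum_congr rfl fun l _ => ?_
        rw [X.Om'_symm m l]
        ring
      rw [e1, ← Finset.sum_add_distrib]
      refine Finset.sum_congr rfl fun l _ => ?_
      rw [Finset.mul_sum, ← Finset.sum_add_distrib]
      refine Finset.sum_congr rfl fun m _ => ?_
      ring
    rw [h4, sum_eta hab'] at h3
    simp only [hw', mul_zero, Finset.sum_const_zero, add_zero] at h3
    have hz : X.z (X.arm a) - X.z (X.arm b) ≠ 0 := sub_ne_zero.2 fun h => hab (X.hz h)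
    have h5 : (2 * (X.z (X.arm a) - X.z (X.arm b))) * (w a * w b) = 0 := by
      linear_combination h3
    exact (mul_eq_zero.1 h5).resolve_left (mul_ne_zero h2 hz)
  obtain ⟨a, ha⟩ : ∃ a, w a ≠ 0 := by
    by_contra h
    push Not at h
    exact hw0 (funext h)
  set s := X.arm a with hs
  have hsupp : ∀ b, X.arm b ≠ s → w b = 0 := fun b hb =>
    (mul_eq_zero.1 (step1 a b (Ne.symm hb))).resolve_left ha
  let A : ({l // X.arm l = s} → k) →ₗ[k] ({l // X.arm l ≠ s} → k) :=
    Matrix.mulVecLin (fun l m => X.Ω l.1 m.1)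
  have hA : ∀ v l, A v l = ∑ m : {l // X.arm l = s}, X.Ω l.1 m.1 * v m := fun v l => rfl
  have hsum : ∀ f : J → k, (∀ m, X.arm m ≠ s → f m = 0) →
      ∑ m, f m = ∑ m : {l // X.arm l = s}, f m := by
    intro f hf
    rw [← Finset.sum_subtype (Finset.univ.filter (fun l => X.arm l = s)) (by simp) f]
    symm
    refine Finset.sum_subset (Finset.filter_subset _ _) fun m _ hm => hf m fun h => hm ?_
    simp [h]
  have hw1 : ∀ l, X.arm l ≠ s → ∑ m : {l // X.arm l = s}, X.Ω l m * w m = 0 := by
    intro l hl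
    have h1 := hw' l
    rw [hsum _ (fun m hm => by rw [hsupp m hm, mul_zero])] at h1
    have h3 : (X.z (X.arm l) - X.z s) * ∑ m : {l // X.arm l = s}, X.Ω l m * w m = 0 := by
      rw [← h1, Finset.mul_sum]
      refine Finset.sum_congr rfl fun m _ => ?_
      unfold Om'
      rw [m.2]
      ring
    exact (mul_eq_zero.1 h3).resolve_left (sub_ne_zero.2 fun h => hl (X.hz h))
  have hAw : A (fun m => w m.1) = 0 := by
    funext l
    rw [hA]
    exact hw1 l.1 l.2
  have hAs : Function.Surjective A := by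
    intro u
    let u' : J → k := fun l => if h : X.arm l ≠ s then u ⟨l, h⟩ * (w a)⁻¹ else 0
    have hu's : ∀ l, X.arm l = s → u' l = 0 := fun l hl => dif_neg (not_not.2 hl)
    obtain ⟨d, hd⟩ := hΩ (fun l m => (if m = a then u' l else 0) - (if l = a then u' m else 0))
      (fun l m => by ring)
    refine ⟨fun m => -d.1 (w m.1), ?_⟩
    funext l
    rw [hA]
    have h1 := congrArg d.1 (hw1 l.1 l.2)
    rw [map_zero, map_sum] at h1
    have h3 : ∑ m : {l // X.arm l = s}, d.1 (X.Ω l.1 m.1 * w m.1) =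
        ∑ m : {l // X.arm l = s}, ((if m.1 = a then u' l.1 else 0) * w m.1 +
          X.Ω l.1 m.1 * d.1 (w m.1)) := by
      refine Finset.sum_congr rfl fun m _ => ?_
      rw [Derivation.leibniz, hd, smul_eq_mul, smul_eq_mul]
      have h4 : l.1 ≠ a := fun h => l.2 (by rw [h])
      rw [if_neg h4]
      ring
    rw [h3, Finset.sum_add_distrib] at h1
    have h4 : ∑ m : {l // X.arm l = s}, (if m.1 = a then u' l.1 else 0) * w m.1 = u l := by
      rw [Finset.sum_eq_single (⟨a, rfl⟩ : {l // X.arm l = s})]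
      · rw [if_pos rfl]
        show (if h : X.arm l.1 ≠ s then u ⟨l.1, h⟩ * (w a)⁻¹ else 0) * w a = u l
        rw [dif_pos l.2, mul_assoc, inv_mul_cancel₀ ha, mul_one]
      · intro m _ hm
        rw [if_neg (fun h => hm (Subtype.ext h)), zero_mul]
      · intro h; exact absurd (Finset.mem_univ _) h
    rw [h4] at h1
    simp only [mul_neg, Finset.sum_neg_distrib]
    exact (eq_neg_of_add_eq_zero_left h1).symm
  -- dimensions
  have hr := A.finrank_range_add_finrank_ker
  rw [LinearMap.range_eq_top.2 hAs, finrank_top, Module.finrank_pi, Module.finrank_pi] at hr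
  have hker : 0 < finrank k (LinearMap.ker A) := by
    have hne : (⟨fun m => w m.1, hAw⟩ : LinearMap.ker A) ≠ 0 := by
      intro h
      have h1 : (fun m : {l // X.arm l = s} => w m.1) = 0 := congrArg Subtype.val h
      exact ha (congrFun h1 ⟨a, rfl⟩)
    exact Module.finrank_pos_iff_exists_ne_zero.2 ⟨_, hne⟩
  have hc : Fintype.card {l // X.arm l ≠ s} + Fintype.card {l // X.arm l = s} =
      Fintype.card J := by
    rw [Fintype.card_subtype_compl]
    have := Fintype.card_subtype_le (fun l => X.arm l = s)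
    omega
  have := hJ s
  omega

end NData

end Vale.Agent.P182.H430
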