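import Vale.Agent.P182.H430.RankOne
import Vale.Agent.P182.H62.Chain

/-!
# Bundles on a weighted curve of genus zero

`Bun C E` : an integral norm (chain of lattices) on the `F`-space `E` at every place, standard for
one basis at almost every place.  Sub and quotient bundles; `χ` is finite and additive.
-/

namespace Vale.Agent.P182.H430

open LinearMap Submodule Module

universe u

section Std

variable {k F P : Type*} [Field k] [Field F] [Algebra k F] (C : Curve k F P)

theorem Curve.mem_M_ae (f : F) : ∀ᶠ p in Filter.cofinite, f ∈ (C.pl p).M 1 0 := by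
  rw [Filter.eventually_cofinite]
  by_cases hf : f = 0
  · refine Set.finite_empty.subset ?_
    intro p hp
    exact (hp (Or.inl hf)).elim
  · refine (C.ord_ae f hf).subset ?_
    intro p hp h
    exact hp (Or.inr (by rw [h]; simp))

theorem M_zero_eq (Q : Place k F) {p : ℕ} (hp : 0 < p) : Q.M p 0 = Q.M 1 0 := by
  have := M_eq Q hp 0
  simpa using this

variable {E E' : Type*} [AddCommGroup E] [Module F E] [AddCommGroup E'] [Module F E']

/-- every linear map is integral at almost every place, with respect to given bases -/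
theorem Curve.map_ae {ι ι' : Type*} [Fintype ι] [Fintype ι'] (b : Basis ι F E)
    (b' : Basis ι' F E') (φ : E →ₗ[F] E') :
    ∀ᶠ p in Filter.cofinite, ∀ (a : ℤ) (x : E), (∀ i, b.repr x i ∈ (C.pl p).M (C.per p) a) →
      ∀ j, b'.repr (φ x) j ∈ (C.pl p).M (C.per p) a := by
  have h1 : ∀ᶠ p in Filter.cofinite, ∀ i j, b'.repr (φ (b i)) j ∈ (C.pl p).M 1 0 := by
    rw [Filter.eventually_all]
    intro i
    rw [Filter.eventually_all]
    intro j
    exact C.mem_M_ae _
  filter_upwards [h1] with p hp a x hx j
  have h2 : b'.repr (φ x) j = ∑ i, b.repr x i * b'.repr (φ (b i)) j := by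
    have h3 : φ x = ∑ i, b.repr x i • φ (b i) := by
      conv_lhs => rw [← b.sum_repr x]
      rw [map_sum]
      simp only [map_smul]
    rw [h3, map_sum, Finsupp.finsetSum_apply]
    refine Finset.sum_congr rfl fun i _ => ?_
    rw [map_smul, Finsupp.smul_apply, smul_eq_mul]
  rw [h2]
  refine Submodule.sum_mem _ fun i _ => ?_
  have h3 := hp i j
  rw [← M_zero_eq _ (C.per_pos p)] at h3
  have h4 := (C.pl p).mul_mem_M (hx i) h3
  rwa [add_zero] at h4

end Std

/-- A (parabolic) bundle. -/
structure Bun {k F P : Type*} [Field k] [Field F] [Algebra k F] (C : Curve k F P)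
    (E : Type*) [AddCommGroup E] [Module F E] [Module k E] where
  /-- the chains -/
  ch : ∀ p, LChain (C.pl p) (C.per p) E
  std : ∃ (n : ℕ) (b : Basis (Fin n) F E), ∀ᶠ p in Filter.cofinite, (ch p).SplitBy b 0

namespace Bun

variable {k F P : Type*} [Field k] [Field F] [Algebra k F] {C : Curve k F P}
  {E : Type*} [AddCommGroup E] [Module F E] [Module k E]

/-- the lattices of a bundle -/
def lat (B : Bun C E) : P → Submodule k E := fun p => (B.ch p).L 0

theorem splitBy_zero_iff {p : P} {L : LChain (C.pl p) (C.per p) E} {ι : Type*}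
    {b : Basis ι F E} : L.SplitBy b 0 ↔
      ∀ a x, x ∈ L.L a ↔ ∀ i, b.repr x i ∈ (C.pl p).M (C.per p) a := by
  unfold LChain.SplitBy
  simp

/-- standard for every basis -/
theorem std_all (B : Bun C E) {ι : Type*} [Fintype ι] (b : Basis ι F E) :
    ∀ᶠ p in Filter.cofinite, (B.ch p).SplitBy b 0 := by
  obtain ⟨n, b0, h0⟩ := B.std
  filter_upwards [h0, C.map_ae b b0 LinearMap.id, C.map_ae b0 b LinearMap.id] with p h1 h2 h3
  rw [splitBy_zero_iff] at h1 ⊢
  intro a x
  rw [h1]
  exact ⟨fun h => h3 a x h, fun h => h2 a x h⟩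

theorem finiteDimensional (B : Bun C E) : FiniteDimensional F E := by
  obtain ⟨n, b, -⟩ := B.std
  exact Module.Finite.of_basis b

theorem adm (B : Bun C E) : Adm B.lat := by
  obtain ⟨n, b, h⟩ := B.std
  intro x
  rw [← Filter.eventually_cofinite (p := fun p => x ∈ B.lat p)]
  have h1 : ∀ᶠ p in Filter.cofinite, ∀ i, b.repr x i ∈ (C.pl p).M 1 0 := by
    rw [Filter.eventually_all]
    intro i
    exact C.mem_M_ae _
  filter_upwards [h, h1] with p h2 h3
  rw [splitBy_zero_iff] at h2
  show x ∈ (B.ch p).L 0
  rw [h2, M_zero_eq _ (C.per_pos p)]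
  exact h3

variable [IsScalarTower k F E]

/-- sub-bundle -/
def sub (B : Bun C E) (S : Submodule F E) : Bun C S where
  ch p := (B.ch p).sub S
  std := by
    have := B.finiteDimensional
    obtain ⟨T, hT⟩ := S.exists_isCompl
    let e : E →ₗ[F] S := S.projectionOnto T hT
    have he : ∀ x : S, e x = x := fun x => Submodule.projectionOnto_apply_left hT x
    let b := finBasis F E
    let bS := finBasis F S
    refine ⟨_, bS, ?_⟩
    filter_upwards [B.std_all b, C.map_ae bS b S.subtype, C.map_ae b bS e] with p h1 h2 h3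
    rw [splitBy_zero_iff] at h1 ⊢
    intro a x
    rw [LChain.mem_sub, h1]
    constructor
    · intro h
      have := h3 a x h
      rwa [he] at this
    · intro h
      exact h2 a x h

/-- quotient bundle -/
def quo (B : Bun C E) (S : Submodule F E) : Bun C (E ⧸ S) where
  ch p := (B.ch p).quo S
  std := by
    have := B.finiteDimensional
    obtain ⟨s, hs⟩ := S.mkQ.exists_rightInverse_of_surjective (LinearMap.range_eq_top.2
      S.mkQ_surjective)
    have hs' : ∀ x, S.mkQ (s x) = x := fun x => LinearMap.congr_fun hs x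
    let b := finBasis F E
    let bQ := finBasis F (E ⧸ S)
    refine ⟨_, bQ, ?_⟩
    filter_upwards [B.std_all b, C.map_ae bQ b s, C.map_ae b bQ S.mkQ] with p h1 h2 h3
    rw [splitBy_zero_iff] at h1 ⊢
    intro a x
    rw [LChain.mem_quo]
    constructor
    · rintro ⟨y, hy, rfl⟩
      exact h3 a y ((h1 a y).1 hy)
    · intro h
      exact ⟨s x, (h1 a _).2 (h2 a x h), hs' x⟩

theorem ses (S : Submodule F E) :
    SES (k := k) (S.subtype.restrictScalars k) (S.mkQ.restrictScalars k) := by
  refine ⟨S.injective_subtype, ?_, S.mkQ_surjective⟩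
  ext x
  constructor
  · rintro ⟨y, rfl⟩
    rw [LinearMap.mem_ker]
    show S.mkQ (y : E) = 0
    simp
  · intro hx
    have : S.mkQ x = 0 := hx
    exact ⟨⟨x, by simpa using this⟩, rfl⟩

/-- additivity of `χ`, assuming finiteness of the two ends -/
theorem chi_add_aux (B : Bun C E) (S : Submodule F E) (h1 : FinCoh (B.sub S).lat)
    (h3 : FinCoh (B.quo S).lat) :
    FinCoh B.lat ∧ chi B.lat = chi (B.sub S).lat + chi (B.quo S).lat :=
  chi_ses (ses S) (fun _ => rfl) (fun _ => rfl) B.adm h1 h3

omit [IsScalarTower k F E] in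
/-- rank one -/
theorem rank_one (B : Bun C E) [IsScalarTower k F E] (x : E) (hx0 : x ≠ 0)
    (hx : ∀ y : E, ∃ c : F, c • x = y) :
    ∃ w : P → ℤ, {p | w p ≠ 0}.Finite ∧ (∀ p a, x ∈ (B.ch p).L a ↔ a ≤ w p) ∧
      FinCoh B.lat ∧ chi B.lat = 1 + C.deg w := by
  have h1 : ∀ p, ∃ w : ℤ, ∀ a, x ∈ (B.ch p).L a ↔ a ≤ w := fun p => (B.ch p).exists_level hx0
  choose w hw using h1
  -- the basis `x`
  have hinj : Function.Injective (LinearMap.toSpanSingleton F E x) := by
    intro c d h
    exact smul_left_injective F hx0 h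
  have hsurj : Function.Surjective (LinearMap.toSpanSingleton F E x) := hx
  let e : F ≃ₗ[F] E := LinearEquiv.ofBijective _ ⟨hinj, hsurj⟩
  have he : ∀ c, e c = c • x := fun c => rfl
  let b : Basis (Fin 1) F E := (Basis.singleton (Fin 1) F).map e
  have hbx : ∀ i, b.repr x i = 1 := by
    intro i
    have : x = b i := by simp [b, he]
    rw [this, b.repr_self]
    have : i = i := rfl
    simp
  have hw0 : {p | w p ≠ 0}.Finite := by
    rw [← Filter.eventually_cofinite (p := fun p => w p = 0)]
    filter_upwards [B.std_all b] with p hp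
    rw [splitBy_zero_iff] at hp
    have h2 : ∀ a, a ≤ w p ↔ a ≤ 0 := by
      intro a
      rw [← hw p a, hp]
      simp only [hbx, (C.pl p).one_mem_M]
      exact ⟨fun h => h 0, fun h _ => h⟩
    exact le_antisymm ((h2 _).1 le_rfl) ((h2 0).2 le_rfl)
  have hmem : ∀ p (c : F), c ∈ C.I w p ↔ (e.restrictScalars k) c ∈ B.lat p := by
    intro p c
    show c ∈ (C.pl p).M (C.per p) (-w p) ↔ c • x ∈ (B.ch p).L 0
    by_cases hc : c = 0
    · simp [hc]
    · rw [(B.ch p).smul_iff c hc, hw, (C.pl p).mem_M_of_ne hc]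
      constructor <;> intro h <;> linarith
  have h3 := coh_equiv (e.restrictScalars k) hmem
  have h4 := C.rr_one hw0
  exact ⟨w, hw0, hw, h3.1.1 h4.1, by rw [← h3.2.2.2, h4.2]⟩

/-- finiteness of cohomology -/
theorem finCoh_aux (n : ℕ) : ∀ (E : Type u) [AddCommGroup E] [Module F E] [Module k E]
    [IsScalarTower k F E], finrank F E = n → ∀ B : Bun C E, FinCoh B.lat := by
  induction n with
  | zero =>
    intro E _ _ _ _ h B
    have := B.finiteDimensional
    have hs : Subsingleton E := finrank_zero_iff.1 h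
    refine ⟨B.adm, ?_, ?_⟩
    · infer_instance
    · have h1 : ∀ p, Subsingleton (E ⧸ B.lat p) := fun p => inferInstance
      have h2 : Subsingleton (∀ p, E ⧸ B.lat p) := inferInstance
      have h3 : Subsingleton (FS B.lat) := inferInstance
      have h4 : Subsingleton (HO B.lat) := inferInstance
      infer_instance
  | succ n ih =>
    intro E _ _ _ _ h B
    have := B.finiteDimensional
    have hnt : Nontrivial E := by
      apply nontrivial_of_finrank_pos (R := F)
      omega
    obtain ⟨x, hx⟩ := exists_ne (0 : E)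
    let S : Submodule F E := Submodule.span F {x}
    have hS1 : finrank F S = 1 := finrank_span_singleton hx
    have hQ : finrank F (E ⧸ S) = n := by
      have := S.finrank_quotient_add_finrank
      omega
    have h3 := ih (E ⧸ S) hQ (B.quo S)
    let x' : S := ⟨x, Submodule.mem_span_singleton_self x⟩
    have hx'0 : x' ≠ 0 := fun h => hx (congrArg Subtype.val h)
    have hx' : ∀ y : S, ∃ c : F, c • x' = y := by
      rintro ⟨y, hy⟩
      obtain ⟨c, hc⟩ := Submodule.mem_span_singleton.1 hy
      exact ⟨c, Subtype.ext hc⟩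
    obtain ⟨w, -, -, h1, -⟩ := (B.sub S).rank_one x' hx'0 hx'
    exact (chi_add_aux B S h1 h3).1

theorem finCoh (B : Bun C E) : FinCoh B.lat := finCoh_aux _ E rfl B

/-- ADDITIVITY of the Euler characteristic -/
theorem chi_add (B : Bun C E) (S : Submodule F E) :
    chi B.lat = chi (B.sub S).lat + chi (B.quo S).lat :=
  (chi_add_aux B S (B.sub S).finCoh (B.quo S).finCoh).2

end Bun

end Vale.Agent.P182.H430
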