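import Vale.Agent.P182.H430.Pair
import Vale.Agent.P182.H62.BunHom

/-!
# Pairings of bundles: evaluation, trace, sub and quotient bundles, orthogonal summands
-/

namespace Vale.Agent.P182.H430

open LinearMap Submodule Module

variable {k F P : Type*} [Field k] [Field F] [Algebra k F] {C : Curve k F P}
variable {E : Type*} [AddCommGroup E] [Module F E] [Module k E]
variable {E₂ : Type*} [AddCommGroup E₂] [Module F E₂] [Module k E₂]

theorem Bun.tw_eq (B : Bun C E) (n : P → ℤ) (hn : {p | n p ≠ 0}.Finite) :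
    B.tw n = (B.twist n hn).lat := by
  funext p
  ext x
  rw [Bun.mem_twist_lat]
  rfl

variable [IsScalarTower k F E] [IsScalarTower k F E₂]

/-- evaluation is a perfect pairing -/
theorem DPair.dual [FiniteDimensional F E] (A : Bun C E) :
    DPair A A.dual (LinearMap.id (R := F) (M := Dual F E)).flip := by
  refine ⟨?_, fun p c y => ?_⟩
  · exact Function.bijective_id
  · rfl

/-- the trace pairing -/
noncomputable def trp (F E E₂ : Type*) [Field F] [AddCommGroup E] [Module F E]
    [AddCommGroup E₂] [Module F E₂] : (E →ₗ[F] E₂) →ₗ[F] (E₂ →ₗ[F] E) →ₗ[F] F :=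
  LinearMap.mk₂ F (fun φ ψ => LinearMap.trace F E (ψ ∘ₗ φ))
    (fun φ φ' ψ => by rw [LinearMap.comp_add, map_add])
    (fun c φ ψ => by rw [LinearMap.comp_smul, map_smul])
    (fun φ ψ ψ' => by rw [LinearMap.add_comp, map_add])
    (fun c φ ψ => by rw [LinearMap.smul_comp, map_smul])

theorem trp_apply (φ : E →ₗ[F] E₂) (ψ : E₂ →ₗ[F] E) :
    trp F E E₂ φ ψ = LinearMap.trace F E (ψ ∘ₗ φ) := rfl

omit [Module k E] [Module k E₂] [IsScalarTower k F E] [IsScalarTower k F E₂] in
theorem trp_smulRight [FiniteDimensional F E] (η : Dual F E) (y : E₂) (ψ : E₂ →ₗ[F] E) :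
    trp F E E₂ (η.smulRight y) ψ = η (ψ y) := by
  rw [trp_apply]
  have : ψ ∘ₗ (η.smulRight y) = η.smulRight (ψ y) := by
    apply LinearMap.ext
    intro x
    simp
  rw [this, LinearMap.trace_smulRight]

omit [Module k E] [Module k E₂] [IsScalarTower k F E] [IsScalarTower k F E₂] in
theorem trp_bij [FiniteDimensional F E] [FiniteDimensional F E₂] :
    Function.Bijective (trp F E E₂).flip := by
  have hi : Function.Injective (trp F E E₂).flip := by
    rw [injective_iff_map_eq_zero]
    intro ψ hψ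
    apply LinearMap.ext
    intro y
    rw [LinearMap.zero_apply, ← Module.forall_dual_apply_eq_zero_iff F]
    intro η
    rw [← trp_smulRight]
    exact LinearMap.congr_fun hψ _
  refine ⟨hi, (LinearMap.injective_iff_surjective_of_finrank_eq_finrank ?_).1 hi⟩
  rw [Subspace.dual_finrank_eq, Module.finrank_linearMap, Module.finrank_linearMap, mul_comm]

/-- TRACE DUALITY for bundles -/
theorem DPair.hom [FiniteDimensional F E] [FiniteDimensional F E₂] (A : Bun C E) (B : Bun C E₂) :
    DPair (A.hom B) (B.hom A) (trp F E E₂) :=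
  ⟨trp_bij, fun p _ _ => mem_hom_iff_trace (A.ch p) (B.ch p)⟩

section SubQuo

variable {A : Bun C E} {B : Bun C E₂} {T : E →ₗ[F] E₂ →ₗ[F] F}

/-- the orthogonal of a subspace -/
def perp (T : E →ₗ[F] E₂ →ₗ[F] F) (S : Submodule F E) : Submodule F E₂ :=
  S.dualAnnihilator.comap T.flip

omit [Module k E] [Module k E₂] [IsScalarTower k F E] [IsScalarTower k F E₂] in
theorem mem_perp {S : Submodule F E} {y : E₂} : y ∈ perp T S ↔ ∀ x ∈ S, T x y = 0 := by
  unfold perp
  rw [Submodule.mem_comap, Submodule.mem_dualAnnihilator]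
  rfl

/-- the pairing between a subspace and the quotient by its orthogonal -/
noncomputable def tsub (T : E →ₗ[F] E₂ →ₗ[F] F) (S : Submodule F E) :
    S →ₗ[F] (E₂ ⧸ perp T S) →ₗ[F] F :=
  ((perp T S).liftQ ((T ∘ₗ S.subtype).flip) (by
    intro y hy
    rw [LinearMap.mem_ker]
    apply LinearMap.ext
    intro x
    exact mem_perp.1 hy x x.2)).flip

omit [Module k E] [Module k E₂] [IsScalarTower k F E] [IsScalarTower k F E₂] in
theorem tsub_apply (S : Submodule F E) (x : S) (y : E₂) :
    tsub T S x ((perp T S).mkQ y) = T x y := rfl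

/-- the pairing between the quotient by a subspace and its orthogonal -/
noncomputable def tquo (T : E →ₗ[F] E₂ →ₗ[F] F) (S : Submodule F E) :
    (E ⧸ S) →ₗ[F] (perp T S) →ₗ[F] F :=
  S.liftQ ((T.flip ∘ₗ (perp T S).subtype).flip) (by
    intro x hx
    rw [LinearMap.mem_ker]
    apply LinearMap.ext
    intro y
    exact mem_perp.1 y.2 x hx)

omit [Module k E] [Module k E₂] [IsScalarTower k F E] [IsScalarTower k F E₂] in
theorem tquo_apply (S : Submodule F E) (x : E) (y : perp T S) :
    tquo T S (S.mkQ x) y = T x y := rfl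

omit [IsScalarTower k F E₂] in
/-- extension of functionals -/
theorem DPair.extend (h : DPair A B T) (S : Submodule F E) (p : P) (c : ℤ) (η : Dual F S)
    (hη : ∀ a (x : S), (x : E) ∈ (A.ch p).L a → η x ∈ (C.pl p).M (C.per p) (a + c)) :
    ∃ y ∈ (B.ch p).L c, ∀ x : S, T x y = η x := by
  have := A.finiteDimensional
  obtain ⟨e, he1, he2, he3⟩ := (A.ch p).exists_proj S
  obtain ⟨y, hy⟩ := h.equiv.surjective (η ∘ₗ e.codRestrict S he1)
  have hy' : ∀ x, T x y = η (e.codRestrict S he1 x) := fun x => LinearMap.congr_fun hy x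
  refine ⟨y, ?_, ?_⟩
  · rw [h.mem]
    intro a x hx
    rw [hy']
    exact hη a _ (he3 a x hx)
  · intro x
    rw [hy']
    congr 1
    exact Subtype.ext (he2 x x.2)

/-- sub-bundle against quotient bundle -/
theorem DPair.sub (h : DPair A B T) (S : Submodule F E) :
    DPair (A.sub S) (B.quo (perp T S)) (tsub T S) := by
  refine ⟨⟨?_, ?_⟩, ?_⟩
  · rw [injective_iff_map_eq_zero]
    intro y hy
    obtain ⟨y, rfl⟩ := (perp T S).mkQ_surjective y
    refine (Submodule.Quotient.mk_eq_zero _).2 (mem_perp.2 fun x hx => ?_)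
    exact LinearMap.congr_fun hy ⟨x, hx⟩
  · intro η
    obtain ⟨ξ, hξ⟩ := LinearMap.exists_extend η
    obtain ⟨y, rfl⟩ := h.equiv.surjective ξ
    refine ⟨(perp T S).mkQ y, ?_⟩
    rw [← hξ]
    rfl
  · intro p c y
    obtain ⟨y, rfl⟩ := (perp T S).mkQ_surjective y
    constructor
    · rintro ⟨y', hy', hyy⟩ a x hx
      have h1 : (perp T S).mkQ y' = (perp T S).mkQ y := hyy
      rw [← h1, tsub_apply]
      exact (h.mem p c y').1 hy' a x hx
    · intro hy
      obtain ⟨y', hy', hyy⟩ := h.extend S p c (T.flip y ∘ₗ S.subtype) (fun a x hx => hy a x hx)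
      refine ⟨y', hy', ?_⟩
      show (perp T S).mkQ y' = (perp T S).mkQ y
      refine (Submodule.Quotient.eq _).2 (mem_perp.2 fun x hx => ?_)
      rw [map_sub, sub_eq_zero]
      exact hyy ⟨x, hx⟩

/-- quotient bundle against sub-bundle -/
theorem DPair.quo (h : DPair A B T) (S : Submodule F E) :
    DPair (A.quo S) (B.sub (perp T S)) (tquo T S) := by
  refine ⟨⟨?_, ?_⟩, ?_⟩
  · rw [injective_iff_map_eq_zero]
    intro y hy
    have h1 : h.equiv (y : E₂) = 0 := by
      apply LinearMap.ext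
      intro x
      exact LinearMap.congr_fun hy (S.mkQ x)
    exact Subtype.ext ((LinearEquiv.map_eq_zero_iff _).1 h1)
  · intro η
    obtain ⟨y, hy⟩ := h.equiv.surjective (η ∘ₗ S.mkQ)
    have hy' : ∀ x, T x y = η (S.mkQ x) := fun x => LinearMap.congr_fun hy x
    refine ⟨⟨y, mem_perp.2 fun x hx => ?_⟩, ?_⟩
    · rw [hy']
      have : S.mkQ x = 0 := by simpa using hx
      rw [this, map_zero]
    · apply LinearMap.ext
      intro x
      obtain ⟨x, rfl⟩ := S.mkQ_surjective x
      exact hy' x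
  · intro p c y
    rw [show y ∈ ((B.sub (perp T S)).ch p).L c ↔ (y : E₂) ∈ (B.ch p).L c from Iff.rfl, h.mem]
    constructor
    · rintro hy a _ ⟨x, hx, rfl⟩
      exact hy a x hx
    · intro hy a x hx
      exact hy a (S.mkQ x) ⟨x, hx, rfl⟩

/-- restriction of a pairing to two subspaces -/
def tres (T : E →ₗ[F] E₂ →ₗ[F] F) (S : Submodule F E) (R : Submodule F E₂) :
    S →ₗ[F] R →ₗ[F] F := T.domRestrict₁₂ S R

omit [Module k E] [Module k E₂] [IsScalarTower k F E] [IsScalarTower k F E₂] in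
theorem tres_apply (S : Submodule F E) (R : Submodule F E₂) (x : S) (y : R) :
    tres T S R x y = T x y := rfl

/-- restriction of a perfect pairing to a subspace `S` and a complement `R` of its orthogonal,
compatible with the chains -/
theorem DPair.restrict (h : DPair A B T) (S : Submodule F E) (R : Submodule F E₂)
    (e : E₂ →ₗ[F] E₂) (he1 : ∀ y, e y ∈ R) (he2 : ∀ y ∈ R, e y = y)
    (he3 : ∀ y ∈ perp T S, e y = 0) (he4 : ∀ x ∈ S, ∀ y, T x (e y) = T x y)
    (he5 : ∀ p a, ∀ y ∈ (B.ch p).L a, e y ∈ (B.ch p).L a) :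
    DPair (A.sub S) (B.sub R) (tres T S R) := by
  refine ⟨⟨?_, ?_⟩, ?_⟩
  · rw [injective_iff_map_eq_zero]
    intro y hy
    have h1 : (y : E₂) ∈ perp T S := mem_perp.2 fun x hx =>
      LinearMap.congr_fun hy ⟨x, hx⟩
    have h2 := he3 _ h1
    rw [he2 _ y.2] at h2
    exact Subtype.ext h2
  · intro η
    obtain ⟨ξ, hξ⟩ := LinearMap.exists_extend η
    obtain ⟨y, rfl⟩ := h.equiv.surjective ξ
    refine ⟨⟨e y, he1 y⟩, ?_⟩
    apply LinearMap.ext
    intro x
    rw [← hξ]
    exact he4 x x.2 y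
  · intro p c y
    constructor
    · intro hy a x hx
      exact (h.mem p c (y : E₂)).1 hy a x hx
    · intro hy
      obtain ⟨y', hy', hyy⟩ := h.extend S p c (T.flip (y : E₂) ∘ₗ S.subtype)
        (fun a x hx => hy a x hx)
      have h1 : y' - (y : E₂) ∈ perp T S := mem_perp.2 fun x hx => by
        rw [map_sub, sub_eq_zero]
        exact hyy ⟨x, hx⟩
      have h2 := he3 _ h1
      rw [map_sub, he2 _ y.2, sub_eq_zero] at h2
      show (y : E₂) ∈ (B.ch p).L c
      rw [← h2]
      exact he5 p c y' hy'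

end SubQuo

end Vale.Agent.P182.H430
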