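import Vale.Agent.P182.H430.CChain
import Vale.Agent.P182.H430.Pair2

/-!
# Bundles given by flagged constant spaces

`CFl C w0 B` : a constant (finite dimensional) space `B` with a filtration at every place, full in
the level `w0 p` and zero in the level `w0 p + per p`.  `cBun` is the bundle on `F ⊗ B`.

* `one_mem_cBun` : the vector `1 ⊗ v` lies in level `a` iff `v` lies in the filtration;
* `cBun_maps` : universal property;
* `exists_const` : a vector which is everywhere in the level `w0` is a constant.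
-/

namespace Vale.Agent.P182.H430

open LinearMap Submodule Module TensorProduct

variable {k F P : Type*} [Field k] [Field F] [Algebra k F]

/-- a constant flagged space -/
structure CFl (C : Curve k F P) (w0 : P → ℤ) (B : Type*) [AddCommGroup B] [Module k B] where
  G : P → ℤ → Submodule k B
  anti : ∀ p, Antitone (G p)
  top : ∀ p a, a ≤ w0 p → G p a = ⊤
  bot : ∀ p a, w0 p + C.per p ≤ a → G p a = ⊥

namespace CFl

variable {C : Curve k F P} {w0 : P → ℤ} {B : Type*} [AddCommGroup B] [Module k B]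
  [FiniteDimensional k B] (𝒢 : CFl C w0 B)

theorem exists_basis (p : P) : ∃ (b : Basis (Fin (finrank k B)) k B)
    (w : Fin (finrank k B) → ℤ), Adapted (𝒢.G p) b w :=
  exists_adapted _ (𝒢.anti p) ⟨w0 p, 𝒢.top p⟩ ⟨w0 p + C.per p, 𝒢.bot p⟩

/-- an adapted basis -/
noncomputable def basis (p : P) : Basis (Fin (finrank k B)) k B := (𝒢.exists_basis p).choose

/-- its weights -/
noncomputable def wt (p : P) : Fin (finrank k B) → ℤ := (𝒢.exists_basis p).choose_spec.choose

theorem adapted (p : P) : Adapted (𝒢.G p) (𝒢.basis p) (𝒢.wt p) :=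
  (𝒢.exists_basis p).choose_spec.choose_spec

theorem wt_ge (p : P) (i) : w0 p ≤ 𝒢.wt p i := (𝒢.adapted p).le (𝒢.top p _ le_rfl) i

theorem wt_lt (p : P) (i) : 𝒢.wt p i < w0 p + C.per p :=
  (𝒢.adapted p).lt (𝒢.anti p) (𝒢.bot p _ le_rfl) i

omit [FiniteDimensional k B] in
/-- the adapted basis at an unmarked place -/
theorem adapted_unmarked {p : P} (h1 : C.per p = 1) (h0 : w0 p = 0) {ι : Type*}
    (b : Basis ι k B) : Adapted (𝒢.G p) b 0 := by
  intro a v
  rcases le_or_gt a 0 with h | h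
  · rw [𝒢.top p a (by omega)]
    exact ⟨fun _ i _ => h, fun _ => Submodule.mem_top⟩
  · rw [𝒢.bot p a (by omega), Submodule.mem_bot]
    constructor
    · rintro rfl i hi
      exact absurd (by simp) hi
    · intro h1
      have h2 : b.repr v = 0 := by
        ext i
        by_contra h3
        exact absurd (h1 i h3) (not_le.2 h)
      simpa using h2

/-- THE BUNDLE of a constant flagged space -/
noncomputable def bun (hw : {p | w0 p ≠ 0}.Finite) : Bun C (F ⊗[k] B) where
  ch p := bchain (C.pl p) (C.per_pos p) (𝒢.basis p) (𝒢.wt p)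
  std := by
    refine ⟨finrank k B, (finBasis k B).baseChange F, ?_⟩
    have h1 : ∀ᶠ p in Filter.cofinite, C.per p = 1 := by
      rw [Filter.eventually_cofinite]
      exact C.per_ae
    have h2 : ∀ᶠ p in Filter.cofinite, w0 p = 0 := by
      rw [Filter.eventually_cofinite]
      exact hw
    filter_upwards [h1, h2] with p h3 h4
    exact bchain_split' (𝒢.adapted p) (𝒢.adapted_unmarked h3 h4 (finBasis k B))

variable {hw : {p | w0 p ≠ 0}.Finite}

/-- constants -/
theorem one_mem {p : P} {a : ℤ} {v : B} :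
    (1 : F) ⊗ₜ[k] v ∈ ((𝒢.bun hw).ch p).L a ↔ v ∈ 𝒢.G p a :=
  one_mem_bchain (𝒢.adapted p)

/-- splitting by any adapted basis -/
theorem split {p : P} {ι : Type*} [Fintype ι] {b : Basis ι k B} {w : ι → ℤ}
    (h : Adapted (𝒢.G p) b w) : ((𝒢.bun hw).ch p).SplitBy (b.baseChange F) w :=
  bchain_split' (𝒢.adapted p) h

/-- universal property -/
theorem maps {p : P} {E₂ : Type*} [AddCommGroup E₂] [Module F E₂] [Module k E₂]
    (C₂ : LChain (C.pl p) (C.per p) E₂) {c : ℤ} {φ : (F ⊗[k] B) →ₗ[F] E₂} :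
    (∀ a, ∀ y ∈ ((𝒢.bun hw).ch p).L a, φ y ∈ C₂.L (a + c)) ↔
      ∀ a, ∀ v ∈ 𝒢.G p a, φ ((1 : F) ⊗ₜ[k] v) ∈ C₂.L (a + c) :=
  bchain_maps (𝒢.adapted p) C₂

/-- level zero maps to a line -/
theorem maps_line {p : P} {c : ℤ} {φ : (F ⊗[k] B) →ₗ[F] F} :
    (∀ a, ∀ y ∈ ((𝒢.bun hw).ch p).L a, φ y ∈ (C.pl p).M (C.per p) (a + c)) ↔
      ∀ a, ∀ v ∈ 𝒢.G p a, φ ((1 : F) ⊗ₜ[k] v) ∈ (C.pl p).M (C.per p) (a + c) :=
  𝒢.maps (LChain.unit (C.pl p) (C.per_pos p))

omit [FiniteDimensional k B] in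
theorem _root_.Vale.Agent.P182.H430.Curve.mem_M_reg (C : Curve k F P) {p : P} {f : F} {a : ℤ}
    (h : -(C.per p : ℤ) < a) (hf : f ∈ (C.pl p).M (C.per p) a) : f ∈ (C.pl p).M 1 0 := by
  by_cases h0 : f = 0
  · exact Or.inl h0
  rw [(C.pl p).mem_M_of_ne h0] at hf ⊢
  have h1 : (0 : ℤ) < C.per p := by exact_mod_cast C.per_pos p
  have h2 : -(C.per p : ℤ) < C.per p * (C.pl p).ord f := lt_of_lt_of_le h hf
  have h3 : -1 < (C.pl p).ord f := by
    by_contra h4
    have h5 : (C.pl p).ord f ≤ -1 := not_lt.1 h4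
    nlinarith
  push_cast
  linarith

/-- coordinates of the elements of level `w0` are regular -/
theorem coord_reg {p : P} {x : F ⊗[k] B} (hx : x ∈ ((𝒢.bun hw).ch p).L (w0 p)) {ι : Type*}
    [Fintype ι] (b : Basis ι k B) (i : ι) : (b.baseChange F).repr x i ∈ (C.pl p).M 1 0 := by
  obtain ⟨c, hc, rfl⟩ := hx
  rw [map_sum, Finsupp.finsetSum_apply]
  refine Submodule.sum_mem _ fun j _ => ?_
  rw [map_smul, Finsupp.smul_apply, smul_eq_mul, Basis.baseChange_apply, bc_repr]
  have h1 := C.mem_M_reg (by have := 𝒢.wt_lt p j; linarith) (hc j)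
  have h2 : algebraMap k F (b.repr (𝒢.basis p j) i) ∈ (C.pl p).M 1 0 := by
    rw [alg_mem_M]; intro _; exact le_rfl
  have h3 := (C.pl p).mul_mem_M h1 h2
  rwa [add_zero] at h3

/-- GLOBAL SECTIONS ARE CONSTANTS -/
theorem exists_const {x : F ⊗[k] B} (hx : ∀ p, x ∈ ((𝒢.bun hw).ch p).L (w0 p)) :
    ∃ v : B, x = (1 : F) ⊗ₜ[k] v := by
  let b := finBasis k B
  have h1 : ∀ i, ∃ c : k, algebraMap k F c = (b.baseChange F).repr x i := fun i =>
    C.H0 _ fun p => 𝒢.coord_reg (hx p) b i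
  choose c hc using h1
  refine ⟨∑ i, c i • b i, ?_⟩
  apply (b.baseChange F).repr.injective
  ext i
  rw [bc_repr, ← hc i]
  congr 1
  rw [← b.equivFun_symm_apply, ← b.equivFun_apply, LinearEquiv.apply_symm_apply]

omit [FiniteDimensional k B] in
theorem one_tmul_inj {v v' : B} (h : (1 : F) ⊗ₜ[k] v = (1 : F) ⊗ₜ[k] v') : v = v' := by
  let b := Basis.ofVectorSpace k B
  apply b.repr.injective
  ext i
  have h1 := congrArg (fun x => (b.baseChange F).repr x i) h
  simp only [bc_repr] at h1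
  exact (algebraMap k F).injective h1

/-- integral vectors: `O ⊗ B` is the level `w0` -/
theorem mem_w0_iff {p : P} {x : F ⊗[k] B} {ι : Type*} [Fintype ι] (b : Basis ι k B) :
    x ∈ ((𝒢.bun hw).ch p).L (w0 p) ↔ ∀ i, (b.baseChange F).repr x i ∈ (C.pl p).M 1 0 := by
  refine ⟨fun hx i => 𝒢.coord_reg hx b i, fun h => ?_⟩
  rw [← (b.baseChange F).sum_repr x]
  refine Submodule.sum_mem _ fun i _ => ?_
  have h1 := h i
  rw [← M_zero_eq _ (C.per_pos p)] at h1
  rw [Basis.baseChange_apply]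
  refine LChain.smul_mem' _ h1 (𝒢.one_mem.2 ?_) (by linarith : w0 p ≤ w0 p + 0)
  rw [𝒢.top p _ le_rfl]
  exact Submodule.mem_top

/-- the maximal ideal times `B` is in every level below `w0 + per` -/
theorem mem_of_max {p : P} {x : F ⊗[k] B} {ι : Type*} [Fintype ι] (b : Basis ι k B)
    (h : ∀ i, (b.baseChange F).repr x i ∈ (C.pl p).M (C.per p) (C.per p)) {a : ℤ}
    (ha : a ≤ w0 p + C.per p) : x ∈ ((𝒢.bun hw).ch p).L a := by
  rw [← (b.baseChange F).sum_repr x]
  refine Submodule.sum_mem _ fun i _ => ?_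
  rw [Basis.baseChange_apply]
  refine LChain.smul_mem' _ (h i) (𝒢.one_mem.2 ?_) ha
  rw [𝒢.top p _ le_rfl]
  exact Submodule.mem_top

end CFl

end Vale.Agent.P182.H430
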