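import Vale.Agent.P182.H430.Index

/-!
# Finitely supported families, the adelic map `E → ⊕ E / Λ p`, change of `Λ`
-/

namespace Vale.Agent.P182.H430

open LinearMap Submodule Module

/-- two out of three for Fredholm maps -/
theorem Fred.of_comp {k A B C : Type*} [Field k] [AddCommGroup A] [Module k A]
    [AddCommGroup B] [Module k B] [AddCommGroup C] [Module k C] {f : A →ₗ[k] B}
    {g : B →ₗ[k] C} (hg : FiniteDimensional k (LinearMap.ker g)) (h : Fred (g ∘ₗ f)) :
    Fred f := by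
  have h1 := h.ker
  have h2 := h.coker
  refine ⟨Submodule.finiteDimensional_of_le (LinearMap.ker_le_ker_comp f g), ?_⟩
  -- `B / range f → C / range (g ∘ f)` has kernel the image of `ker g`
  have hle : LinearMap.range f ≤ (LinearMap.range (g ∘ₗ f)).comap g := by
    rintro _ ⟨a, rfl⟩
    exact ⟨a, rfl⟩
  let π := (LinearMap.range f).mapQ (LinearMap.range (g ∘ₗ f)) g hle
  have hk : LinearMap.ker π ≤ (LinearMap.ker g).map (LinearMap.range f).mkQ := by
    intro x hx
    obtain ⟨b, rfl⟩ := (LinearMap.range f).mkQ_surjective x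
    have h3 : (Submodule.Quotient.mk (g b) : C ⧸ LinearMap.range (g ∘ₗ f)) = 0 := hx
    obtain ⟨a, ha⟩ := (Submodule.Quotient.mk_eq_zero _).1 h3
    refine ⟨b - f a, ?_, ?_⟩
    · show g (b - f a) = 0
      rw [map_sub, ← ha]; simp
    · show (Submodule.Quotient.mk (b - f a) : B ⧸ LinearMap.range f) = Submodule.Quotient.mk b
      rw [Submodule.Quotient.eq]
      exact ⟨-a, by rw [map_neg]; abel⟩
  have hkf : FiniteDimensional k (LinearMap.ker π) := Submodule.finiteDimensional_of_le hk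
  have h4 : (⊤ : Submodule k (B ⧸ LinearMap.range f)).FG := by
    refine Submodule.fg_of_fg_map_of_fg_inf_ker π ?_ ?_
    · exact (Submodule.fg_iff_finiteDimensional _).2 inferInstance
    · rw [top_inf_eq]
      exact (Submodule.fg_iff_finiteDimensional _).2 hkf
  exact ⟨h4⟩

section Adele

variable {k : Type*} [Field k] {P : Type*} {E : Type*} [AddCommGroup E] [Module k E]

/-- finitely supported families in `Π E / Λ p` -/
def FS (Λ : P → Submodule k E) : Submodule k (∀ p, E ⧸ Λ p) where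
  carrier := {y | {p | y p ≠ 0}.Finite}
  zero_mem' := by simp
  add_mem' := by
    intro a b ha hb
    refine (ha.union hb).subset ?_
    intro p hp
    by_contra h
    simp only [Set.mem_union, Set.mem_ofPred_eq, not_or, not_not] at h
    exact hp (by rw [Pi.add_apply, h.1, h.2, add_zero])
  smul_mem' := by
    intro c a ha
    refine Set.Finite.subset ha ?_
    intro p hp h
    exact hp (by rw [Pi.smul_apply, h, smul_zero])

/-- every vector is in `Λ p` for almost all `p` -/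
def Adm (Λ : P → Submodule k E) : Prop := ∀ x : E, {p | x ∉ Λ p}.Finite

/-- the adelic map -/
def adf (Λ : P → Submodule k E) (h : Adm Λ) : E →ₗ[k] FS Λ where
  toFun x := ⟨fun p => (Λ p).mkQ x, (h x).subset (by
    intro p hp hx
    exact hp ((Submodule.Quotient.mk_eq_zero _).2 hx))⟩
  map_add' x y := by ext p; simp
  map_smul' c x := by ext p; simp

theorem adf_apply (Λ : P → Submodule k E) (h : Adm Λ) (x : E) (p : P) :
    (adf Λ h x).1 p = (Λ p).mkQ x := rfl

theorem mem_ker_adf {Λ : P → Submodule k E} {h : Adm Λ} {x : E} :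
    x ∈ LinearMap.ker (adf Λ h) ↔ ∀ p, x ∈ Λ p := by
  rw [LinearMap.mem_ker]
  constructor
  · intro hx p
    have h1 : (adf Λ h x).1 p = 0 := by rw [hx]; rfl
    rw [adf_apply] at h1
    exact (Submodule.Quotient.mk_eq_zero _).1 h1
  · intro hx
    apply Subtype.ext
    funext p
    exact (Submodule.Quotient.mk_eq_zero _).2 (hx p)

/-- relative dimension of `B` over `A`: `dim (A + B) / A` -/
noncomputable def rdim (A B : Submodule k E) : ℕ := finrank k (B.map A.mkQ)

variable {Λ Λ' : P → Submodule k E}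

/-- the projection `FS Λ → FS Λ'` for `Λ ≤ Λ'` -/
def fsMap (hle : ∀ p, Λ p ≤ Λ' p) : FS Λ →ₗ[k] FS Λ' where
  toFun y := ⟨fun p => Submodule.factor (hle p) (y.1 p), by
    refine Set.Finite.subset y.2 ?_
    intro p hp h
    exact hp (by simp only [h, map_zero])⟩
  map_add' x y := by ext p; simp
  map_smul' c x := by ext p; simp

theorem fsMap_apply (hle : ∀ p, Λ p ≤ Λ' p) (y : FS Λ) (p : P) :
    (fsMap hle y).1 p = Submodule.factor (hle p) (y.1 p) := rfl

theorem fsMap_surjective (hle : ∀ p, Λ p ≤ Λ' p) : Function.Surjective (fsMap hle) := by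
  classical
  intro y
  have h1 : ∀ p, ∃ x : E ⧸ Λ p, Submodule.factor (hle p) x = y.1 p :=
    fun p => Submodule.factor_surjective (hle p) _
  choose x hx using h1
  refine ⟨⟨fun p => if y.1 p = 0 then 0 else x p, ?_⟩, ?_⟩
  · refine Set.Finite.subset y.2 ?_
    intro p hp h
    exact hp (by simp [h])
  · apply Subtype.ext
    funext p
    rw [fsMap_apply]
    by_cases h : y.1 p = 0
    · simp [h]
    · simp [h, hx]

theorem factor_eq_zero_iff {A B : Submodule k E} (h : A ≤ B) (x : E ⧸ A) :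
    Submodule.factor h x = 0 ↔ x ∈ B.map A.mkQ := by
  obtain ⟨x, rfl⟩ := A.mkQ_surjective x
  constructor
  · intro hx
    have h1 : (Submodule.Quotient.mk x : E ⧸ B) = 0 := hx
    exact ⟨x, (Submodule.Quotient.mk_eq_zero _).1 h1, rfl⟩
  · rintro ⟨y, hy, hxy⟩
    have h1 : y - x ∈ A := (Submodule.Quotient.eq _).1 hxy
    have h2 : x ∈ B := by
      have := B.sub_mem hy (h h1)
      simpa using this
    exact (Submodule.Quotient.mk_eq_zero _).2 h2

/-- the kernel of `fsMap` -/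
noncomputable def kerFsMap (hle : ∀ p, Λ p ≤ Λ' p) (S : Finset P)
    (hS : ∀ p, p ∉ S → Λ' p ≤ Λ p) :
    LinearMap.ker (fsMap hle) ≃ₗ[k] (∀ p : S, (Λ' p).map (Λ p).mkQ) := by
  classical
  have h0 : ∀ y : LinearMap.ker (fsMap hle), ∀ p, y.1.1 p ∈ (Λ' p).map (Λ p).mkQ := by
    intro y p
    rw [← factor_eq_zero_iff (hle p), ← fsMap_apply]
    have := y.2
    rw [LinearMap.mem_ker] at this
    rw [this]; rfl
  have h1 : ∀ y : LinearMap.ker (fsMap hle), ∀ p, p ∉ S → y.1.1 p = 0 := by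
    intro y p hp
    obtain ⟨x, hx, hxy⟩ := h0 y p
    rw [← hxy]
    exact (Submodule.Quotient.mk_eq_zero _).2 (hS p hp hx)
  exact
  { toFun := fun y p => ⟨y.1.1 p, h0 y p⟩
    map_add' := fun x y => rfl
    map_smul' := fun c x => rfl
    invFun := fun z => ⟨⟨fun p => if h : p ∈ S then (z ⟨p, h⟩).1 else 0, by
        refine Set.Finite.subset S.finite_toSet ?_
        intro p hp
        by_contra h
        exact hp (dif_neg h)⟩, by
      rw [LinearMap.mem_ker]
      apply Subtype.ext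
      funext p
      rw [fsMap_apply]
      show Submodule.factor (hle p) (if h : p ∈ S then (z ⟨p, h⟩).1 else 0) = 0
      by_cases h : p ∈ S
      · rw [dif_pos h, factor_eq_zero_iff]
        exact (z ⟨p, h⟩).2
      · rw [dif_neg h, map_zero]⟩
    left_inv := fun y => by
      apply Subtype.ext
      apply Subtype.ext
      funext p
      show (if h : p ∈ S then y.1.1 p else 0) = y.1.1 p
      by_cases h : p ∈ S
      · rw [dif_pos h]
      · rw [dif_neg h, h1 y p h]
    right_inv := fun z => by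
      funext p
      apply Subtype.ext
      show (if h : (p : P) ∈ S then (z ⟨p, h⟩).1 else 0) = (z p).1
      rw [dif_pos p.2] }

theorem fred_fsMap (hle : ∀ p, Λ p ≤ Λ' p) (S : Finset P)
    (hS : ∀ p, p ∉ S → Λ' p ≤ Λ p)
    (hfin : ∀ p, FiniteDimensional k ((Λ' p).map (Λ p).mkQ)) :
    Fred (fsMap hle) ∧ idx (fsMap hle) = ∑ p ∈ S, (rdim (Λ p) (Λ' p) : ℤ) := by
  have e := kerFsMap hle S hS
  have h1 : FiniteDimensional k (LinearMap.ker (fsMap hle)) := Module.Finite.equiv e.symm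
  have hr : LinearMap.range (fsMap hle) = ⊤ := LinearMap.range_eq_top.2 (fsMap_surjective hle)
  refine ⟨⟨h1, by rw [hr]; infer_instance⟩, ?_⟩
  have h2 : cdim (fsMap hle) = 0 := by
    unfold cdim
    rw [hr]
    exact finrank_zero_of_subsingleton
  have h3 : kdim (fsMap hle) = ∑ p ∈ S, rdim (Λ p) (Λ' p) := by
    unfold kdim
    rw [e.finrank_eq, Module.finrank_pi_fintype]
    exact Finset.sum_coe_sort S (fun p => rdim (Λ p) (Λ' p))
  unfold idx
  rw [h2, h3]
  push_cast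
  ring

theorem Adm.mono {Λ Λ' : P → Submodule k E} (hle : ∀ p, Λ p ≤ Λ' p) (h : Adm Λ) : Adm Λ' :=
  fun x => (h x).subset fun p hp hx => hp (hle p hx)

/-- CHANGE OF LATTICES: the index grows by the lengths of the quotients -/
theorem idx_change (hle : ∀ p, Λ p ≤ Λ' p) (S : Finset P)
    (hS : ∀ p, p ∉ S → Λ' p ≤ Λ p)
    (hfin : ∀ p, FiniteDimensional k ((Λ' p).map (Λ p).mkQ)) (h : Adm Λ) (h' : Adm Λ') :
    (Fred (adf Λ h) ↔ Fred (adf Λ' h')) ∧
      (Fred (adf Λ h) →
        idx (adf Λ' h') = idx (adf Λ h) + ∑ p ∈ S, (rdim (Λ p) (Λ' p) : ℤ)) := by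
  obtain ⟨hF, hI⟩ := fred_fsMap hle S hS hfin
  have hc : adf Λ' h' = fsMap hle ∘ₗ adf Λ h := by
    apply LinearMap.ext
    intro x
    apply Subtype.ext
    funext p
    rfl
  refine ⟨⟨fun hf => hc ▸ hF.comp hf, fun hf => ?_⟩, fun hf => ?_⟩
  · rw [hc] at hf
    exact Fred.of_comp hF.ker hf
  · rw [hc, idx_comp hF hf, hI]

end Adele

section AdeleSES

variable {k : Type*} [Field k] {P : Type*} {E₁ E₂ E₃ : Type*}
  [AddCommGroup E₁] [Module k E₁] [AddCommGroup E₂] [Module k E₂] [AddCommGroup E₃] [Module k E₃]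
  {Λ₁ : P → Submodule k E₁} {Λ₂ : P → Submodule k E₂} {Λ₃ : P → Submodule k E₃}

/-- functoriality of `FS` -/
def fsLift (g : E₁ →ₗ[k] E₂) (hg : ∀ p, Λ₁ p ≤ (Λ₂ p).comap g) : FS Λ₁ →ₗ[k] FS Λ₂ where
  toFun y := ⟨fun p => (Λ₁ p).mapQ (Λ₂ p) g (hg p) (y.1 p), by
    refine Set.Finite.subset y.2 ?_
    intro p hp h
    exact hp (by simp only [h, map_zero])⟩
  map_add' x y := by ext p; simp
  map_smul' c x := by ext p; simp

theorem fsLift_apply (g : E₁ →ₗ[k] E₂) (hg : ∀ p, Λ₁ p ≤ (Λ₂ p).comap g) (y : FS Λ₁) (p : P) :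
    (fsLift g hg y).1 p = (Λ₁ p).mapQ (Λ₂ p) g (hg p) (y.1 p) := rfl

theorem fsLift_adf (g : E₁ →ₗ[k] E₂) (hg : ∀ p, Λ₁ p ≤ (Λ₂ p).comap g) (h1 : Adm Λ₁)
    (h2 : Adm Λ₂) (x : E₁) : fsLift g hg (adf Λ₁ h1 x) = adf Λ₂ h2 (g x) := by
  apply Subtype.ext
  funext p
  rfl

theorem fs_ses {i : E₁ →ₗ[k] E₂} {q : E₂ →ₗ[k] E₃} (h : SES i q)
    (h1 : ∀ p, Λ₁ p = (Λ₂ p).comap i) (h3 : ∀ p, (Λ₂ p).map q = Λ₃ p) :
    SES (fsLift (Λ₁ := Λ₁) (Λ₂ := Λ₂) i (fun p => (h1 p).le))
      (fsLift (Λ₁ := Λ₂) (Λ₂ := Λ₃) q (fun p => Submodule.map_le_iff_le_comap.1 (h3 p).le)) := by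
  classical
  have hqi : ∀ x, q (i x) = 0 := fun x => by
    have : i x ∈ LinearMap.ker q := h.exact ▸ ⟨x, rfl⟩
    exact this
  refine ⟨?_, ?_, ?_⟩
  · rw [← LinearMap.ker_eq_bot, LinearMap.ker_eq_bot']
    intro y hy
    apply Subtype.ext
    funext p
    have h4 : (Λ₁ p).mapQ (Λ₂ p) i (h1 p).le (y.1 p) = 0 := by
      rw [← fsLift_apply i (fun p => (h1 p).le), hy]; rfl
    obtain ⟨x, hx⟩ := (Λ₁ p).mkQ_surjective (y.1 p)
    rw [← hx] at h4 ⊢
    have h5 : (Submodule.Quotient.mk (i x) : E₂ ⧸ Λ₂ p) = 0 := h4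
    have h6 : i x ∈ Λ₂ p := (Submodule.Quotient.mk_eq_zero _).1 h5
    have h6 : x ∈ Λ₁ p := by
      rw [h1 p]; exact h6
    exact (Submodule.Quotient.mk_eq_zero _).2 h6
  · ext y
    constructor
    · rintro ⟨z, rfl⟩
      rw [LinearMap.mem_ker]
      apply Subtype.ext
      funext p
      rw [fsLift_apply, fsLift_apply]
      obtain ⟨x, hx⟩ := (Λ₁ p).mkQ_surjective (z.1 p)
      rw [← hx]
      show (Submodule.Quotient.mk (q (i x)) : E₃ ⧸ Λ₃ p) = 0
      rw [hqi]; rfl
    · intro hy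
      rw [LinearMap.mem_ker] at hy
      have h4 : ∀ p, ∃ x : E₁, (Λ₂ p).mkQ (i x) = y.1 p := by
        intro p
        obtain ⟨b, hb⟩ := (Λ₂ p).mkQ_surjective (y.1 p)
        have h5 : (Submodule.Quotient.mk (q b) : E₃ ⧸ Λ₃ p) = 0 := by
          have := congrArg (fun z => z.1 p) hy
          simp only [fsLift_apply, ← hb] at this
          exact this
        have h6 : q b ∈ Λ₃ p := (Submodule.Quotient.mk_eq_zero _).1 h5
        rw [← h3 p] at h6
        obtain ⟨l, hl, hlb⟩ := h6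
        have h7 : b - l ∈ LinearMap.ker q := by
          rw [LinearMap.mem_ker, map_sub, hlb, sub_self]
        rw [← h.exact] at h7
        obtain ⟨x, hx⟩ := h7
        refine ⟨x, ?_⟩
        have h8 : (Λ₂ p).mkQ l = 0 := (Submodule.Quotient.mk_eq_zero _).2 hl
        rw [hx, map_sub, hb, h8, sub_zero]
      choose x hx using h4
      refine ⟨⟨fun p => if y.1 p = 0 then 0 else (Λ₁ p).mkQ (x p), ?_⟩, ?_⟩
      · refine Set.Finite.subset y.2 ?_
        intro p hp h
        exact hp (by simp [h])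
      · apply Subtype.ext
        funext p
        rw [fsLift_apply]
        by_cases h : y.1 p = 0
        · simp [h]
        · simp only [h, if_false]
          exact hx p
  · intro y
    have h4 : ∀ p, ∃ x : E₂, (Λ₃ p).mkQ (q x) = y.1 p := by
      intro p
      obtain ⟨b, hb⟩ := (Λ₃ p).mkQ_surjective (y.1 p)
      obtain ⟨x, hx⟩ := h.surj b
      exact ⟨x, by rw [hx, hb]⟩
    choose x hx using h4
    refine ⟨⟨fun p => if y.1 p = 0 then 0 else (Λ₂ p).mkQ (x p), ?_⟩, ?_⟩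
    · refine Set.Finite.subset y.2 ?_
      intro p hp h
      exact hp (by simp [h])
    · apply Subtype.ext
      funext p
      rw [fsLift_apply]
      by_cases h : y.1 p = 0
      · simp [h]
      · simp only [h, if_false]
        exact hx p

/-- ADDITIVITY of the adelic index -/
theorem adf_ses {i : E₁ →ₗ[k] E₂} {q : E₂ →ₗ[k] E₃} (h : SES i q)
    (h1 : ∀ p, Λ₁ p = (Λ₂ p).comap i) (h3 : ∀ p, (Λ₂ p).map q = Λ₃ p)
    (a1 : Adm Λ₁) (a2 : Adm Λ₂) (a3 : Adm Λ₃) (F1 : Fred (adf Λ₁ a1)) (F3 : Fred (adf Λ₃ a3)) :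
    Fred (adf Λ₂ a2) ∧ idx (adf Λ₂ a2) = idx (adf Λ₁ a1) + idx (adf Λ₃ a3) :=
  idx_ses h (fs_ses h h1 h3) (fun a => (fsLift_adf i _ a1 a2 a).symm)
    (fun a => fsLift_adf q _ a2 a3 a) F1 F3

end AdeleSES

end Vale.Agent.P182.H430
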