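import Vale.Agent.P182.H430.Gen

/-!
# Chains given by a filtration of a constant space

`B` is a finite dimensional `k`-space with an antitone filtration `G : ℤ → Submodule k B`; the
chain `cchain` on `F ⊗ B` is generated by the vectors `1 ⊗ v`, `v ∈ G a`, placed in level `a`.
-/

namespace Vale.Agent.P182.H430

open LinearMap Submodule Module TensorProduct

universe u

/-- a basis adapted to a filtration -/
def Adapted {k B : Type*} [Field k] [AddCommGroup B] [Module k B] {ι : Type*}
    (G : ℤ → Submodule k B) (b : Basis ι k B) (w : ι → ℤ) : Prop :=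
  ∀ a v, v ∈ G a ↔ ∀ i, b.repr v i ≠ 0 → a ≤ w i

section Adapted

variable {k : Type*} [Field k]

theorem exists_adapted_aux (n : ℕ) : ∀ (B : Type u) [AddCommGroup B] [Module k B]
    [FiniteDimensional k B], finrank k B = n → ∀ G : ℤ → Submodule k B, Antitone G →
    (∃ lo, ∀ a, a ≤ lo → G a = ⊤) → (∃ hi, ∀ a, hi ≤ a → G a = ⊥) →
      ∃ (b : Basis (Fin n) k B) (w : Fin n → ℤ), Adapted G b w := by
  induction n with
  | zero =>
    intro B _ _ _ h G _ _ _
    have hs : Subsingleton B := finrank_zero_iff.1 h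
    refine ⟨finBasisOfFinrankEq k B h, 0, ?_⟩
    intro a v
    constructor
    · intro _ i
      exact i.elim0
    · intro _
      rw [Subsingleton.elim v 0]
      exact Submodule.zero_mem _
  | succ n ih =>
    intro B _ _ _ h G hG hlo hhi
    have hpos : 0 < finrank k B := by omega
    obtain ⟨x0, hx0⟩ : ∃ x : B, x ≠ 0 := by
      have := Module.finrank_pos_iff.mp hpos
      exact exists_ne 0
    obtain ⟨φ, hφ0⟩ : ∃ φ : B →ₗ[k] k, φ x0 ≠ 0 := by
      by_contra h
      push Not at h
      exact hx0 ((Module.forall_dual_apply_eq_zero_iff k x0).mp h)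
    obtain ⟨lo, hlo⟩ := hlo
    obtain ⟨hi, hhi⟩ := hhi
    obtain ⟨w, hw1, hw2⟩ := Int.exists_greatest_of_bdd
      (P := fun a => ∃ y, φ y = 1 ∧ y ∈ G a)
      ⟨hi, by
        rintro a ⟨y, hy1, hy2⟩
        by_contra hc
        rw [hhi a (by omega), Submodule.mem_bot] at hy2
        rw [hy2, map_zero] at hy1
        exact zero_ne_one hy1⟩
      ⟨lo, (φ x0)⁻¹ • x0, by rw [map_smul, smul_eq_mul, inv_mul_cancel₀ hφ0], by
        rw [hlo lo le_rfl]; exact Submodule.mem_top⟩
    obtain ⟨y, hy1, hy2⟩ := hw1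
    have hy3 : ∀ a x, x ∈ G a → φ x ≠ 0 → a ≤ w := by
      intro a x hx hne
      exact hw2 a ⟨(φ x)⁻¹ • x, by rw [map_smul, smul_eq_mul, inv_mul_cancel₀ hne],
        Submodule.smul_mem _ _ hx⟩
    let S : Submodule k B := LinearMap.ker φ
    have hS : finrank k S = n := by
      have h1 := LinearMap.finrank_range_add_finrank_ker φ
      have h2 : LinearMap.range φ = ⊤ := by
        rw [LinearMap.range_eq_top]
        intro c
        exact ⟨c • y, by rw [map_smul, hy1, smul_eq_mul, mul_one]⟩
      rw [h2, finrank_top, finrank_self, h] at h1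
      change finrank k (LinearMap.ker φ) = n
      omega
    obtain ⟨b, v, hb⟩ := ih S hS (fun a => (G a).comap S.subtype)
      (fun a c hac => Submodule.comap_mono (hG hac))
      ⟨lo, fun a ha => by rw [hlo a ha, Submodule.comap_top]⟩
      ⟨hi, fun a ha => by
        rw [hhi a ha]
        exact (Submodule.comap_bot _).trans (LinearMap.ker_eq_bot_of_injective S.injective_subtype)⟩
    have hli : ∀ (c : k), ∀ x ∈ S, c • y + x = 0 → c = 0 := by
      intro c x hx hcx
      have := congrArg φ hcx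
      rw [map_add, map_smul, hy1, (LinearMap.mem_ker.mp hx), map_zero, add_zero, smul_eq_mul,
        mul_one] at this
      exact this
    have hsp : ∀ z : B, ∃ c : k, z + c • y ∈ S := by
      intro z
      refine ⟨- φ z, ?_⟩
      rw [LinearMap.mem_ker, map_add, map_smul, hy1, smul_eq_mul, mul_one, add_neg_cancel]
    let BB := Basis.mkFinCons y b hli hsp
    have hB : (BB : Fin (n + 1) → B) = Fin.cons y (fun i => (b i : B)) := by
      simp only [BB, Basis.coe_mkFinCons]
      rfl
    have hrep : ∀ x (hxS : x - φ x • y ∈ S), ∀ i, BB.repr x i =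
        (Fin.cons (φ x) (fun i => b.repr ⟨x - φ x • y, hxS⟩ i) : Fin (n + 1) → k) i := by
      intro x hxS i
      have hx' : x = ∑ i, (Fin.cons (φ x) (fun i => b.repr ⟨x - φ x • y, hxS⟩ i) :
          Fin (n + 1) → k) i • BB i := by
        rw [Fin.sum_univ_succ, hB]
        simp only [Fin.cons_zero, Fin.cons_succ]
        have h3 : ∑ i, (b.repr ⟨x - φ x • y, hxS⟩ i) • (b i : B) = x - φ x • y := by
          have := congrArg (Submodule.subtype S) (b.sum_repr ⟨x - φ x • y, hxS⟩)
          rw [map_sum] at this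
          simpa using this
        rw [h3]
        abel
      conv_lhs => rw [hx', ← BB.equivFun_symm_apply, ← BB.equivFun_apply,
        LinearEquiv.apply_symm_apply]
    have hxS : ∀ x, x - φ x • y ∈ S := by
      intro x
      rw [LinearMap.mem_ker, map_sub, map_smul, hy1, smul_eq_mul, mul_one, sub_self]
    refine ⟨BB, Fin.cons w v, ?_⟩
    intro a x
    have hbs := hb a ⟨x - φ x • y, hxS x⟩
    have hiff : (∀ i, BB.repr x i ≠ 0 → a ≤ (Fin.cons w v : Fin (n + 1) → ℤ) i) ↔
        (φ x ≠ 0 → a ≤ w) ∧ ∀ i, b.repr ⟨x - φ x • y, hxS x⟩ i ≠ 0 → a ≤ v i := by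
      rw [Fin.forall_fin_succ]
      simp only [hrep x (hxS x), Fin.cons_zero, Fin.cons_succ]
    rw [hiff, ← hbs]
    show x ∈ G a ↔ (φ x ≠ 0 → a ≤ w) ∧ x - φ x • y ∈ G a
    constructor
    · intro hx
      refine ⟨hy3 a x hx, ?_⟩
      by_cases hc : φ x = 0
      · rw [hc, zero_smul, sub_zero]; exact hx
      · exact Submodule.sub_mem _ hx (Submodule.smul_mem _ _ (hG (hy3 a x hx hc) hy2))
    · rintro ⟨h1, h2⟩
      have h3 : x = (x - φ x • y) + φ x • y := by abel
      rw [h3]
      refine Submodule.add_mem _ h2 ?_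
      by_cases hc : φ x = 0
      · rw [hc, zero_smul]; exact Submodule.zero_mem _
      · exact Submodule.smul_mem _ _ (hG (h1 hc) hy2)

variable {B : Type*} [AddCommGroup B] [Module k B] [FiniteDimensional k B]

theorem exists_adapted (G : ℤ → Submodule k B) (hG : Antitone G)
    (hlo : ∃ lo, ∀ a, a ≤ lo → G a = ⊤) (hhi : ∃ hi, ∀ a, hi ≤ a → G a = ⊥) :
    ∃ (b : Basis (Fin (finrank k B)) k B) (w : Fin (finrank k B) → ℤ), Adapted G b w :=
  exists_adapted_aux _ B rfl G hG hlo hhi

omit [FiniteDimensional k B] in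
theorem Adapted.basis_mem {G : ℤ → Submodule k B} {ι : Type*} {b : Basis ι k B} {w : ι → ℤ}
    (h : Adapted G b w) (i : ι) : b i ∈ G (w i) := by
  classical
  rw [h]
  intro j hj
  rw [b.repr_self, Finsupp.single_apply] at hj
  by_cases hij : i = j
  · rw [hij]
  · rw [if_neg hij] at hj
    exact absurd rfl hj

omit [FiniteDimensional k B] in
theorem Adapted.le {G : ℤ → Submodule k B} {ι : Type*} {b : Basis ι k B} {w : ι → ℤ}
    (h : Adapted G b w) {lo : ℤ} (hlo : G lo = ⊤) (i : ι) : lo ≤ w i := by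
  have h1 : b i ∈ G lo := by rw [hlo]; exact Submodule.mem_top
  refine (h lo (b i)).1 h1 i ?_
  rw [b.repr_self, Finsupp.single_eq_same]
  exact one_ne_zero

omit [FiniteDimensional k B] in
theorem Adapted.lt {G : ℤ → Submodule k B} (hG : Antitone G) {ι : Type*} {b : Basis ι k B}
    {w : ι → ℤ} (h : Adapted G b w) {hi : ℤ} (hhi : G hi = ⊥) (i : ι) : w i < hi := by
  by_contra hc
  have h1 := hG (not_lt.1 hc) (h.basis_mem i)
  rw [hhi, Submodule.mem_bot] at h1
  exact b.ne_zero i h1

end Adapted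

section Chain

variable {k F : Type*} [Field k] [Field F] [Algebra k F] (Q : Place k F) {p : ℕ}
variable {B : Type*} [AddCommGroup B] [Module k B] {ι : Type*} [Fintype ι]

theorem bc_gen (b : Basis ι k B) (y : F ⊗[k] B) : ∃ c : ι → F, y = ∑ i, c i • (b.baseChange F) i :=
  ⟨fun i => (b.baseChange F).repr y i, ((b.baseChange F).sum_repr y).symm⟩

/-- the chain of an adapted basis -/
noncomputable def bchain (hp : 0 < p) (b : Basis ι k B) (w : ι → ℤ) : LChain Q p (F ⊗[k] B) :=
  genChain Q hp (b.baseChange F) w (bc_gen b)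

variable {Q} {hp : 0 < p} {b : Basis ι k B} {w : ι → ℤ}

theorem bchain_split : (bchain Q hp b w).SplitBy (b.baseChange F) w := by
  apply LChain.splitBy_of
  · intro i
    exact gen_mem i
  · rintro a _ ⟨c, hc, rfl⟩ i
    have h1 : (b.baseChange F).repr (∑ i, c i • (b.baseChange F) i) i = c i := by
      rw [← (b.baseChange F).equivFun_symm_apply, ← (b.baseChange F).equivFun_apply,
        LinearEquiv.apply_symm_apply]
    rw [h1]
    exact hc i

omit [Fintype ι] in
theorem bc_repr (b : Basis ι k B) (v : B) (i : ι) :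
    (b.baseChange F).repr ((1 : F) ⊗ₜ[k] v) i = algebraMap k F (b.repr v i) := by
  rw [Basis.baseChange_repr_tmul, Algebra.smul_def, mul_one]

omit [Fintype ι] in
theorem alg_mem_M (Q : Place k F) (p : ℕ) (c : k) (a : ℤ) :
    algebraMap k F c ∈ Q.M p a ↔ (c ≠ 0 → a ≤ 0) := by
  by_cases h : c = 0
  · subst h
    simp
  · have h1 : algebraMap k F c ≠ 0 := by simpa using h
    rw [Q.mem_M_of_ne h1, Q.ord_alg c h, mul_zero]
    simp [h]

/-- the constants of a chain -/
theorem one_mem_bchain {G : ℤ → Submodule k B} (hb : Adapted G b w) {a : ℤ} {v : B} :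
    (1 : F) ⊗ₜ[k] v ∈ (bchain Q hp b w).L a ↔ v ∈ G a := by
  rw [bchain_split a, hb a v]
  refine forall_congr' fun i => ?_
  rw [bc_repr, alg_mem_M]
  refine imp_congr Iff.rfl ?_
  constructor <;> intro h <;> linarith

/-- independence of the basis -/
theorem bchain_split' {G : ℤ → Submodule k B} (hb : Adapted G b w) {κ : Type*} [Fintype κ]
    {b' : Basis κ k B} {w' : κ → ℤ} (hb' : Adapted G b' w') :
    (bchain Q hp b w).SplitBy (b'.baseChange F) w' := by
  apply LChain.splitBy_of
  · intro i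
    rw [Basis.baseChange_apply, one_mem_bchain hb]
    exact hb'.basis_mem i
  · rintro a _ ⟨c, hc, rfl⟩ i
    rw [map_sum, Finsupp.finsetSum_apply]
    refine Submodule.sum_mem _ fun j _ => ?_
    rw [map_smul, Finsupp.smul_apply, smul_eq_mul, Basis.baseChange_apply, bc_repr]
    by_cases h : b'.repr (b j) i = 0
    · rw [h, map_zero, mul_zero]
      exact Submodule.zero_mem _
    · have h1 := (hb' (w j) (b j)).1 (hb.basis_mem j) i h
      have h2 : algebraMap k F (b'.repr (b j) i) ∈ Q.M p 0 := by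
        rw [alg_mem_M]; intro _; exact le_rfl
      exact Q.M_anti (by linarith) (Q.mul_mem_M (hc j) h2)

/-- the universal property -/
theorem bchain_maps {G : ℤ → Submodule k B} (hb : Adapted G b w) {E₂ : Type*} [AddCommGroup E₂]
    [Module F E₂] [Module k E₂] (C₂ : LChain Q p E₂) {c : ℤ} {φ : (F ⊗[k] B) →ₗ[F] E₂} :
    (∀ a, ∀ y ∈ (bchain Q hp b w).L a, φ y ∈ C₂.L (a + c)) ↔
      ∀ a, ∀ v ∈ G a, φ ((1 : F) ⊗ₜ[k] v) ∈ C₂.L (a + c) := by
  constructor
  · intro h a v hv
    exact h a _ ((one_mem_bchain hb).2 hv)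
  · intro h
    refine (gen_maps C₂).2 fun i => ?_
    rw [Basis.baseChange_apply]
    exact h _ _ (hb.basis_mem i)

end Chain

end Vale.Agent.P182.H430
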