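import Vale.Agent.P182.H430.CHom

/-!
# Vanishing of `Ext` between constant flagged spaces

If every family of constant maps is, up to maps preserving the filtrations, a constant one, then
`H¹(Hom(A, B)) = 0`.
-/

namespace Vale.Agent.P182.H430

open LinearMap Submodule Module TensorProduct

variable {k F P : Type*} [Field k] [Field F] [Algebra k F]

theorem exists_res (Q : Place k F) {f : F} (hf : f ∈ Q.M 1 0) :
    ∃ c : k, f - algebraMap k F c ∈ Q.M 1 1 := by
  by_cases h : f = 0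
  · exact ⟨0, by rw [h, map_zero, sub_zero]; exact Submodule.zero_mem _⟩
  · rw [Q.mem_M_of_ne h] at hf
    obtain ⟨c, hc | hc⟩ := Q.resid f h (by push_cast at hf; linarith)
    · exact ⟨c, by rw [hc, sub_self]; exact Submodule.zero_mem _⟩
    · refine ⟨c, Or.inr ?_⟩
      push_cast
      linarith

theorem M_one_one (Q : Place k F) {p : ℕ} {f : F} (hf : f ∈ Q.M 1 1) :
    f ∈ Q.M p p := by
  by_cases h : f = 0
  · exact Or.inl h
  · rw [Q.mem_M_of_ne h] at hf ⊢
    push_cast at hf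
    have h0 : (0 : ℤ) ≤ p := Int.natCast_nonneg p
    nlinarith

theorem h1_zero_of {E : Type*} [AddCommGroup E] [Module k E] {Λ : P → Submodule k E}
    (h : ∀ T : P → E, {p | T p ≠ 0}.Finite → ∃ x, ∀ p, T p - x ∈ Λ p) : h1 Λ = 0 := by
  have key : ∀ y : FS Λ, y ∈ diag Λ := by
    intro y
    obtain ⟨T, hT0, hT⟩ := fs_exists_rep y
    obtain ⟨x, hx⟩ := h T hT0
    refine ⟨x, fun p => ?_⟩
    rw [hT p, Submodule.mkQ_apply, Submodule.mkQ_apply, Submodule.Quotient.eq]
    exact hx p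
  have hs : Subsingleton (HO Λ) := by
    refine ⟨fun x y => ?_⟩
    obtain ⟨x, rfl⟩ := (diag Λ).mkQ_surjective x
    obtain ⟨y, rfl⟩ := (diag Λ).mkQ_surjective y
    rw [Submodule.mkQ_apply, Submodule.mkQ_apply, Submodule.Quotient.eq]
    exact key _
  exact finrank_zero_of_subsingleton

namespace CFl

variable {C : Curve k F P} {w0 : P → ℤ} {A B : Type*} [AddCommGroup A] [Module k A]
  [FiniteDimensional k A] [AddCommGroup B] [Module k B] [FiniteDimensional k B]
  (𝒜 : CFl C w0 A) (ℬ : CFl C w0 B) {hw : {p | w0 p ≠ 0}.Finite}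

/-- maps into the maximal ideal are integral -/
theorem mem_of_coord {p : P} {R : (F ⊗[k] A) →ₗ[F] (F ⊗[k] B)} {ι κ : Type*} [Fintype ι]
    [Fintype κ] (bA : Basis ι k A) (bB : Basis κ k B)
    (h : ∀ i j, (bB.baseChange F).repr (R ((1 : F) ⊗ₜ[k] bA i)) j ∈ (C.pl p).M 1 1) :
    R ∈ ((𝒜.bun hw).hom (ℬ.bun hw)).lat p := by
  refine (𝒜.maps ((ℬ.bun hw).ch p)).2 fun a v hv => ?_
  rw [add_zero]
  rcases le_or_gt a (w0 p + C.per p) with ha | ha
  · refine ℬ.mem_of_max bB (fun j => M_one_one _ ?_) ha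
    have h1 : (1 : F) ⊗ₜ[k] v = ∑ i, algebraMap k F (bA.repr v i) • ((1 : F) ⊗ₜ[k] bA i) := by
      conv_lhs => rw [← bA.sum_repr v, tmul_sum]
      refine Finset.sum_congr rfl fun i _ => ?_
      rw [tmul_smul, algebraMap_smul]
    rw [h1, map_sum, map_sum, Finsupp.finsetSum_apply]
    refine Submodule.sum_mem _ fun i _ => ?_
    rw [map_smul, map_smul, Finsupp.smul_apply, algebraMap_smul]
    exact Submodule.smul_mem _ _ (h i j)
  · rw [𝒜.bot p a ha.le, Submodule.mem_bot] at hv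
    rw [hv, tmul_zero, map_zero]
    exact Submodule.zero_mem _

/-- VANISHING OF EXT -/
theorem hom_h1 (h : ∀ f : P → (A →ₗ[k] B), ∃ g : A →ₗ[k] B, ∀ p a, ∀ v ∈ 𝒜.G p a,
    f p v - g v ∈ ℬ.G p a) :
    h1 (E := (F ⊗[k] A) →ₗ[F] (F ⊗[k] B)) ((𝒜.bun hw).hom (ℬ.bun hw)).lat = 0 := by
  classical
  refine h1_zero_of fun T hT0 => ?_
  let bA := finBasis k A
  let bB := finBasis k B
  have hf : ∀ i j, ∃ f : F, ∀ p, f - (bB.baseChange F).repr (T p ((1 : F) ⊗ₜ[k] bA i)) j ∈
      (C.pl p).M 1 0 := fun i j => C.H1 _ (hT0.subset fun p hp h0 => hp (by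
        rw [h0, LinearMap.zero_apply, map_zero]
        exact Submodule.zero_mem _))
  choose f hf using hf
  have hc : ∀ p i j, ∃ c : k, f i j - (bB.baseChange F).repr (T p ((1 : F) ⊗ₜ[k] bA i)) j -
      algebraMap k F c ∈ (C.pl p).M 1 1 := fun p i j => exists_res _ (hf i j p)
  choose c hc using hc
  let T0 : (F ⊗[k] A) →ₗ[F] (F ⊗[k] B) :=
    (bA.baseChange F).constr F (fun i => ∑ j, f i j • (bB.baseChange F) j)
  have hT0' : ∀ i, T0 ((1 : F) ⊗ₜ[k] bA i) = ∑ j, f i j • (bB.baseChange F) j := by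
    intro i
    rw [← Basis.baseChange_apply]
    exact (bA.baseChange F).constr_basis F _ i
  let u : P → (A →ₗ[k] B) := fun p => bA.constr k (fun i => ∑ j, c p i j • bB j)
  have hu : ∀ p i, u p (bA i) = ∑ j, c p i j • bB j := fun p i => bA.constr_basis k _ i
  obtain ⟨g, hg⟩ := h u
  refine ⟨T0 - g.baseChange F, fun p => ?_⟩
  have h1 : T0 - T p - (u p).baseChange F ∈ ((𝒜.bun hw).hom (ℬ.bun hw)).lat p := by
    refine 𝒜.mem_of_coord ℬ bA bB fun i j => ?_
    rw [LinearMap.sub_apply, LinearMap.sub_apply, map_sub, map_sub, Finsupp.sub_apply,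
      Finsupp.sub_apply, hT0', baseChange_one, bc_repr, hu]
    have e1 : (bB.baseChange F).repr (∑ j, f i j • (bB.baseChange F) j) j = f i j := by
      rw [← (bB.baseChange F).equivFun_symm_apply, ← (bB.baseChange F).equivFun_apply,
        LinearEquiv.apply_symm_apply]
    have e2 : bB.repr (∑ j, c p i j • bB j) j = c p i j := by
      rw [← bB.equivFun_symm_apply, ← bB.equivFun_apply, LinearEquiv.apply_symm_apply]
    rw [e1, e2]
    exact hc p i j
  have h2 : (u p).baseChange F - g.baseChange F ∈ ((𝒜.bun hw).hom (ℬ.bun hw)).lat p := by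
    rw [← LinearMap.baseChange_sub]
    refine (𝒜.baseChange_mem ℬ (hw := hw)).2 fun a v hv => ?_
    rw [add_zero]
    exact hg p a v hv
  intro b x hx
  have h3 := Submodule.neg_mem _ (Submodule.add_mem _ (h1 b x hx) (h2 b x hx))
  have h4 : -((T0 - T p - (u p).baseChange F) x + ((u p).baseChange F - g.baseChange F) x) =
      (T p - (T0 - g.baseChange F)) x := by
    simp only [LinearMap.sub_apply]
    abel
  rw [h4] at h3
  exact h3

end CFl

end Vale.Agent.P182.H430
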