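import Vale.Agent.P182.H430.CBun

/-!
# Global maps and forms between constant flagged spaces are constant
-/

namespace Vale.Agent.P182.H430

open LinearMap Submodule Module TensorProduct

variable {k F P : Type*} [Field k] [Field F] [Algebra k F]

section twist

variable {C : Curve k F P} {E E₂ : Type*} [AddCommGroup E] [Module F E] [Module k E]
  [IsScalarTower k F E] [AddCommGroup E₂] [Module F E₂] [Module k E₂] [IsScalarTower k F E₂]
  [FiniteDimensional F E] [FiniteDimensional F E₂]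

/-- a common twist does not change the maps -/
theorem Bun.hom_twist (A : Bun C E) (B : Bun C E₂) (n : P → ℤ) (hn : {p | n p ≠ 0}.Finite)
    (p : P) (c : ℤ) : (((A.twist n hn).hom (B.twist n hn)).ch p).L c = ((A.hom B).ch p).L c := by
  ext φ
  constructor
  · intro h b x hx
    have h1 : x ∈ (A.ch p).L (b + n p + -n p) := by rwa [add_neg_cancel_right]
    have h2 : φ x ∈ (B.ch p).L (b + n p + c + -n p) := h (b + n p) x h1
    have e : b + n p + c + -n p = b + c := by ring
    rwa [e] at h2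
  · intro h b x hx
    have h2 : φ x ∈ (B.ch p).L (b + -n p + c) := h (b + -n p) x hx
    have e : b + -n p + c = b + c + -n p := by ring
    rw [e] at h2
    exact h2

theorem Bun.hom_twist_lat (A : Bun C E) (B : Bun C E₂) (n : P → ℤ) (hn : {p | n p ≠ 0}.Finite) :
    ((A.twist n hn).hom (B.twist n hn)).lat = (A.hom B).lat :=
  funext fun p => A.hom_twist B n hn p 0

end twist

section ext

variable {B : Type*} [AddCommGroup B] [Module k B] {E₂ : Type*} [AddCommGroup E₂] [Module F E₂]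

theorem ext_one {f g : (F ⊗[k] B) →ₗ[F] E₂}
    (h : ∀ v : B, f ((1 : F) ⊗ₜ[k] v) = g ((1 : F) ⊗ₜ[k] v)) : f = g := by
  apply ((Basis.ofVectorSpace k B).baseChange F).ext
  intro i
  rw [Basis.baseChange_apply]
  exact h _

theorem baseChange_one {B' : Type*} [AddCommGroup B'] [Module k B'] (u : B →ₗ[k] B') (v : B) :
    u.baseChange F ((1 : F) ⊗ₜ[k] v) = (1 : F) ⊗ₜ[k] u v := rfl

end ext

namespace CFl

variable {C : Curve k F P} {w0 : P → ℤ} {A B : Type*} [AddCommGroup A] [Module k A]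
  [FiniteDimensional k A] [AddCommGroup B] [Module k B] [FiniteDimensional k B]
  (𝒜 : CFl C w0 A) (ℬ : CFl C w0 B) {hw : {p | w0 p ≠ 0}.Finite}

/-- a constant map is integral iff it preserves the filtrations -/
theorem baseChange_mem {p : P} {c : ℤ} {u : A →ₗ[k] B} :
    u.baseChange F ∈ (((𝒜.bun hw).hom (ℬ.bun hw)).ch p).L c ↔
      ∀ a, ∀ v ∈ 𝒜.G p a, u v ∈ ℬ.G p (a + c) := by
  refine (𝒜.maps ((ℬ.bun hw).ch p)).trans ?_
  refine forall_congr' fun a => forall_congr' fun v => imp_congr_right fun _ => ?_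
  rw [baseChange_one]
  exact ℬ.one_mem

omit [FiniteDimensional k A] [FiniteDimensional k B] in
/-- a map which is constant on constants -/
theorem exists_baseChange {φ : (F ⊗[k] A) →ₗ[F] (F ⊗[k] B)}
    (h : ∀ v : A, ∃ v' : B, φ ((1 : F) ⊗ₜ[k] v) = (1 : F) ⊗ₜ[k] v') :
    ∃ u : A →ₗ[k] B, φ = u.baseChange F := by
  choose u hu using h
  refine ⟨{ toFun := u
            map_add' := fun v v' => ?_
            map_smul' := fun c v => ?_ }, ext_one fun v => hu v⟩
  · apply one_tmul_inj (k := k) (F := F)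
    rw [← hu, tmul_add, map_add, hu, hu, tmul_add]
  · apply one_tmul_inj (k := k) (F := F)
    have h1 : ∀ (x : F ⊗[k] A), φ (c • x) = c • φ x := by
      intro x
      rw [← algebraMap_smul F c x, map_smul, algebraMap_smul]
    rw [← hu, tmul_smul, h1, hu, RingHom.id_apply, tmul_smul]

/-- GLOBAL MAPS BETWEEN CONSTANT OBJECTS ARE CONSTANT -/
theorem hom_const {φ : (F ⊗[k] A) →ₗ[F] (F ⊗[k] B)} :
    φ ∈ HZ ((𝒜.bun hw).hom (ℬ.bun hw)).lat ↔
      ∃ u : A →ₗ[k] B, φ = u.baseChange F ∧ ∀ p a, ∀ v ∈ 𝒜.G p a, u v ∈ ℬ.G p a := by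
  constructor
  · intro h
    rw [mem_HZ] at h
    obtain ⟨u, rfl⟩ := exists_baseChange (φ := φ) fun v => by
      refine ℬ.exists_const (hw := hw) fun p => ?_
      have h1 := (Bun.mem_hom_lat _ _ p _).1 (h p) (w0 p) ((1 : F) ⊗ₜ[k] v) (by
        rw [𝒜.one_mem, 𝒜.top p _ le_rfl]; exact Submodule.mem_top)
      exact h1
    refine ⟨u, rfl, fun p a v hv => ?_⟩
    have h1 := (𝒜.baseChange_mem ℬ (hw := hw)).1 (h p) a v hv
    rwa [add_zero] at h1
  · rintro ⟨u, rfl, h⟩
    rw [mem_HZ]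
    intro p
    exact (𝒜.baseChange_mem ℬ).2 fun a v hv => by rw [add_zero]; exact h p a v hv

omit [FiniteDimensional k A] in
/-- functionals which are regular on constants are constant -/
theorem exists_dual (C : Curve k F P) {ξ : (F ⊗[k] A) →ₗ[F] F}
    (h : ∀ p (v : A), ξ ((1 : F) ⊗ₜ[k] v) ∈ (C.pl p).M 1 0) :
    ∃ η : Dual k A, ∀ v, ξ ((1 : F) ⊗ₜ[k] v) = algebraMap k F (η v) := by
  have h1 : ∀ v : A, ∃ c : k, algebraMap k F c = ξ ((1 : F) ⊗ₜ[k] v) := fun v =>
    C.H0 _ fun p => h p v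
  choose η hη using h1
  refine ⟨{ toFun := η
            map_add' := fun v v' => ?_
            map_smul' := fun c v => ?_ }, fun v => (hη v).symm⟩
  · apply (algebraMap k F).injective
    rw [hη, tmul_add, map_add, map_add, hη, hη]
  · apply (algebraMap k F).injective
    have h2 : ξ (c • ((1 : F) ⊗ₜ[k] v)) = algebraMap k F c * ξ ((1 : F) ⊗ₜ[k] v) := by
      rw [← algebraMap_smul F c, map_smul, smul_eq_mul]
    rw [hη, tmul_smul, h2, RingHom.id_apply, smul_eq_mul, map_mul, hη]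

/-- a constant form is integral iff it is compatible with the filtrations -/
theorem bil_mem_iff {p : P} {c : A →ₗ[k] A →ₗ[k] k} :
    (∀ a b (x y : F ⊗[k] A), x ∈ ((𝒜.bun hw).ch p).L a → y ∈ ((𝒜.bun hw).ch p).L b →
      (LinearMap.BilinForm.baseChange F c) x y ∈ (C.pl p).M (C.per p) (a + b)) ↔
      ∀ a b, 0 < a + b → ∀ u ∈ 𝒜.G p a, ∀ v ∈ 𝒜.G p b, c u v = 0 := by
  constructor
  · intro h a b hab u hu v hv
    have h1 := h a b ((1 : F) ⊗ₜ[k] u) ((1 : F) ⊗ₜ[k] v) (𝒜.one_mem.2 hu) (𝒜.one_mem.2 hv)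
    rw [LinearMap.BilinForm.baseChange_tmul, one_mul, Algebra.smul_def, mul_one,
      alg_mem_M] at h1
    by_contra h2
    have := h1 h2
    omega
  · intro h a b x y hx hy
    have h1 : ∀ a, ∀ x ∈ ((𝒜.bun hw).ch p).L a, ∀ b, ∀ y ∈ ((𝒜.bun hw).ch p).L b,
        (LinearMap.BilinForm.baseChange F c) x y ∈ (C.pl p).M (C.per p) (a + b + 0) := by
      refine (gen_bil (hx := bc_gen (𝒜.basis p)) (hx₂ := bc_gen (𝒜.basis p))).2 fun i j => ?_
      rw [Basis.baseChange_apply, Basis.baseChange_apply, LinearMap.BilinForm.baseChange_tmul,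
        one_mul, Algebra.smul_def, mul_one, alg_mem_M]
      intro h2
      by_contra h3
      exact h2 (h (𝒜.wt p i) (𝒜.wt p j) (by omega) _ ((𝒜.adapted p).basis_mem i) _
        ((𝒜.adapted p).basis_mem j))
    have h2 := h1 a x hx b y hy
    rwa [add_zero] at h2

/-- GLOBAL FORMS ON A CONSTANT OBJECT ARE CONSTANT -/
theorem bil_const (hw2 : ∀ p, -(C.per p : ℤ) < 2 * w0 p)
    {c : (F ⊗[k] A) →ₗ[F] (F ⊗[k] A) →ₗ[F] F} :
    (∀ p a b (x y : F ⊗[k] A), x ∈ ((𝒜.bun hw).ch p).L a → y ∈ ((𝒜.bun hw).ch p).L b →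
      c x y ∈ (C.pl p).M (C.per p) (a + b)) ↔
      ∃ d : A →ₗ[k] A →ₗ[k] k, c = LinearMap.BilinForm.baseChange F d ∧
        ∀ p a b, 0 < a + b → ∀ u ∈ 𝒜.G p a, ∀ v ∈ 𝒜.G p b, d u v = 0 := by
  constructor
  · intro h
    have h1 : ∀ u : A, ∃ η : Dual k A, ∀ v, c ((1 : F) ⊗ₜ[k] u) ((1 : F) ⊗ₜ[k] v) =
        algebraMap k F (η v) := by
      intro u
      refine exists_dual C fun p v => ?_
      refine C.mem_M_reg ?_ (h p (w0 p) (w0 p) _ _ (𝒜.one_mem.2 ?_) (𝒜.one_mem.2 ?_))
      · have := hw2 p; linarith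
      · rw [𝒜.top p _ le_rfl]; exact Submodule.mem_top
      · rw [𝒜.top p _ le_rfl]; exact Submodule.mem_top
    choose d hd using h1
    let d' : A →ₗ[k] A →ₗ[k] k :=
      { toFun := d
        map_add' := fun u u' => by
          ext v
          apply (algebraMap k F).injective
          rw [← hd, tmul_add, map_add, LinearMap.add_apply, hd, hd, LinearMap.add_apply, map_add]
        map_smul' := fun r u => by
          ext v
          apply (algebraMap k F).injective
          have h2 : c (r • ((1 : F) ⊗ₜ[k] u)) = algebraMap k F r • c ((1 : F) ⊗ₜ[k] u) := by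
            rw [← algebraMap_smul F r, map_smul]
          rw [← hd, tmul_smul, h2, LinearMap.smul_apply, hd, RingHom.id_apply,
            LinearMap.smul_apply, smul_eq_mul, smul_eq_mul, map_mul] }
    have h2 : c = LinearMap.BilinForm.baseChange F d' := by
      refine ext_one fun u => ext_one fun v => ?_
      rw [LinearMap.BilinForm.baseChange_tmul, one_mul, Algebra.smul_def, mul_one]
      exact hd u v
    refine ⟨d', h2, fun p => ?_⟩
    rw [h2] at h
    exact (𝒜.bil_mem_iff (hw := hw)).1 (h p)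
  · rintro ⟨d, rfl, h⟩ p
    exact (𝒜.bil_mem_iff (hw := hw)).2 (h p)

end CFl

end Vale.Agent.P182.H430
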