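import Vale.Agent.P182.H430.CN
import Vale.Agent.P182.H735.Input

/-!
# The bridge in the language of the input structure
-/

namespace Vale.Agent.P182.H430

open Polynomial Module TensorProduct Vale.Agent.P182.H388 Vale.Agent.P182.H735

namespace NData

variable {k : Type*} [Field k] {J : Type*} [Fintype J] [DecidableEq J] (X : NData k J)
variable {B : Type*} [AddCommGroup B] [Module k B]
variable {F : Type*} [Field F] [Algebra k[X] F] [IsFractionRing k[X] F]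
  [Algebra k F] [IsScalarTower k k[X] F] [IsAlgClosed k]

/-- the three filtrations of a constant flagged space -/
def toFl3 (𝒢 : CFl (X.cur F) X.w0 B) : Fl3 k X.n B where
  G s a := 𝒢.G (some (X.z s)) a
  anti s := 𝒢.anti _
  top s a ha := 𝒢.top _ a (by rw [X.w0_z]; exact ha)
  bot s a ha := 𝒢.bot _ a (by rw [X.w0_z, cur_per, X.per_marked]; push_cast; linarith)

theorem fl_toFl3 (𝒢 : CFl (X.cur F) X.w0 B) : X.fl F (X.toFl3 𝒢) = 𝒢 := by
  have h : (X.fl F (X.toFl3 𝒢)).G = 𝒢.G := by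
    funext p a
    rw [fl_G]
    by_cases hp : X.Marked p
    · obtain ⟨s, rfl⟩ := hp
      rw [Gp_z]
      rfl
    · rw [X.Gp_unmarked _ hp]
      split_ifs with h1
      · exact (𝒢.top p a (by rw [X.w0_not hp]; exact h1)).symm
      · exact (𝒢.bot p a (by
          rw [X.w0_not hp, cur_per, X.per_unmarked hp]
          push_cast
          omega)).symm
  cases h1 : X.fl F (X.toFl3 𝒢)
  cases 𝒢
  rw [h1] at h
  simp only at h
  subst h
  rfl

variable [FiniteDimensional k B]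

/-- (V2) -/
theorem mor_N_iff (𝒢 : CFl (X.cur F) X.w0 B) {hw : {p | X.w0 p ≠ 0}.Finite}
    {f : (J → F) →ₗ[F] (F ⊗[k] B)} : Mor (X.N F) (𝒢.bun hw) f ↔ ∃ t : J → B,
      (∀ l, f (cv F (Pi.single l (1 : k))) = (1 : F) ⊗ₜ[k] t l) ∧
      (∀ l, t l ∈ 𝒢.G (some (X.z (X.arm l))) (X.n + 1 - X.c l)) ∧
        ∀ l, ∑ m, X.Ω l m • t m ∈ 𝒢.G (some (X.z (X.arm l))) (X.c l - X.n) := by
  have h1 : Mor (X.N F) (𝒢.bun hw) f ↔ f ∈ HZ ((X.N F).hom (X.cb F (X.toFl3 𝒢))).lat := by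
    rw [mem_HZ]
    refine forall_congr' fun p => ?_
    rw [Bun.mem_hom_lat, cb, fl_toFl3]
  rw [h1, hom_N_const]
  constructor
  · rintro ⟨t, rfl, h2, h3⟩
    exact ⟨t, fun l => cmap_ev t l, h2, h3⟩
  · rintro ⟨t, ht, h2, h3⟩
    exact ⟨t, ext_ev (k := k) fun l => (ht l).trans (cmap_ev t l).symm, h2, h3⟩

/-- (V3') -/
theorem mor_N_dual (𝒢 : CFl (X.cur F) X.w0 B) {hw : {p | X.w0 p ≠ 0}.Finite}
    {z : (J → F) →ₗ[F] (F ⊗[k] B) →ₗ[F] F} : (∀ p a c e u, e ∈ ((X.N F).ch p).L a →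
      u ∈ ((𝒢.bun hw).ch p).L c → z e u ∈ ((X.cur F).pl p).M ((X.cur F).per p) (a + c)) ↔
      ∃ y : J → Dual k B,
      (∀ l v, z (cv F (Pi.single l (1 : k))) ((1 : F) ⊗ₜ[k] v) = algebraMap k F (y l v)) ∧
      (∀ l, ∀ v ∈ 𝒢.G (some (X.z (X.arm l))) (X.c l - X.n), y l v = 0) ∧
        ∀ l, ∀ v ∈ 𝒢.G (some (X.z (X.arm l))) (X.n + 1 - X.c l), ∑ m, X.Ω l m * y m v = 0 := by
  have h1 : (∀ p a c e u, e ∈ ((X.N F).ch p).L a →
      u ∈ ((𝒢.bun hw).ch p).L c → z e u ∈ ((X.cur F).pl p).M ((X.cur F).per p) (a + c)) ↔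
      z ∈ HZ ((X.N F).hom (X.cb F (X.toFl3 𝒢)).dual).lat := by
    rw [mem_HZ]
    refine forall_congr' fun p => ?_
    rw [Bun.mem_hom_lat, cb, fl_toFl3]
    refine forall_congr' fun a => ?_
    constructor
    · intro h e he c u hu
      rw [add_comm]
      exact h c e u he hu
    · intro h c e u he hu
      rw [add_comm]
      exact h e he c u hu
  rw [h1, hom_N_dual]
  exact Iff.rfl

end NData

end Vale.Agent.P182.H430
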