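import Vale.Agent.P182.H430.NInt
import Vale.Agent.P182.H578.Swap

/-!
# Self-duality of the concrete bundle `N`
-/

namespace Vale.Agent.P182.H430

open Polynomial Module

namespace NData

variable {k : Type*} [Field k] {J : Type*} [Fintype J] [DecidableEq J] (X : NData k J)
variable {F : Type*} [Field F] [Algebra k[X] F] [IsFractionRing k[X] F]
  [Algebra k F] [IsScalarTower k k[X] F]

/-- the basis vector `e_l` -/
def ev (F : Type*) [Field F] [Algebra k F] (l : J) : J → F := cv F (Pi.single l (1 : k))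

omit [Fintype J] [Algebra k[X] F] [IsFractionRing k[X] F] [IsScalarTower k k[X] F] in
theorem ev_apply (l j : J) : ev (k := k) F l j = if j = l then 1 else 0 := by
  unfold ev cv
  by_cases h : j = l
  · subst h; simp
  · rw [Pi.single_eq_of_ne h, map_zero, if_neg h]

theorem sum_ev (y : J → F) : y = ∑ l, y l • ev (k := k) F l := by
  funext j
  rw [Finset.sum_apply, Finset.sum_eq_single j]
  · rw [Pi.smul_apply, ev_apply, if_pos rfl, smul_eq_mul, mul_one]
  · intro l _ hl
    rw [Pi.smul_apply, ev_apply, if_neg (Ne.symm hl), smul_zero]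
  · intro h; exact absurd (Finset.mem_univ _) h

theorem cv_eq_sum (v : J → k) : cv F v = ∑ m, algebraMap k F (v m) • ev (k := k) F m :=
  sum_ev (k := k) (cv F v)

/-- the inverse form -/
noncomputable def binv (ξ η : Dual F (J → F)) : F :=
  ∑ l, ∑ m, ξ (ev (k := k) F l) * η (ev (k := k) F m) *
    (algebraMap k F (X.Om' l m) * (X.lin F (X.arm l))⁻¹ * (X.lin F (X.arm m))⁻¹)

theorem b_ev (x : J → F) (l : J) : X.b F x (ev (k := k) F l) = ∑ m, x m * X.Bm F m l := by
  rw [b_apply]
  refine Finset.sum_congr rfl fun m _ => ?_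
  rw [Finset.sum_eq_single l]
  · rw [ev_apply, if_pos rfl, mul_one]
  · intro j _ hj
    rw [ev_apply, if_neg hj, mul_zero, zero_mul]
  · intro h; exact absurd (Finset.mem_univ _) h

/-- the inverse form inverts the form -/
theorem binv_b (hdet : IsUnit X.Om'.det) (η : Dual F (J → F)) (x : J → F) :
    X.binv η (X.b F x) = η x := by
  have hM : X.Mi * X.Om' = 1 := Matrix.nonsing_inv_mul _ hdet
  unfold binv
  have h1 : ∀ l m, η (ev (k := k) F l) * X.b F x (ev (k := k) F m) *
      (algebraMap k F (X.Om' l m) * (X.lin F (X.arm l))⁻¹ * (X.lin F (X.arm m))⁻¹) =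
      ∑ j, η (ev (k := k) F l) * x j * (X.lin F (X.arm j) * (X.lin F (X.arm l))⁻¹ *
        algebraMap k F (X.Mi j m * X.Om' m l)) := by
    intro l m
    rw [b_ev, Finset.mul_sum, Finset.sum_mul]
    refine Finset.sum_congr rfl fun j _ => ?_
    unfold Bm
    rw [X.Om'_symm m l, map_mul]
    have h2 := X.lin_ne F (X.arm m)
    field_simp
  simp only [h1]
  have h3 : ∀ l, ∑ m, ∑ j, η (ev (k := k) F l) * x j * (X.lin F (X.arm j) *
      (X.lin F (X.arm l))⁻¹ * algebraMap k F (X.Mi j m * X.Om' m l)) =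
      x l * η (ev (k := k) F l) := by
    intro l
    rw [Finset.sum_comm]
    have h4 : ∀ j, ∑ m, η (ev (k := k) F l) * x j * (X.lin F (X.arm j) *
        (X.lin F (X.arm l))⁻¹ * algebraMap k F (X.Mi j m * X.Om' m l)) =
        η (ev (k := k) F l) * x j * (X.lin F (X.arm j) *
        (X.lin F (X.arm l))⁻¹ * algebraMap k F ((1 : Matrix J J k) j l)) := by
      intro j
      rw [← Finset.mul_sum, ← Finset.mul_sum, ← map_sum, ← Matrix.mul_apply, hM]
    simp only [h4]
    rw [Finset.sum_eq_single l]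
    · rw [Matrix.one_apply_eq, map_one, mul_inv_cancel₀ (X.lin_ne F _)]
      ring
    · intro j _ hj
      rw [Matrix.one_apply_ne hj, map_zero, mul_zero, mul_zero]
    · intro h; exact absurd (Finset.mem_univ _) h
  simp only [h3]
  conv_rhs => rw [sum_ev (k := k) x, map_sum]
  exact Finset.sum_congr rfl fun l _ => by rw [map_smul, smul_eq_mul]

/-- the second expression of the inverse form -/
theorem binv_eq (ξ η : Dual F (J → F)) : X.binv ξ η =
    ∑ l, (X.lin F (X.arm l))⁻¹ * (ξ (cv F (Pi.single l (1 : k))) * η (cv F (X.Ω l)) +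
      ξ (cv F (X.Ω l)) * η (cv F (Pi.single l (1 : k)))) := by
  have h1 : ∀ (φ : Dual F (J → F)) l, φ (cv F (X.Ω l)) =
      ∑ m, algebraMap k F (X.Ω l m) * φ (ev (k := k) F m) := by
    intro φ l
    rw [cv_eq_sum, map_sum]
    exact Finset.sum_congr rfl fun m _ => by rw [map_smul, smul_eq_mul]
  have h2 : ∀ (φ : Dual F (J → F)) l, φ (cv F (Pi.single l (1 : k))) = φ (ev (k := k) F l) :=
    fun _ _ => rfl
  simp only [h1, h2]
  have h3 : ∑ l, (X.lin F (X.arm l))⁻¹ * (ξ (ev (k := k) F l) *
        (∑ m, algebraMap k F (X.Ω l m) * η (ev (k := k) F m)) +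
      (∑ m, algebraMap k F (X.Ω l m) * ξ (ev (k := k) F m)) * η (ev (k := k) F l)) =
      (∑ l, ∑ m, (X.lin F (X.arm l))⁻¹ * (ξ (ev (k := k) F l) *
        (algebraMap k F (X.Ω l m) * η (ev (k := k) F m)))) +
      ∑ l, ∑ m, (X.lin F (X.arm l))⁻¹ * ((algebraMap k F (X.Ω l m) * ξ (ev (k := k) F m)) *
        η (ev (k := k) F l)) := by
    rw [← Finset.sum_add_distrib]
    refine Finset.sum_congr rfl fun l _ => ?_
    rw [mul_add, Finset.mul_sum, Finset.mul_sum, Finset.sum_mul, Finset.mul_sum]
  rw [h3]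
  conv_rhs =>
    arg 2
    rw [Finset.sum_comm]
  rw [← Finset.sum_add_distrib]
  unfold binv
  refine Finset.sum_congr rfl fun l _ => ?_
  rw [← Finset.sum_add_distrib]
  refine Finset.sum_congr rfl fun m _ => ?_
  have hl := X.lin_ne F (X.arm l)
  have hm := X.lin_ne F (X.arm m)
  have h4 : algebraMap k F (X.Om' l m) =
      (X.lin F (X.arm m) - X.lin F (X.arm l)) * algebraMap k F (X.Ω l m) := by
    rw [X.lin_diff F (X.arm l) (X.arm m)]
    unfold Om'
    rw [map_mul]
    ring
  have h5 : algebraMap k F (X.Ω m l) = -algebraMap k F (X.Ω l m) := by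
    rw [X.skew m l, map_neg]
  rw [h4, h5]
  field_simp
  ring

section closed

variable [IsAlgClosed k]

omit [IsAlgClosed k] in
theorem hgen (y : J → F) : ∃ c : J ⊕ J ⊕ J → F, y = ∑ i, c i • X.gx F i := by
  refine ⟨Sum.elim 0 (Sum.elim 0 y), ?_⟩
  rw [Fintype.sum_sum_type, Fintype.sum_sum_type]
  simp only [Sum.elim_inl, Sum.elim_inr, Pi.zero_apply, zero_smul, Finset.sum_const_zero, zero_add]
  exact sum_ev (k := k) y

theorem e_mem (p : Option k) (l : J) :
    cv F (Pi.single l (1 : k)) ∈ ((X.N F).ch p).L (X.wA p l) :=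
  gen_mem (hx := X.hgen) (Sum.inl l)

theorem eps_mem (p : Option k) (l : J) : cv F (X.Ω l) ∈ ((X.N F).ch p).L (X.wB p l) :=
  gen_mem (hx := X.hgen) (Sum.inr (Sum.inl l))

theorem const_mem_N (p : Option k) (v : J → k) : cv F v ∈ ((X.N F).ch p).L (X.w0 p) := by
  rw [cv_eq_sum]
  refine Submodule.sum_mem _ fun m _ => ?_
  rw [algebraMap_smul]
  exact Submodule.smul_mem _ _ (gen_mem (hx := X.hgen) (Sum.inr (Sum.inr m)))

/-- INTEGRALITY of the inverse form -/
theorem binv_mem (p : Option k) {a c : ℤ} {ξ η : Dual F (J → F)}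
    (hξ : ξ ∈ ((X.N F).ch p).dual.L a) (hη : η ∈ ((X.N F).ch p).dual.L c) :
    X.binv ξ η ∈ (linePl k F p).M (X.per p) (a + c - X.kap p) := by
  have mξ : ∀ {w : ℤ} {y : J → F}, y ∈ ((X.N F).ch p).L w →
      ξ y ∈ (linePl k F p).M (X.per p) (w + a) := fun h => hξ _ _ h
  have mη : ∀ {w : ℤ} {y : J → F}, y ∈ ((X.N F).ch p).L w →
      η y ∈ (linePl k F p).M (X.per p) (w + c) := fun h => hη _ _ h
  have c0 : ∀ v, cv F v ∈ ((X.N F).ch p).L (X.w0 p) := fun v => X.const_mem_N p v
  rcases p with _ | q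
  · -- infinity
    unfold binv
    refine Submodule.sum_mem _ fun l _ => Submodule.sum_mem _ fun m _ => ?_
    rw [per_unmarked X X.not_marked_none] at mξ mη ⊢
    rw [kap_none]
    have h1 := mξ (c0 (Pi.single l (1 : k)))
    have h2 := mη (c0 (Pi.single m (1 : k)))
    rw [w0_none] at h1 h2
    exact mul3_mem h1 h2 (mul3_mem (const_mem _ 1 _) (X.inv_mem_none _) (X.inv_mem_none _) le_rfl)
      (by linarith)
  by_cases hm : X.Marked (some q)
  · obtain ⟨s, hs⟩ := hm
    obtain rfl : q = X.z s := Option.some_injective _ hs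
    rw [binv_eq]
    refine Submodule.sum_mem _ fun l _ => ?_
    rw [kap_z]
    by_cases hl : X.arm l = s
    · subst hl
      have e1 := X.e_mem (F := F) (some (X.z (X.arm l))) l
      have e2 := X.eps_mem (F := F) (some (X.z (X.arm l))) l
      rw [wA_z] at e1
      rw [wB_z] at e2
      have h1 := Place.mul_mem_M _ (mξ e1) (mη e2)
      have h2 := Place.mul_mem_M _ (mξ e2) (mη e1)
      rw [per_marked] at h1 h2 ⊢
      have h3 := X.inv_mem_z (F := F) (X.arm l) (2 * X.n + 1)
      refine Place.M_anti _ ?_ (Place.mul_mem_M _ h3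
        (Submodule.add_mem _ (Place.M_anti _ (le_refl (1 + a + c)) ?_) ?_))
      · push_cast; linarith
      · exact Place.M_anti _ (by linarith) h1
      · exact Place.M_anti _ (by linarith) h2
    · have h1 := mξ (c0 (Pi.single l (1 : k)))
      have h2 := mη (c0 (X.Ω l))
      have h3 := mξ (c0 (X.Ω l))
      have h4 := mη (c0 (Pi.single l (1 : k)))
      rw [w0_z, per_marked] at h1 h2 h3 h4
      rw [per_marked]
      have h5 := X.inv_mem_other (F := F) (X.arm l) (2 * X.n + 1) (a := X.z s)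
        (fun h => hl (X.hz h).symm)
      refine Place.M_anti _ ?_ (Place.mul_mem_M _ h5
        (Submodule.add_mem _ (Place.mul_mem_M _ h1 h2)
        (Place.M_anti _ ?_ (Place.mul_mem_M _ h3 h4))))
      · linarith
      · linarith
  · -- unmarked
    unfold binv
    refine Submodule.sum_mem _ fun l _ => Submodule.sum_mem _ fun m _ => ?_
    have h1 := mξ (c0 (Pi.single l (1 : k)))
    have h2 := mη (c0 (Pi.single m (1 : k)))
    rw [w0_unmarked X hm] at h1 h2
    rw [kap_unmarked X hm]
    have hne : ∀ s, q ≠ X.z s := fun s h => hm ⟨s, by rw [h]⟩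
    exact mul3_mem h1 h2 (mul3_mem (const_mem _ _ _) (X.inv_mem_other _ _ (hne _))
      (X.inv_mem_other _ _ (hne _)) le_rfl) (by linarith)

/-- integrality of the form -/
theorem b_mem (hdet : IsUnit X.Om'.det) (p : Option k) {a c : ℤ} {x y : J → F}
    (hx : x ∈ ((X.N F).ch p).L a) (hy : y ∈ ((X.N F).ch p).L c) :
    X.b F x y ∈ (linePl k F p).M (X.per p) (a + c + X.kap p) :=
  (gen_bil (hx := X.hgen) (hx₂ := X.hgen)).2 (fun i j => X.b_gen hdet p i j) a x hx c y hy

/-- SELF-DUALITY of `N` -/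
theorem N_self (hdet : IsUnit X.Om'.det) (p : Option k) {a : ℤ} {x : J → F} :
    x ∈ ((X.N F).ch p).L a ↔ ∀ c y, y ∈ ((X.N F).ch p).L c →
      X.b F x y ∈ (linePl k F p).M (X.per p) (a + c + X.kap p) := by
  constructor
  · intro hx c y hy
    exact X.b_mem hdet p hx hy
  · intro h
    rw [LChain.mem_iff_dual]
    intro c η hη
    have h1 : X.b F x ∈ ((X.N F).ch p).dual.L (a + X.kap p) := by
      intro d y hy
      exact Place.M_anti _ (by linarith) (h d y hy)
    have h2 := X.binv_mem p hη h1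
    rw [X.binv_b hdet] at h2
    exact Place.M_anti _ (by linarith) h2

/-- the form is nondegenerate -/
theorem b_nondeg (hdet : IsUnit X.Om'.det) (x : J → F) (h : ∀ y, X.b F x y = 0) : x = 0 := by
  have h1 : X.b F x = 0 := LinearMap.ext h
  funext l
  have h2 := X.binv_b hdet (LinearMap.proj l) x
  rw [h1] at h2
  have h3 : X.binv (LinearMap.proj l) (0 : Dual F (J → F)) = 0 := by
    unfold binv
    simp
  rw [h3] at h2
  exact h2.symm

open Classical in
/-- the theta characteristic -/
noncomputable def tht (p : Option k) : ℤ :=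
  if p = none then -1 else if X.Marked p then X.n else 0

theorem tht_none : X.tht none = -1 := if_pos rfl

theorem tht_z (s : Fin 3) : X.tht (some (X.z s)) = X.n := by
  unfold tht
  rw [if_neg (Option.some_ne_none _), if_pos ⟨s, rfl⟩]

theorem tht_unmarked {a : k} (h : ¬ X.Marked (some a)) : X.tht (some a) = 0 := by
  unfold tht
  rw [if_neg (Option.some_ne_none _), if_neg h]

theorem tht_two (p : Option k) : 2 * X.tht p = X.kap p := by
  rcases p with _ | q
  · rw [tht_none, kap_none]; norm_num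
  by_cases hm : X.Marked (some q)
  · obtain ⟨s, hs⟩ := hm
    rw [hs, tht_z, kap_z]
  · rw [tht_unmarked X hm, kap_unmarked X hm]; norm_num

theorem tht_fin : {p | X.tht p ≠ 0}.Finite := by
  refine (X.marked_finite.union (Set.finite_singleton none)).subset ?_
  rintro (_ | q) hp
  · exact Or.inr rfl
  · left
    by_contra h
    exact hp (X.tht_unmarked h)

/-- the normalised bundle, self-dual without twist -/
noncomputable def N' (F : Type*) [Field F] [Algebra k[X] F] [IsFractionRing k[X] F]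
    [Algebra k F] [IsScalarTower k k[X] F] : Bun (X.cur F) (J → F) :=
  (X.N F).twist X.tht X.tht_fin

theorem mem_N' {p : Option k} {a : ℤ} {x : J → F} :
    x ∈ ((X.N' F).ch p).L a ↔ x ∈ ((X.N F).ch p).L (a - X.tht p) := Iff.rfl

theorem selfDual (hdet : IsUnit X.Om'.det) : H578.SelfDual (X.N' F) (X.b F) := by
  intro p a x
  rw [mem_N', X.N_self hdet]
  constructor
  · intro h c y hy
    have h1 := h _ y (X.mem_N'.1 hy)
    refine Place.M_anti _ (le_of_eq ?_) h1
    rw [← tht_two]; ring
  · intro h c y hy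
    have h1 := h (c + X.tht p) y (by rw [mem_N', add_sub_cancel_right]; exact hy)
    refine Place.M_anti _ (le_of_eq ?_) h1
    rw [← tht_two]; ring

theorem hom_N' {p : Option k} {c : ℤ} {T : (J → F) →ₗ[F] (J → F)} :
    T ∈ (((X.N' F).hom (X.N' F)).ch p).L c ↔ ∀ a x, x ∈ ((X.N F).ch p).L a →
      T x ∈ ((X.N F).ch p).L (a + c) := by
  constructor
  · intro h a x hx
    have h1 : T x ∈ ((X.N F).ch p).L (a + X.tht p + c - X.tht p) :=
      h (a + X.tht p) x (by rw [mem_N', add_sub_cancel_right]; exact hx)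
    have e : a + X.tht p + c - X.tht p = a + c := by ring
    rwa [e] at h1
  · intro h a x hx
    have h1 := h _ x (X.mem_N'.1 hx)
    rw [mem_N']
    have e : a + c - X.tht p = a - X.tht p + c := by ring
    rwa [e]

end closed

end NData

end Vale.Agent.P182.H430
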