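import Vale.Agent.P182.H430.CExt
import Vale.Agent.P182.H430.NDual

/-!
# `Hom(N, B)` and `Hom(N, B^*)` for constant flagged spaces `B`
-/

namespace Vale.Agent.P182.H430

open Polynomial Module TensorProduct

/-- three filtrations of a constant space, full in level `-n`, zero in level `n + 1` -/
structure Fl3 (k : Type*) [Field k] (n : ℕ) (B : Type*) [AddCommGroup B] [Module k B] where
  G : Fin 3 → ℤ → Submodule k B
  anti : ∀ s, Antitone (G s)
  top : ∀ s a, a ≤ -(n : ℤ) → G s a = ⊤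
  bot : ∀ s a, (n : ℤ) + 1 ≤ a → G s a = ⊥

namespace NData

variable {k : Type*} [Field k] {J : Type*} [Fintype J] [DecidableEq J] (X : NData k J)
variable {B : Type*} [AddCommGroup B] [Module k B]

open Classical in
/-- the filtration at every place -/
noncomputable def Gp (𝒢 : Fl3 k X.n B) (p : Option k) (a : ℤ) : Submodule k B :=
  if h : X.Marked p then 𝒢.G h.choose a else if a ≤ 0 then ⊤ else ⊥

omit [DecidableEq J] in
theorem Gp_z (𝒢 : Fl3 k X.n B) (s : Fin 3) (a : ℤ) : X.Gp 𝒢 (some (X.z s)) a = 𝒢.G s a := by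
  have h : X.Marked (some (X.z s)) := ⟨s, rfl⟩
  unfold Gp
  rw [dif_pos h]
  have h1 : some (X.z s) = some (X.z h.choose) := h.choose_spec
  rw [← X.hz (Option.some_injective _ h1)]

omit [DecidableEq J] in
theorem Gp_unmarked (𝒢 : Fl3 k X.n B) {p : Option k} (h : ¬ X.Marked p) (a : ℤ) :
    X.Gp 𝒢 p a = if a ≤ 0 then ⊤ else ⊥ := by
  unfold Gp
  rw [dif_neg h]

omit [DecidableEq J] in
theorem w0_marked {p : Option k} (h : X.Marked p) : X.w0 p = -X.n := if_pos h

omit [DecidableEq J] in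
theorem w0_not {p : Option k} (h : ¬ X.Marked p) : X.w0 p = 0 := if_neg h

theorem w0_fin : {p | X.w0 p ≠ 0}.Finite := by
  refine X.marked_finite.subset fun p hp => ?_
  by_contra h
  exact hp (X.w0_not h)

omit [DecidableEq J] in
theorem per_eq (p : Option k) : X.Marked p ∧ X.per p = 2 * X.n + 1 ∧ X.w0 p = -X.n ∨
    ¬ X.Marked p ∧ X.per p = 1 ∧ X.w0 p = 0 := by
  by_cases h : X.Marked p
  · exact Or.inl ⟨h, if_pos h, X.w0_marked h⟩
  · exact Or.inr ⟨h, if_neg h, X.w0_not h⟩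

omit [DecidableEq J] in
theorem w0_window (p : Option k) : -(X.per p : ℤ) < 2 * X.w0 p := by
  rcases X.per_eq p with ⟨-, h1, h2⟩ | ⟨-, h1, h2⟩
  · rw [h1, h2]; push_cast; linarith
  · rw [h1, h2]; norm_num

section closed

variable (F : Type*) [Field F] [Algebra k[X] F] [IsFractionRing k[X] F]
  [Algebra k F] [IsScalarTower k k[X] F] [IsAlgClosed k]

/-- the constant flagged space on the curve of `N` -/
noncomputable def fl (𝒢 : Fl3 k X.n B) : CFl (X.cur F) X.w0 B where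
  G := X.Gp 𝒢
  anti p a b hab := by
    by_cases h : X.Marked p
    · obtain ⟨s, rfl⟩ := h
      rw [Gp_z, Gp_z]
      exact 𝒢.anti s hab
    · rw [X.Gp_unmarked 𝒢 h, X.Gp_unmarked 𝒢 h]
      split_ifs with h1 h2
      · exact le_rfl
      · omega
      · exact bot_le
      · exact le_rfl
  top p a ha := by
    by_cases h : X.Marked p
    · rw [X.w0_marked h] at ha
      obtain ⟨s, rfl⟩ := h
      rw [Gp_z]
      exact 𝒢.top s a ha
    · rw [X.w0_not h] at ha
      rw [X.Gp_unmarked 𝒢 h, if_pos ha]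
  bot p a ha := by
    rw [cur_per] at ha
    rcases X.per_eq p with ⟨h, h1, h2⟩ | ⟨h, h1, h2⟩
    · rw [h1, h2] at ha
      obtain ⟨s, rfl⟩ := h
      rw [Gp_z]
      exact 𝒢.bot s a (by push_cast at ha; linarith)
    · rw [h1, h2] at ha
      rw [X.Gp_unmarked 𝒢 h, if_neg (by push_cast at ha; omega)]

theorem fl_G (𝒢 : Fl3 k X.n B) (p : Option k) (a : ℤ) : (X.fl F 𝒢).G p a = X.Gp 𝒢 p a := rfl

/-- the condition at the unmarked places is empty -/
theorem fl_iff {B' : Type*} [AddCommGroup B'] [Module k B'] (𝒢 : Fl3 k X.n B)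
    (ℋ : Fl3 k X.n B') (u : B → B') (hu : u 0 = 0) :
    (∀ p a, ∀ v ∈ (X.fl F 𝒢).G p a, u v ∈ (X.fl F ℋ).G p a) ↔
      ∀ s a, ∀ v ∈ 𝒢.G s a, u v ∈ ℋ.G s a := by
  constructor
  · intro h s a v hv
    have h1 := h (some (X.z s)) a v (by rw [fl_G, Gp_z]; exact hv)
    rw [fl_G, Gp_z] at h1
    exact h1
  · intro h p a v hv
    rw [fl_G] at hv ⊢
    by_cases hp : X.Marked p
    · obtain ⟨s, rfl⟩ := hp
      rw [Gp_z] at hv ⊢
      exact h s a v hv
    · simp only [X.Gp_unmarked _ hp] at hv ⊢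
      split_ifs at hv ⊢ with h1
      · exact Submodule.mem_top
      · rw [Submodule.mem_bot] at hv ⊢
        rw [hv, hu]

/-- THE BUNDLE of a flagged constant space -/
noncomputable def cb (𝒢 : Fl3 k X.n B) [FiniteDimensional k B] : Bun (X.cur F) (F ⊗[k] B) :=
  (X.fl F 𝒢).bun X.w0_fin

variable {F}

theorem one_mem_cb (𝒢 : Fl3 k X.n B) [FiniteDimensional k B] {p : Option k} {a : ℤ} {v : B} :
    (1 : F) ⊗ₜ[k] v ∈ ((X.cb F 𝒢).ch p).L a ↔ v ∈ X.Gp 𝒢 p a :=
  (X.fl F 𝒢).one_mem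

/-- maps out of `N` -/
theorem N_hom_iff {E : Type*} [AddCommGroup E] [Module F E] [Module k E] [IsScalarTower k F E]
    [FiniteDimensional F E] (A : Bun (X.cur F) E) {p : Option k} {c : ℤ}
    {φ : (J → F) →ₗ[F] E} : φ ∈ (((X.N F).hom A).ch p).L c ↔
      ∀ i, φ (X.gx F i) ∈ (A.ch p).L (X.gw p i + c) :=
  gen_maps (hx := X.hgen) (A.ch p)

/-- the map of a family of constants -/
noncomputable def cmap (F : Type*) [Field F] [Algebra k F] (x : J → B) :
    (J → F) →ₗ[F] (F ⊗[k] B) := ∑ l, (LinearMap.proj l).smulRight ((1 : F) ⊗ₜ[k] x l)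

omit [DecidableEq J] [Algebra k[X] F] [IsFractionRing k[X] F] [IsScalarTower k k[X] F]
  [IsAlgClosed k] in
theorem cmap_apply (x : J → B) (y : J → F) : cmap F x y = ∑ l, y l • ((1 : F) ⊗ₜ[k] x l) := by
  unfold cmap
  rw [LinearMap.sum_apply]
  rfl

omit [DecidableEq J] [Algebra k[X] F] [IsFractionRing k[X] F] [IsScalarTower k k[X] F]
  [IsAlgClosed k] in
theorem cmap_cv (x : J → B) (v : J → k) :
    cmap F x (cv F v) = (1 : F) ⊗ₜ[k] ∑ l, v l • x l := by
  rw [cmap_apply, tmul_sum]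
  refine Finset.sum_congr rfl fun l _ => ?_
  rw [tmul_smul]
  show algebraMap k F (v l) • _ = _
  rw [algebraMap_smul]

omit [Algebra k[X] F] [IsFractionRing k[X] F] [IsScalarTower k k[X] F] [IsAlgClosed k] in
theorem cmap_ev (x : J → B) (l : J) : cmap F x (ev (k := k) F l) = (1 : F) ⊗ₜ[k] x l := by
  unfold ev
  rw [cmap_cv]
  congr 1
  rw [Finset.sum_eq_single l]
  · rw [Pi.single_eq_same, one_smul]
  · intro m _ hm
    rw [Pi.single_eq_of_ne hm, zero_smul]
  · intro h; exact absurd (Finset.mem_univ _) h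

omit [IsAlgClosed k] in
theorem ext_ev {E : Type*} [AddCommGroup E] [Module F E] {φ ψ : (J → F) →ₗ[F] E}
    (h : ∀ l, φ (ev (k := k) F l) = ψ (ev (k := k) F l)) : φ = ψ := by
  refine LinearMap.ext fun y => ?_
  rw [sum_ev (k := k) y, map_sum, map_sum]
  exact Finset.sum_congr rfl fun l _ => by rw [map_smul, map_smul, h l]

omit [DecidableEq J] [Algebra k[X] F] [IsFractionRing k[X] F] [IsScalarTower k k[X] F]
  [IsAlgClosed k] in
theorem sum_single (x : J → B) [DecidableEq J] (l : J) :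
    ∑ m, (Pi.single l (1 : k) : J → k) m • x m = x l := by
  rw [Finset.sum_eq_single l]
  · rw [Pi.single_eq_same, one_smul]
  · intro m _ hm
    rw [Pi.single_eq_of_ne hm, zero_smul]
  · intro h; exact absurd (Finset.mem_univ _) h

/-- the coefficient vectors of the generators -/
def gv : J ⊕ J ⊕ J → (J → k)
  | Sum.inl l => Pi.single l (1 : k)
  | Sum.inr (Sum.inl l) => X.Ω l
  | Sum.inr (Sum.inr l) => Pi.single l (1 : k)

omit [Algebra k[X] F] [IsFractionRing k[X] F] [IsScalarTower k k[X] F] [IsAlgClosed k] in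
theorem gx_eq (i : J ⊕ J ⊕ J) : X.gx F i = cv F (X.gv i) := by
  rcases i with l | l | l <;> rfl

omit [IsAlgClosed k] [DecidableEq J] in
theorem mem_Gp_w0 (𝒢 : Fl3 k X.n B) (p : Option k) (v : B) : v ∈ X.Gp 𝒢 p (X.w0 p) := by
  by_cases h : X.Marked p
  · rw [X.w0_marked h]
    obtain ⟨s, rfl⟩ := h
    rw [Gp_z, 𝒢.top s _ le_rfl]
    exact Submodule.mem_top
  · rw [X.w0_not h, X.Gp_unmarked 𝒢 h, if_pos le_rfl]
    exact Submodule.mem_top

omit [IsAlgClosed k] [DecidableEq J] in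
theorem eq_zero_of_Gp (𝒢 : Fl3 k X.n B) {p : Option k} {a : ℤ} (ha : 0 < a + X.w0 p) {v : B}
    (hv : v ∈ X.Gp 𝒢 p a) : v = 0 := by
  by_cases h : X.Marked p
  · rw [X.w0_marked h] at ha
    obtain ⟨s, rfl⟩ := h
    rw [Gp_z, 𝒢.bot s _ (by linarith), Submodule.mem_bot] at hv
    exact hv
  · rw [X.w0_not h] at ha
    rw [X.Gp_unmarked 𝒢 h, if_neg (by omega), Submodule.mem_bot] at hv
    exact hv

variable [FiniteDimensional k B] (𝒢 : Fl3 k X.n B)

/-- local membership -/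
theorem cmap_mem {p : Option k} {x : J → B} :
    cmap F x ∈ ((X.N F).hom (X.cb F 𝒢)).lat p ↔
      ∀ i, ∑ m, X.gv i m • x m ∈ X.Gp 𝒢 p (X.gw p i) := by
  refine (X.N_hom_iff (X.cb F 𝒢) (c := 0)).trans (forall_congr' fun i => ?_)
  rw [gx_eq, cmap_cv, add_zero, one_mem_cb]

omit [IsAlgClosed k] [FiniteDimensional k B] in
theorem gv_iff {x : J → B} : (∀ p i, ∑ m, X.gv i m • x m ∈ X.Gp 𝒢 p (X.gw p i)) ↔
    (∀ l, x l ∈ 𝒢.G (X.arm l) (X.n + 1 - X.c l)) ∧
      ∀ l, ∑ m, X.Ω l m • x m ∈ 𝒢.G (X.arm l) (X.c l - X.n) := by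
  constructor
  · intro h
    constructor
    · intro l
      have h1 := h (some (X.z (X.arm l))) (Sum.inl l)
      rw [Gp_z] at h1
      have h2 : X.gw (some (X.z (X.arm l))) (Sum.inl l) = X.n + 1 - X.c l := X.wA_z l
      rw [h2] at h1
      have h3 : ∑ m, X.gv (Sum.inl l) m • x m = x l := sum_single x l
      rwa [h3] at h1
    · intro l
      have h1 := h (some (X.z (X.arm l))) (Sum.inr (Sum.inl l))
      rw [Gp_z] at h1
      have h2 : X.gw (some (X.z (X.arm l))) (Sum.inr (Sum.inl l)) = X.c l - X.n := X.wB_z l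
      rw [h2] at h1
      exact h1
  · rintro ⟨hA, hB⟩ p (l | l | l)
    · have h3 : ∑ m, X.gv (Sum.inl l) m • x m = x l := sum_single x l
      rw [h3]
      show x l ∈ X.Gp 𝒢 p (X.wA p l)
      by_cases hp : p = some (X.z (X.arm l))
      · subst hp
        rw [Gp_z, wA_z]
        exact hA l
      · have : X.wA p l = X.w0 p := if_neg hp
        rw [this]
        exact X.mem_Gp_w0 𝒢 p _
    · show ∑ m, X.Ω l m • x m ∈ X.Gp 𝒢 p (X.wB p l)
      by_cases hp : p = some (X.z (X.arm l))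
      · subst hp
        rw [Gp_z, wB_z]
        exact hB l
      · have : X.wB p l = X.w0 p := if_neg hp
        rw [this]
        exact X.mem_Gp_w0 𝒢 p _
    · exact X.mem_Gp_w0 𝒢 p _

/-- `Hom(N, B)` IN CONSTANTS -/
theorem hom_N_const {φ : (J → F) →ₗ[F] (F ⊗[k] B)} :
    φ ∈ HZ ((X.N F).hom (X.cb F 𝒢)).lat ↔ ∃ x : J → B, φ = cmap F x ∧
      (∀ l, x l ∈ 𝒢.G (X.arm l) (X.n + 1 - X.c l)) ∧
        ∀ l, ∑ m, X.Ω l m • x m ∈ 𝒢.G (X.arm l) (X.c l - X.n) := by
  constructor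
  · intro h
    rw [mem_HZ] at h
    have h1 : ∀ l, ∃ v : B, φ (ev (k := k) F l) = (1 : F) ⊗ₜ[k] v := by
      intro l
      refine (X.fl F 𝒢).exists_const (hw := X.w0_fin) fun p => ?_
      have h2 := (X.N_hom_iff (X.cb F 𝒢) (c := 0)).1 (h p) (Sum.inr (Sum.inr l))
      rw [add_zero] at h2
      exact h2
    choose x hx using h1
    have h2 : φ = cmap F x := ext_ev (k := k) fun l => by rw [hx, cmap_ev]
    subst h2
    exact ⟨x, rfl, (X.gv_iff 𝒢).1 fun p => (X.cmap_mem 𝒢).1 (h p)⟩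
  · rintro ⟨x, rfl, h⟩
    rw [mem_HZ]
    intro p
    exact (X.cmap_mem 𝒢).2 ((X.gv_iff 𝒢).2 h p)

omit [IsAlgClosed k] [FiniteDimensional k B] in
theorem z_gx {z : (J → F) →ₗ[F] Dual F (F ⊗[k] B)} {y : J → Dual k B}
    (hy : ∀ l v, z (ev (k := k) F l) ((1 : F) ⊗ₜ[k] v) = algebraMap k F (y l v))
    (i : J ⊕ J ⊕ J) (v : B) :
    z (X.gx F i) ((1 : F) ⊗ₜ[k] v) = algebraMap k F (∑ m, X.gv i m * y m v) := by
  rw [gx_eq, cv_eq_sum, map_sum, LinearMap.sum_apply, map_sum]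
  refine Finset.sum_congr rfl fun m _ => ?_
  rw [map_smul, LinearMap.smul_apply, smul_eq_mul, hy, map_mul]

/-- `Hom(N, B^*)` IN CONSTANTS -/
theorem hom_N_dual {z : (J → F) →ₗ[F] Dual F (F ⊗[k] B)} :
    z ∈ HZ ((X.N F).hom (X.cb F 𝒢).dual).lat ↔ ∃ y : J → Dual k B,
      (∀ l v, z (ev (k := k) F l) ((1 : F) ⊗ₜ[k] v) = algebraMap k F (y l v)) ∧
      (∀ l, ∀ v ∈ 𝒢.G (X.arm l) (X.c l - X.n), y l v = 0) ∧
        ∀ l, ∀ v ∈ 𝒢.G (X.arm l) (X.n + 1 - X.c l), ∑ m, X.Ω l m * y m v = 0 := by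
  constructor
  · intro h
    rw [mem_HZ] at h
    have h0 : ∀ p i a v, v ∈ X.Gp 𝒢 p a → z (X.gx F i) ((1 : F) ⊗ₜ[k] v) ∈
        ((X.cur F).pl p).M ((X.cur F).per p) (a + X.gw p i) := by
      intro p i a v hv
      have h2 := (X.N_hom_iff (X.cb F 𝒢).dual (c := 0)).1 (h p) i
      rw [add_zero] at h2
      exact h2 a _ ((X.one_mem_cb 𝒢).2 hv)
    have h1 : ∀ l, ∃ η : Dual k B, ∀ v, z (ev (k := k) F l) ((1 : F) ⊗ₜ[k] v) =
        algebraMap k F (η v) := by
      intro l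
      refine CFl.exists_dual (X.cur F) fun p v => ?_
      refine (X.cur F).mem_M_reg ?_ (h0 p (Sum.inr (Sum.inr l)) (X.w0 p) v (X.mem_Gp_w0 𝒢 p v))
      have h2 := X.w0_window p
      show -(X.per p : ℤ) < X.w0 p + X.w0 p
      linarith
    choose y hy using h1
    refine ⟨y, hy, fun l v hv => ?_, fun l v hv => ?_⟩
    · have h2 := h0 (some (X.z (X.arm l))) (Sum.inl l) (X.c l - X.n) v (by rw [Gp_z]; exact hv)
      rw [X.z_gx hy, alg_mem_M] at h2
      have h3 : X.gw (some (X.z (X.arm l))) (Sum.inl l) = X.n + 1 - X.c l := X.wA_z l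
      have h4 : ∑ m, X.gv (Sum.inl l) m * y m v = y l v :=
        sum_single (k := k) (fun m => y m v) l
      rw [h3, h4] at h2
      by_contra h5
      have := h2 h5
      linarith
    · have h2 := h0 (some (X.z (X.arm l))) (Sum.inr (Sum.inl l)) (X.n + 1 - X.c l) v
        (by rw [Gp_z]; exact hv)
      rw [X.z_gx hy, alg_mem_M] at h2
      have h3 : X.gw (some (X.z (X.arm l))) (Sum.inr (Sum.inl l)) = X.c l - X.n := X.wB_z l
      rw [h3] at h2
      by_contra h5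
      have := h2 h5
      linarith
  · rintro ⟨y, hy, hA, hB⟩
    rw [mem_HZ]
    intro p
    refine (X.N_hom_iff (X.cb F 𝒢).dual (c := 0)).2 fun i => ?_
    rw [add_zero]
    refine ((X.fl F 𝒢).maps_line (hw := X.w0_fin)).2 fun a v hv => ?_
    rw [X.z_gx hy, alg_mem_M]
    intro h2
    by_contra h3
    apply h2
    rw [not_le] at h3
    rw [fl_G] at hv
    rcases i with l | l | l
    · have h4 : ∑ m, X.gv (Sum.inl l) m * y m v = y l v :=
        sum_single (k := k) (fun m => y m v) l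
      rw [h4]
      have h5 : 0 < a + X.wA p l := h3
      by_cases hp : p = some (X.z (X.arm l))
      · subst hp
        rw [wA_z] at h5
        rw [Gp_z] at hv
        exact hA l v (𝒢.anti _ (by linarith) hv)
      · have h6 : X.wA p l = X.w0 p := if_neg hp
        rw [h6] at h5
        rw [X.eq_zero_of_Gp 𝒢 h5 hv, map_zero]
    · show ∑ m, X.Ω l m * y m v = 0
      have h5 : 0 < a + X.wB p l := h3
      by_cases hp : p = some (X.z (X.arm l))
      · subst hp
        rw [wB_z] at h5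
        rw [Gp_z] at hv
        exact hB l v (𝒢.anti _ (by linarith) hv)
      · have h6 : X.wB p l = X.w0 p := if_neg hp
        rw [h6] at h5
        rw [X.eq_zero_of_Gp 𝒢 h5 hv]
        simp
    · have h5 : 0 < a + X.w0 p := h3
      rw [X.eq_zero_of_Gp 𝒢 h5 hv]
      simp

end closed

end NData

end Vale.Agent.P182.H430
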