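import Vale.Agent.P182.H430.Adele

/-!
# `H⁰`, `H¹`, `χ` of a family of subspaces
-/

namespace Vale.Agent.P182.H430

open LinearMap Submodule Module

section Chi

variable {k : Type*} [Field k] {P : Type*} {E : Type*} [AddCommGroup E] [Module k E]

/-- global sections -/
def HZ (Λ : P → Submodule k E) : Submodule k E := ⨅ p, Λ p

theorem mem_HZ {Λ : P → Submodule k E} {x : E} : x ∈ HZ Λ ↔ ∀ p, x ∈ Λ p := Submodule.mem_iInf _

/-- the diagonal image of `E` in the finitely supported families -/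
def diag (Λ : P → Submodule k E) : Submodule k (FS Λ) where
  carrier := {y | ∃ x : E, ∀ p, y.1 p = (Λ p).mkQ x}
  zero_mem' := ⟨0, fun p => by rw [map_zero]; rfl⟩
  add_mem' := by
    rintro a b ⟨x, hx⟩ ⟨y, hy⟩
    exact ⟨x + y, fun p => by rw [map_add, ← hx, ← hy]; rfl⟩
  smul_mem' := by
    rintro c a ⟨x, hx⟩
    exact ⟨c • x, fun p => by rw [map_smul, ← hx]; rfl⟩

theorem range_adf {Λ : P → Submodule k E} (h : Adm Λ) : LinearMap.range (adf Λ h) = diag Λ := by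
  ext y
  constructor
  · rintro ⟨x, rfl⟩
    exact ⟨x, fun p => rfl⟩
  · rintro ⟨x, hx⟩
    refine ⟨x, ?_⟩
    apply Subtype.ext
    funext p
    exact (hx p).symm

theorem ker_adf {Λ : P → Submodule k E} (h : Adm Λ) : LinearMap.ker (adf Λ h) = HZ Λ := by
  ext x
  rw [mem_ker_adf, mem_HZ]

/-- the first cohomology -/
abbrev HO (Λ : P → Submodule k E) : Type _ := FS Λ ⧸ diag Λ

/-- dimension of `H⁰` -/
noncomputable def h0 (Λ : P → Submodule k E) : ℕ := finrank k (HZ Λ)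

/-- dimension of `H¹` -/
noncomputable def h1 (Λ : P → Submodule k E) : ℕ := finrank k (HO Λ)

/-- Euler characteristic -/
noncomputable def chi (Λ : P → Submodule k E) : ℤ := (h0 Λ : ℤ) - h1 Λ

/-- admissible with finite-dimensional cohomology -/
structure FinCoh (Λ : P → Submodule k E) : Prop where
  /-- admissible -/
  adm : Adm Λ
  /-- `H⁰` -/
  fin0 : FiniteDimensional k (HZ Λ)
  /-- `H¹` -/
  fin1 : FiniteDimensional k (HO Λ)

theorem finCoh_iff {Λ : P → Submodule k E} (h : Adm Λ) : FinCoh Λ ↔ Fred (adf Λ h) := by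
  constructor
  · intro H
    refine ⟨?_, ?_⟩
    · rw [ker_adf h]; exact H.fin0
    · rw [range_adf h]; exact H.fin1
  · intro H
    have e0 := H.ker
    have e1 := H.coker
    rw [ker_adf h] at e0
    rw [range_adf h] at e1
    exact ⟨h, e0, e1⟩

theorem kdim_adf {Λ : P → Submodule k E} (h : Adm Λ) : kdim (adf Λ h) = h0 Λ := by
  unfold kdim h0; rw [ker_adf h]

theorem cdim_adf {Λ : P → Submodule k E} (h : Adm Λ) : cdim (adf Λ h) = h1 Λ := by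
  unfold cdim h1 HO; rw [range_adf h]

theorem chi_eq {Λ : P → Submodule k E} (h : Adm Λ) : chi Λ = idx (adf Λ h) := by
  unfold chi idx; rw [kdim_adf h, cdim_adf h]

/-- CHANGE OF LATTICES -/
theorem chi_change {Λ Λ' : P → Submodule k E} (hle : ∀ p, Λ p ≤ Λ' p) (S : Finset P)
    (hS : ∀ p, p ∉ S → Λ' p ≤ Λ p)
    (hfin : ∀ p, FiniteDimensional k ((Λ' p).map (Λ p).mkQ)) (h : Adm Λ) :
    (FinCoh Λ ↔ FinCoh Λ') ∧
      (FinCoh Λ → chi Λ' = chi Λ + ∑ p ∈ S, (rdim (Λ p) (Λ' p) : ℤ)) := by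
  have h' := h.mono hle
  have := idx_change hle S hS hfin h h'
  rw [finCoh_iff h, finCoh_iff h', chi_eq h, chi_eq h']
  exact this

theorem adm_of_adm {Λ Λ' : P → Submodule k E} (S : Finset P) (hS : ∀ p, p ∉ S → Λ' p ≤ Λ p)
    (h : Adm Λ') : Adm Λ := by
  intro x
  refine ((h x).union S.finite_toSet).subset ?_
  intro p hp
  by_contra h1
  simp only [Set.mem_union, Set.mem_ofPred_eq, not_or, not_not] at h1
  exact hp (hS p h1.2 h1.1)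

variable {E₁ E₂ E₃ : Type*}
  [AddCommGroup E₁] [Module k E₁] [AddCommGroup E₂] [Module k E₂] [AddCommGroup E₃] [Module k E₃]
  {Λ₁ : P → Submodule k E₁} {Λ₂ : P → Submodule k E₂} {Λ₃ : P → Submodule k E₃}

theorem Adm.of_quot {q : E₂ →ₗ[k] E₃} (hq : Function.Surjective q)
    (h3 : ∀ p, (Λ₂ p).map q ≤ Λ₃ p) (h : Adm Λ₂) : Adm Λ₃ := by
  intro y
  obtain ⟨x, rfl⟩ := hq y
  exact (h x).subset fun p hp hx => hp (h3 p ⟨x, hx, rfl⟩)

theorem Adm.of_sub {i : E₁ →ₗ[k] E₂} (h1 : ∀ p, (Λ₂ p).comap i ≤ Λ₁ p) (h : Adm Λ₂) :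
    Adm Λ₁ := fun x => (h (i x)).subset fun p hp hx => hp (h1 p hx)

/-- ADDITIVITY of `χ` -/
theorem chi_ses {i : E₁ →ₗ[k] E₂} {q : E₂ →ₗ[k] E₃} (h : SES i q)
    (h1 : ∀ p, Λ₁ p = (Λ₂ p).comap i) (h3 : ∀ p, (Λ₂ p).map q = Λ₃ p)
    (a2 : Adm Λ₂) (F1 : FinCoh Λ₁) (F3 : FinCoh Λ₃) :
    FinCoh Λ₂ ∧ chi Λ₂ = chi Λ₁ + chi Λ₃ := by
  have a1 := F1.adm
  have a3 := F3.adm
  rw [finCoh_iff a1] at F1
  rw [finCoh_iff a3] at F3
  rw [finCoh_iff a2, chi_eq a1, chi_eq a2, chi_eq a3]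
  exact adf_ses h h1 h3 a1 a2 a3 F1 F3

/-- transport along an isomorphism -/
theorem coh_equiv (e : E₁ ≃ₗ[k] E₂) (he : ∀ p x, x ∈ Λ₁ p ↔ e x ∈ Λ₂ p) :
    (FinCoh Λ₁ ↔ FinCoh Λ₂) ∧ h0 Λ₁ = h0 Λ₂ ∧ h1 Λ₁ = h1 Λ₂ ∧ chi Λ₁ = chi Λ₂ := by
  have hadm : Adm Λ₁ ↔ Adm Λ₂ := by
    constructor
    · intro h y
      obtain ⟨x, rfl⟩ := e.surjective y
      exact (h x).subset fun p hp hx => hp ((he p x).1 hx)
    · intro h x
      exact (h (e x)).subset fun p hp hx => hp ((he p x).2 hx)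
  -- the isomorphism on `H⁰`
  have hZ : (HZ Λ₁).map (e : E₁ →ₗ[k] E₂) = HZ Λ₂ := by
    ext y
    constructor
    · rintro ⟨x, hx, rfl⟩
      have hx' := mem_HZ.1 hx
      exact mem_HZ.2 fun p => (he p x).1 (hx' p)
    · intro hy
      obtain ⟨x, rfl⟩ := e.surjective y
      exact ⟨x, mem_HZ.2 fun p => (he p x).2 (mem_HZ.1 hy p), rfl⟩
  let e0 : HZ Λ₁ ≃ₗ[k] HZ Λ₂ := (e.submoduleMap (HZ Λ₁)).trans (LinearEquiv.ofEq _ _ hZ)
  -- the isomorphism on `FS`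
  have hc1 : ∀ p, Λ₁ p ≤ (Λ₂ p).comap (e : E₁ →ₗ[k] E₂) := fun p x hx => (he p x).1 hx
  have hc2 : ∀ p, Λ₂ p ≤ (Λ₁ p).comap (e.symm : E₂ →ₗ[k] E₁) := fun p y hy => by
    show e.symm y ∈ Λ₁ p
    rw [he, LinearEquiv.apply_symm_apply]; exact hy
  let eF : FS Λ₁ ≃ₗ[k] FS Λ₂ := LinearEquiv.ofLinearMap
    (fsLift (e : E₁ →ₗ[k] E₂) hc1) (fsLift (e.symm : E₂ →ₗ[k] E₁) hc2)
    (by
      apply LinearMap.ext
      intro y
      apply Subtype.ext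
      funext p
      obtain ⟨x, hx⟩ := (Λ₂ p).mkQ_surjective (y.1 p)
      show (Λ₁ p).mapQ (Λ₂ p) _ (hc1 p) ((Λ₂ p).mapQ (Λ₁ p) _ (hc2 p) (y.1 p)) = y.1 p
      rw [← hx]
      show (Λ₂ p).mkQ (e (e.symm x)) = (Λ₂ p).mkQ x
      rw [LinearEquiv.apply_symm_apply])
    (by
      apply LinearMap.ext
      intro y
      apply Subtype.ext
      funext p
      obtain ⟨x, hx⟩ := (Λ₁ p).mkQ_surjective (y.1 p)
      show (Λ₂ p).mapQ (Λ₁ p) _ (hc2 p) ((Λ₁ p).mapQ (Λ₂ p) _ (hc1 p) (y.1 p)) = y.1 p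
      rw [← hx]
      show (Λ₁ p).mkQ (e.symm (e x)) = (Λ₁ p).mkQ x
      rw [LinearEquiv.symm_apply_apply])
  have hD : (diag Λ₁).map (eF : FS Λ₁ →ₗ[k] FS Λ₂) = diag Λ₂ := by
    ext y
    constructor
    · rintro ⟨z, ⟨x, hx⟩, rfl⟩
      refine ⟨e x, fun p => ?_⟩
      show (Λ₁ p).mapQ (Λ₂ p) _ (hc1 p) (z.1 p) = _
      rw [hx]; rfl
    · rintro ⟨x, hx⟩
      refine ⟨eF.symm y, ⟨e.symm x, fun p => ?_⟩, by simp⟩
      show (Λ₂ p).mapQ (Λ₁ p) _ (hc2 p) (y.1 p) = _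
      rw [hx]; rfl
  let e1 : HO Λ₁ ≃ₗ[k] HO Λ₂ := Submodule.Quotient.equiv _ _ eF hD
  have q0 : h0 Λ₁ = h0 Λ₂ := e0.finrank_eq
  have q1 : h1 Λ₁ = h1 Λ₂ := e1.finrank_eq
  refine ⟨⟨fun H => ⟨hadm.1 H.adm, ?_, ?_⟩, fun H => ⟨hadm.2 H.adm, ?_, ?_⟩⟩, q0, q1, ?_⟩
  · have := H.fin0; exact Module.Finite.equiv e0
  · have := H.fin1; exact Module.Finite.equiv e1
  · have := H.fin0; exact Module.Finite.equiv e0.symm
  · have := H.fin1; exact Module.Finite.equiv e1.symm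
  · unfold chi; rw [q0, q1]

end Chi

end Vale.Agent.P182.H430
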