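import Vale.Agent.P182.H430.Bun

/-!
# Comparison of two bundles on the same space
-/

namespace Vale.Agent.P182.H430

open LinearMap Submodule Module

/-- two surjections with the same kernel -/
noncomputable def equivOfKer {k X Y Z : Type*} [Field k] [AddCommGroup X] [Module k X]
    [AddCommGroup Y] [Module k Y] [AddCommGroup Z] [Module k Z] (f : X →ₗ[k] Y) (g : X →ₗ[k] Z)
    (hf : Function.Surjective f) (hg : Function.Surjective g)
    (h : LinearMap.ker f = LinearMap.ker g) : Y ≃ₗ[k] Z :=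
  ((f.quotKerEquivOfSurjective hf).symm.trans (Submodule.quotEquivOfEq _ _ h)).trans
    (g.quotKerEquivOfSurjective hg)

section Coord

variable {k F : Type*} [Field k] [Field F] [Algebra k F]
variable {E : Type*} [AddCommGroup E] [Module F E] [Module k E] [IsScalarTower k F E]
  {ι : Type*} [Fintype ι]

/-- vectors with prescribed coordinates -/
def coordSub (b : Basis ι F E) (A : ι → Submodule k F) : Submodule k E where
  carrier := {x | ∀ i, b.repr x i ∈ A i}
  zero_mem' := fun i => by rw [map_zero]; exact (A i).zero_mem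
  add_mem' := fun {x y} hx hy i => by
    rw [map_add]; exact (A i).add_mem (hx i) (hy i)
  smul_mem' := fun c x hx i => by
    rw [← algebraMap_smul F c x, map_smul, Finsupp.smul_apply, algebraMap_smul]
    exact (A i).smul_mem c (hx i)

omit [Fintype ι] in
theorem mem_coordSub {b : Basis ι F E} {A : ι → Submodule k F} {x : E} :
    x ∈ coordSub b A ↔ ∀ i, b.repr x i ∈ A i := Iff.rfl

theorem rdim_coordSub (b : Basis ι F E) {A B : ι → Submodule k F}
    (hfin : ∀ i, FinRel (A i) (B i)) :
    FinRel (coordSub b A) (coordSub b B) ∧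
      rdim (coordSub b A) (coordSub b B) = ∑ i, rdim (A i) (B i) := by
  have : ∀ i, FiniteDimensional k ((B i).map (A i).mkQ) := hfin
  let Λ := coordSub b A
  let Λ' := coordSub b B
  -- coordinates
  let co : ι → (E →ₗ[k] F) := fun i => (b.coord i).restrictScalars k
  have hco : ∀ i x, co i x = b.repr x i := fun i x => rfl
  let ψ : Λ' →ₗ[k] (∀ i, (B i).map (A i).mkQ) :=
    LinearMap.pi fun i => ((A i).mkQ ∘ₗ co i ∘ₗ Λ'.subtype).codRestrict ((B i).map (A i).mkQ)
      (fun x => ⟨b.repr x i, x.2 i, rfl⟩)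
  have hψs : Function.Surjective ψ := by
    intro y
    have h1 : ∀ i, ∃ c ∈ B i, (A i).mkQ c = (y i).1 := fun i => (y i).2
    choose c hc hcy using h1
    have hrep : ∀ i, b.repr (∑ j, c j • b j) i = c i := by
      classical
      intro i
      rw [Basis.repr_sum_self]
    refine ⟨⟨∑ j, c j • b j, fun i => by rw [hrep]; exact hc i⟩, ?_⟩
    funext i
    apply Subtype.ext
    show (A i).mkQ (b.repr (∑ j, c j • b j) i) = (y i).1
    rw [hrep, hcy]
  have hψk : LinearMap.ker ψ = Λ.comap Λ'.subtype := by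
    ext x
    rw [LinearMap.mem_ker]
    constructor
    · intro h i
      have h1 : (ψ x i).1 = 0 := by rw [h]; rfl
      exact (Submodule.Quotient.mk_eq_zero _).1 h1
    · intro h
      funext i
      apply Subtype.ext
      exact (Submodule.Quotient.mk_eq_zero _).2 (h i)
  let χ : Λ' →ₗ[k] (Λ'.map Λ.mkQ) := (Λ.mkQ ∘ₗ Λ'.subtype).codRestrict (Λ'.map Λ.mkQ)
    (fun x => ⟨x, x.2, rfl⟩)
  have hχs : Function.Surjective χ := by
    rintro ⟨_, x, hx, rfl⟩
    exact ⟨⟨x, hx⟩, rfl⟩
  have hχk : LinearMap.ker χ = Λ.comap Λ'.subtype := by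
    ext x
    rw [LinearMap.mem_ker]
    constructor
    · intro h
      have h1 : Λ.mkQ (x : E) = 0 := congrArg Subtype.val h
      exact (Submodule.Quotient.mk_eq_zero Λ).1 h1
    · intro h
      apply Subtype.ext
      exact (Submodule.Quotient.mk_eq_zero Λ).2 h
  have e : (Λ'.map Λ.mkQ) ≃ₗ[k] (∀ i, (B i).map (A i).mkQ) :=
    equivOfKer (Y := (Λ'.map Λ.mkQ)) (Z := ∀ i, (B i).map (A i).mkQ) χ ψ hχs hψs
      (hχk.trans hψk.symm)
  have hfr : ∀ i, Module.Free k ((B i).map (A i).mkQ) := fun i =>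
    Module.Free.of_divisionRing k _
  have h1 : finrank k (Λ'.map Λ.mkQ) = ∑ i, finrank k ((B i).map (A i).mkQ) :=
    e.finrank_eq.trans (Module.finrank_pi_fintype k)
  exact ⟨Module.Finite.equiv e.symm, h1⟩

end Coord

section FinRelLemmas

variable {k : Type*} [Field k] {E : Type*} [AddCommGroup E] [Module k E]

theorem FinRel.mono {A B B' : Submodule k E} (h : FinRel A B') (hB : B ≤ B') : FinRel A B := by
  unfold FinRel at *
  exact Submodule.finiteDimensional_of_le (Submodule.map_mono hB)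

theorem le_of_rdim_eq_zero {A B : Submodule k E} (h : FinRel A B) (h0 : rdim A B = 0) :
    B ≤ A := by
  unfold FinRel at h
  unfold rdim at h0
  have h1 : B.map A.mkQ = ⊥ := Submodule.finrank_eq_zero.1 h0
  intro x hx
  have h2 : A.mkQ x ∈ B.map A.mkQ := ⟨x, hx, rfl⟩
  rw [h1, Submodule.mem_bot] at h2
  exact (Submodule.Quotient.mk_eq_zero _).1 h2

end FinRelLemmas

section Chains

variable {k F : Type*} [Field k] [Field F] [Algebra k F]
variable {E : Type*} [AddCommGroup E] [Module F E] [Module k E] [IsScalarTower k F E]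
  {Q : Place k F} {p : ℕ}

theorem SplitBy.L_eq {L : LChain Q p E} {ι : Type*} [Fintype ι] {b : Basis ι F E} {w : ι → ℤ}
    (h : L.SplitBy b w) (a : ℤ) : L.L a = coordSub b (fun i => Q.M p (a - w i)) := by
  ext x
  rw [h a x, mem_coordSub]

/-- lengths of the members of a chain -/
theorem rdim_chain {L : LChain Q p E} {ι : Type*} [Fintype ι] {b : Basis ι F E} {w : ι → ℤ}
    (h : L.SplitBy b w) {a a' : ℤ} (haa : a' ≤ a) :
    FinRel (L.L a) (L.L a') ∧ (rdim (L.L a) (L.L a') : ℤ) =
      ∑ i, ((w i - a') / p - (w i - a) / p) := by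
  have h1 : ∀ i, FinRel (Q.M p (a - w i)) (Q.M p (a' - w i)) ∧
      (rdim (Q.M p (a - w i)) (Q.M p (a' - w i)) : ℤ) = (w i - a') / p - (w i - a) / p := by
    intro i
    have := rdim_M Q L.pos (n := w i - a) (n' := w i - a') (by linarith)
    rwa [neg_sub, neg_sub] at this
  have h2 := rdim_coordSub b (A := fun i => Q.M p (a - w i)) (B := fun i => Q.M p (a' - w i))
    (fun i => (h1 i).1)
  rw [SplitBy.L_eq h, SplitBy.L_eq h]
  refine ⟨h2.1, ?_⟩
  rw [h2.2]
  push_cast
  exact Finset.sum_congr rfl fun i _ => (h1 i).2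

variable [FiniteDimensional F E]

theorem finRel_chain (L : LChain Q p E) {a a' : ℤ} (haa : a' ≤ a) : FinRel (L.L a) (L.L a') := by
  obtain ⟨b, w, h⟩ := L.exists_split
  exact (rdim_chain h haa).1

/-- two chains are commensurable -/
theorem exists_le_chain (L L' : LChain Q p E) (a : ℤ) : ∃ m : ℤ, L'.L a ≤ L.L m := by
  obtain ⟨b, w, h⟩ := L'.exists_split
  have h1 : ∀ i, ∃ v, b i ∈ L.L v := fun i => L.exhaust _
  choose v hv using h1
  rcases isEmpty_or_nonempty (Fin (finrank F E)) with he | hne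
  · refine ⟨0, fun x _ => ?_⟩
    have : x = 0 := b.ext_elem fun i => (he.false i).elim
    rw [this]
    exact Submodule.zero_mem _
  obtain ⟨i0, hi0⟩ := Finite.exists_min (fun i => v i + (a - w i))
  refine ⟨v i0 + (a - w i0), fun x hx => ?_⟩
  rw [← b.sum_repr x]
  refine Submodule.sum_mem _ fun i _ => ?_
  exact L.smul_mem' ((h a x).1 hx i) (hv i) (hi0 i)

theorem finRel_chains (L L' : LChain Q p E) (a a' : ℤ) : FinRel (L.L a) (L'.L a') := by
  obtain ⟨m, hm⟩ := exists_le_chain L L' a'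
  have h1 : L'.L a' ≤ L.L (min m a) := hm.trans (L.anti _ _ (min_le_left _ _))
  exact (finRel_chain L (min_le_right m a)).mono h1

end Chains

namespace Bun

variable {k F P : Type*} [Field k] [Field F] [Algebra k F] {C : Curve k F P}
  {E : Type*} [AddCommGroup E] [Module F E] [Module k E] [IsScalarTower k F E]

omit [IsScalarTower k F E] in
/-- two bundles on the same space agree almost everywhere -/
theorem ae_eq (B B' : Bun C E) : ∀ᶠ p in Filter.cofinite, ∀ a, (B.ch p).L a = (B'.ch p).L a := by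
  have := B.finiteDimensional
  filter_upwards [B.std_all (finBasis F E), B'.std_all (finBasis F E)] with p h1 h2 a
  ext x
  rw [h1 a x, h2 a x]

theorem chi_le_aux (B B' : Bun C E) (h : ∀ p, B.lat p ≤ B'.lat p) :
    ∃ S : Finset P, (∀ p, p ∉ S → B.lat p = B'.lat p) ∧
      chi B'.lat = chi B.lat + ∑ p ∈ S, (rdim (B.lat p) (B'.lat p) : ℤ) := by
  classical
  have := B.finiteDimensional
  have h1 := B.ae_eq B'
  rw [Filter.eventually_cofinite] at h1
  refine ⟨h1.toFinset, ?_, ?_⟩
  · intro p hp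
    rw [Set.Finite.mem_toFinset] at hp
    simp only [Set.mem_ofPred_eq, not_not] at hp
    exact hp 0
  · refine (chi_change h h1.toFinset ?_ ?_ B.adm).2 B.finCoh
    · intro p hp
      rw [Set.Finite.mem_toFinset] at hp
      simp only [Set.mem_ofPred_eq, not_not] at hp
      exact (hp 0).ge
    · intro p
      exact finRel_chains (B.ch p) (B'.ch p) 0 0

/-- MONOTONICITY of `χ` -/
theorem chi_le (B B' : Bun C E) (h : ∀ p, B.lat p ≤ B'.lat p) : chi B.lat ≤ chi B'.lat := by
  obtain ⟨S, -, h2⟩ := chi_le_aux B B' h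
  rw [h2]
  have : 0 ≤ ∑ p ∈ S, (rdim (B.lat p) (B'.lat p) : ℤ) :=
    Finset.sum_nonneg fun p _ => Int.natCast_nonneg _
  linarith

/-- strict monotonicity of `χ` -/
theorem eq_of_chi_eq (B B' : Bun C E) (h : ∀ p, B.lat p ≤ B'.lat p)
    (h0 : chi B'.lat ≤ chi B.lat) (p : P) : B.lat p = B'.lat p := by
  have := B.finiteDimensional
  obtain ⟨S, h1, h2⟩ := chi_le_aux B B' h
  by_cases hp : p ∈ S
  · have h3 : ∑ p ∈ S, (rdim (B.lat p) (B'.lat p) : ℤ) ≤ 0 := by linarith
    have h4 : (rdim (B.lat p) (B'.lat p) : ℤ) ≤ ∑ p ∈ S, (rdim (B.lat p) (B'.lat p) : ℤ) :=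
      Finset.single_le_sum (f := fun p => (rdim (B.lat p) (B'.lat p) : ℤ))
        (fun p _ => Int.natCast_nonneg _) hp
    have h5 : rdim (B.lat p) (B'.lat p) = 0 := by omega
    exact le_antisymm (h p) (le_of_rdim_eq_zero (finRel_chains (B.ch p) (B'.ch p) 0 0) h5)
  · exact h1 p hp

end Bun

end Vale.Agent.P182.H430
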