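import Vale.Agent.P182.H430.RatCurve
import Vale.Agent.P182.H163.FracDer

/-!
# Derivations of the function field of the projective line
-/

namespace Vale.Agent.P182.H430

open Polynomial

variable {k₀ k : Type*} [CommRing k₀] [Field k] [Algebra k₀ k]

/-- the coefficientwise derivation -/
noncomputable def polyDer (d : Derivation k₀ k k) : Derivation k₀ k[X] k[X] :=
  (PolynomialModule.equivPolynomialSelf (R := k) : PolynomialModule k k →ₗ[k[X]] k[X]).compDer
    d.mapCoeffs

theorem polyDer_coeff (d : Derivation k₀ k k) (p : k[X]) (n : ℕ) :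
    (polyDer d p).coeff n = d (p.coeff n) := by
  induction p using Polynomial.induction_on' with
  | add p q hp hq => rw [map_add, coeff_add, coeff_add, map_add, hp, hq]
  | monomial m a =>
    have : polyDer d (monomial m a) = monomial m (d a) := by
      simp [polyDer]
    rw [this, coeff_monomial, coeff_monomial]
    split_ifs <;> simp

theorem polyDer_C (d : Derivation k₀ k k) (c : k) : polyDer d (C c) = C (d c) := by
  ext n
  rw [polyDer_coeff, coeff_C, coeff_C]
  split_ifs <;> simp

theorem polyDer_X (d : Derivation k₀ k k) : polyDer d (X : k[X]) = 0 := by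
  ext n
  rw [polyDer_coeff, coeff_X]
  split_ifs <;> simp

theorem natDegree_polyDer_le (d : Derivation k₀ k k) (p : k[X]) :
    (polyDer d p).natDegree ≤ p.natDegree := by
  rw [natDegree_le_iff_coeff_eq_zero]
  intro n hn
  rw [polyDer_coeff, coeff_eq_zero_of_natDegree_lt hn, map_zero]

variable {F : Type*} [Field F] [Algebra k[X] F] [IsFractionRing k[X] F]
  [Algebra k F] [IsScalarTower k k[X] F] [Algebra k₀ F]
  [IsScalarTower k₀ k[X] F]

/-- representation of a function regular at `a` with denominator non-vanishing at `a` -/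
theorem exists_frac_at (a : k) {f : F} (hf : f ≠ 0) (h0 : 0 ≤ (linePl k F (some a)).ord f) :
    ∃ n d : k[X], d.eval a ≠ 0 ∧ f * algebraMap k[X] F d = algebraMap k[X] F n := by
  obtain ⟨n, d, hd, h⟩ := exists_frac (k := k) f
  have hn := num_ne hf hd h
  rw [linePl_ord_some a hf hd h] at h0
  have h' : rootMultiplicity a d ≤ rootMultiplicity a n := by omega
  set m := rootMultiplicity a d with hm
  obtain ⟨n', hn'⟩ := (pow_dvd_pow (X - C a) h').trans (pow_rootMultiplicity_dvd n a)
  obtain ⟨d', hd'⟩ := pow_rootMultiplicity_dvd d a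
  rw [← hm] at hd'
  have hda : d'.eval a ≠ 0 := by
    intro h0
    obtain ⟨e, he⟩ := dvd_iff_isRoot.2 h0
    have h1 : (X - C a) ^ (m + 1) ∣ d := by
      rw [hd', he, pow_succ]
      exact ⟨e, by ring⟩
    have h2 := (le_rootMultiplicity_iff hd).2 h1
    omega
  refine ⟨n', d', hda, ?_⟩
  have h1 : algebraMap k[X] F ((X - C a) ^ m) ≠ 0 := amap_ne (pow_ne_zero _ (X_sub_C_ne_zero a))
  apply mul_left_cancel₀ h1
  have h2 : algebraMap k[X] F n = algebraMap k[X] F ((X - C a) ^ m) * algebraMap k[X] F n' := by
    rw [← map_mul, ← hn']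
  have h3 : algebraMap k[X] F d = algebraMap k[X] F ((X - C a) ^ m) * algebraMap k[X] F d' := by
    rw [← map_mul, ← hd']
  rw [← h2, ← h, h3]
  ring

/-- EXTENSION OF DERIVATIONS to the function field of the projective line: regularity is preserved
at all places, the filtration is preserved at the constant places and at infinity -/
theorem exists_der_line (d : Derivation k₀ k k) :
    ∃ D : Derivation k₀ F F, (∀ c : k, D (algebraMap k F c) = algebraMap k F (d c)) ∧
      D (algebraMap k[X] F X) = 0 ∧
      (∀ p f, f ∈ (linePl k F p).M 1 0 → D f ∈ (linePl k F p).M 1 0) ∧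
      (∀ p, (p = none ∨ ∃ a, p = some a ∧ d a = 0) → ∀ (w : ℕ) (c : ℤ) (f : F),
        f ∈ (linePl k F p).M w c → D f ∈ (linePl k F p).M w c) := by
  let D0 : Derivation k₀ k[X] F :=
    (Algebra.linearMap k[X] F).compDer (polyDer d)
  obtain ⟨D, hD⟩ := exists_derivation_extend (L := F) D0
  have hD' : ∀ p : k[X], D (algebraMap k[X] F p) = algebraMap k[X] F (polyDer d p) :=
    fun p => hD p
  have hC : ∀ c : k, D (algebraMap k F c) = algebraMap k F (d c) := by
    intro c
    rw [IsScalarTower.algebraMap_apply k k[X] F, IsScalarTower.algebraMap_apply k k[X] F]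
    have := hD' (C c)
    rw [polyDer_C] at this
    exact this
  have hX : D (algebraMap k[X] F X) = 0 := by
    rw [hD', polyDer_X, map_zero]
  -- the quotient rule
  have hq : ∀ (f : F) (n e : k[X]), f * algebraMap k[X] F e = algebraMap k[X] F n →
      D f * algebraMap k[X] F (e ^ 2) = algebraMap k[X] F (polyDer d n * e - n * polyDer d e) := by
    intro f n e h
    have h1 := congrArg D h
    rw [D.leibniz, hD', hD', smul_eq_mul, smul_eq_mul] at h1
    rw [map_sub, map_mul, map_mul, map_pow, ← h, ← h1]
    ring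
  have hreg : ∀ p f, f ∈ (linePl k F p).M 1 0 → D f ∈ (linePl k F p).M 1 0 := by
    intro p f hf
    by_cases hf0 : f = 0
    · left; rw [hf0, map_zero]
    by_cases hD0 : D f = 0
    · exact Or.inl hD0
    have h0 := ((linePl k F p).mem_M_of_ne hf0).1 hf
    push_cast at h0
    rw [one_mul] at h0
    rw [(linePl k F p).mem_M_of_ne hD0]
    push_cast
    rw [one_mul]
    match p with
    | some a =>
      obtain ⟨n, e, he, h⟩ := exists_frac_at a hf0 h0
      have he0 : e ≠ 0 := by
        rintro rfl
        simp at he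
      rw [linePl_ord_some a hD0 (pow_ne_zero 2 he0) (hq f n e h)]
      have h1 : (e ^ 2).rootMultiplicity a = 0 := by
        apply rootMultiplicity_eq_zero
        rw [IsRoot, eval_pow]
        exact pow_ne_zero 2 he
      rw [h1]
      simp
    | none =>
      obtain ⟨n, e, he0, h⟩ := exists_frac (k := k) f
      rw [linePl_ord_none hf0 he0 h] at h0
      rw [linePl_ord_none hD0 (pow_ne_zero 2 he0) (hq f n e h), natDegree_pow]
      have h1 : (polyDer d n * e - n * polyDer d e).natDegree ≤ n.natDegree + e.natDegree := by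
        refine (natDegree_sub_le _ _).trans (max_le ?_ ?_)
        · exact natDegree_mul_le.trans (Nat.add_le_add_right (natDegree_polyDer_le d n) _)
        · exact natDegree_mul_le.trans (Nat.add_le_add_left (natDegree_polyDer_le d e) _)
      push_cast
      omega
  refine ⟨D, hC, hX, hreg, ?_⟩
  intro p hp w c f hf
  by_cases hf0 : f = 0
  · left; rw [hf0, map_zero]
  set Q := linePl k F p with hQ
  set u := Q.unif with hu
  have hu0 : u ≠ 0 := Q.unif_ne
  -- the uniformizer is constant
  have hDu : D u = 0 := by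
    rcases hp with rfl | ⟨a, rfl, ha⟩
    · have h1 : u = (algebraMap k[X] F X)⁻¹ := rfl
      have h2 : D (u * algebraMap k[X] F X) = 0 := by
        rw [h1, inv_mul_cancel₀ (amap_ne X_ne_zero), D.map_one_eq_zero]
      rw [D.leibniz, hX, smul_zero, zero_add, smul_eq_mul] at h2
      rcases mul_eq_zero.1 h2 with h3 | h3
      · exact absurd h3 (amap_ne X_ne_zero)
      · exact h3
    · have h1 : u = algebraMap k[X] F (X - C a) := rfl
      rw [h1, hD', map_sub, polyDer_X, polyDer_C, ha]
      simp
  have hDz : ∀ m : ℕ, D (u ^ m) = 0 := by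
    intro m
    rw [D.leibniz_pow, hDu, smul_zero, smul_zero]
  have hDzz : ∀ m : ℤ, D (u ^ m) = 0 := by
    intro m
    obtain ⟨n, rfl | rfl⟩ := m.eq_nat_or_neg
    · rw [zpow_natCast]; exact hDz n
    · have h2 : D (u ^ (-(n : ℤ)) * u ^ n) = 0 := by
        rw [zpow_neg, zpow_natCast, inv_mul_cancel₀ (pow_ne_zero n hu0), D.map_one_eq_zero]
      rw [D.leibniz, hDz, smul_zero, zero_add, smul_eq_mul] at h2
      rcases mul_eq_zero.1 h2 with h3 | h3
      · exact absurd h3 (pow_ne_zero n hu0)
      · exact h3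
  set m := Q.ord f with hm
  set g := u ^ (-m) * f with hg
  have hfg : f = u ^ m * g := by
    rw [hg, ← mul_assoc, ← zpow_add₀ hu0]
    simp
  have hg0 : g ≠ 0 := mul_ne_zero (zpow_ne_zero _ hu0) hf0
  have hgo : Q.ord g = 0 := by
    rw [hg, Q.ord_mul _ _ (zpow_ne_zero _ hu0) hf0, Q.ord_zpow]
    ring
  have hDg : D g ∈ Q.M 1 0 := hreg p g (Or.inr (by rw [← hQ, hgo]; simp))
  have hDf : D f = u ^ m * D g := by
    conv_lhs => rw [hfg]
    rw [D.leibniz, hDzz, smul_zero, add_zero, smul_eq_mul]
  by_cases hDf0 : D f = 0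
  · exact Or.inl hDf0
  have hDg0 : D g ≠ 0 := by
    intro h
    rw [h, mul_zero] at hDf
    exact hDf0 hDf
  right
  rw [hDf, Q.ord_mul _ _ (zpow_ne_zero _ hu0) hDg0, Q.ord_zpow]
  have h1 := (Q.mem_M_of_ne hf0).1 hf
  have h2 := (Q.mem_M_of_ne hDg0).1 hDg
  push_cast at h2
  rw [one_mul] at h2
  have h3 : (0 : ℤ) ≤ w := Int.natCast_nonneg w
  rw [← hm] at h1
  nlinarith

end Vale.Agent.P182.H430
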