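import Vale.Agent.P182.H430.Pair2

/-!
# Chains and bundles given by weighted generators
-/

namespace Vale.Agent.P182.H430

open LinearMap Submodule Module

section Local

variable {k F : Type*} [Field k] [Field F] [Algebra k F] {Q : Place k F} {p : ℕ}
variable {E : Type*} [AddCommGroup E] [Module F E] [Module k E] [IsScalarTower k F E]
variable {ι : Type*} [Fintype ι]

/-- the chain generated by weighted vectors -/
def genChain (Q : Place k F) {p : ℕ} (hp : 0 < p) (x : ι → E) (w : ι → ℤ)
    (hx : ∀ y : E, ∃ c : ι → F, y = ∑ i, c i • x i) : LChain Q p E where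
  L a :=
    { carrier := {y | ∃ c : ι → F, (∀ i, c i ∈ Q.M p (a - w i)) ∧ y = ∑ i, c i • x i}
      zero_mem' := ⟨0, fun i => Submodule.zero_mem _, by simp⟩
      add_mem' := by
        rintro _ _ ⟨c, hc, rfl⟩ ⟨d, hd, rfl⟩
        refine ⟨c + d, fun i => Submodule.add_mem _ (hc i) (hd i), ?_⟩
        rw [← Finset.sum_add_distrib]
        exact Finset.sum_congr rfl fun i _ => by rw [Pi.add_apply, add_smul]
      smul_mem' := by
        rintro r _ ⟨c, hc, rfl⟩
        refine ⟨r • c, fun i => Submodule.smul_mem _ r (hc i), ?_⟩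
        rw [Finset.smul_sum]
        exact Finset.sum_congr rfl fun i _ => by rw [Pi.smul_apply, smul_assoc] }
  pos := hp
  anti a b h := by
    rintro _ ⟨c, hc, rfl⟩
    exact ⟨c, fun i => Q.M_anti (by linarith) (hc i), rfl⟩
  smul_iff f hf a y := by
    constructor
    · rintro ⟨c, hc, h⟩
      refine ⟨fun i => f⁻¹ * c i, fun i => ?_, ?_⟩
      · rw [Q.smul_mem_iff (inv_ne_zero hf), Q.ord_inv hf]
        exact Q.M_anti (by linarith) (hc i)
      · have : y = f⁻¹ • (f • y) := by rw [smul_smul, inv_mul_cancel₀ hf, one_smul]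
        rw [this, h, Finset.smul_sum]
        exact Finset.sum_congr rfl fun i _ => by rw [smul_smul]
    · rintro ⟨c, hc, rfl⟩
      refine ⟨fun i => f * c i, fun i => ?_, ?_⟩
      · rw [Q.smul_mem_iff hf]
        exact Q.M_anti (by linarith) (hc i)
      · rw [Finset.smul_sum]
        exact Finset.sum_congr rfl fun i _ => by rw [smul_smul]
  exhaust y := by
    obtain ⟨c, rfl⟩ := hx y
    obtain ⟨a, ha⟩ := exists_le_of_finite (fun i => p * Q.ord (c i) + w i)
    refine ⟨a, c, fun i => ?_, rfl⟩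
    exact Q.M_anti (by linarith [ha i]) (Q.mem_M_ord (c i))
  bdd φ := by
    obtain ⟨C, hC⟩ := exists_le_of_finite (fun i => p * Q.ord (φ (x i)) - w i)
    refine ⟨C, ?_⟩
    rintro a _ ⟨c, hc, rfl⟩
    rw [map_sum]
    refine Submodule.sum_mem _ fun i _ => ?_
    rw [map_smul, smul_eq_mul]
    exact Q.M_anti (by linarith [hC i]) (Q.mul_mem_M (hc i) (Q.mem_M_ord (φ (x i))))

variable {hp : 0 < p} {x : ι → E} {w : ι → ℤ} {hx : ∀ y : E, ∃ c : ι → F, y = ∑ i, c i • x i}

theorem mem_genChain {a : ℤ} {y : E} : y ∈ (genChain Q hp x w hx).L a ↔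
    ∃ c : ι → F, (∀ i, c i ∈ Q.M p (a - w i)) ∧ y = ∑ i, c i • x i := Iff.rfl

theorem gen_mem (i : ι) : x i ∈ (genChain Q hp x w hx).L (w i) := by
  classical
  refine ⟨fun j => if j = i then 1 else 0, fun j => ?_, ?_⟩
  · by_cases h : j = i
    · subst h
      simp [Q.one_mem_M]
    · simp [h]
  · rw [Finset.sum_eq_single i]
    · simp
    · intro j _ hj
      simp [hj]
    · intro h; exact absurd (Finset.mem_univ _) h

/-- a linear condition can be checked on the generators -/
theorem gen_maps {E₂ : Type*} [AddCommGroup E₂] [Module F E₂] [Module k E₂]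
    (C₂ : LChain Q p E₂) {c : ℤ} {φ : E →ₗ[F] E₂} :
    (∀ a, ∀ y ∈ (genChain Q hp x w hx).L a, φ y ∈ C₂.L (a + c)) ↔
      ∀ i, φ (x i) ∈ C₂.L (w i + c) := by
  constructor
  · intro h i
    exact h _ _ (gen_mem i)
  · rintro h a _ ⟨d, hd, rfl⟩
    rw [map_sum]
    refine Submodule.sum_mem _ fun i _ => ?_
    rw [map_smul]
    exact C₂.smul_mem' (hd i) (h i) (by linarith)

/-- the dual of a generated chain -/
theorem gen_dual [FiniteDimensional F E] {c : ℤ} {ξ : Dual F E} :
    ξ ∈ (genChain Q hp x w hx).dual.L c ↔ ∀ i, ξ (x i) ∈ Q.M p (w i + c) :=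
  gen_maps (LChain.unit Q hp)

/-- membership in a generated chain, by duality -/
theorem mem_gen_iff_dual [FiniteDimensional F E] {a : ℤ} {y : E} :
    y ∈ (genChain Q hp x w hx).L a ↔ ∀ c (ξ : Dual F E), (∀ i, ξ (x i) ∈ Q.M p (w i + c)) →
      ξ y ∈ Q.M p (a + c) := by
  rw [LChain.mem_iff_dual]
  refine forall_congr' fun c => forall_congr' fun ξ => ?_
  rw [gen_dual]

/-- bilinear conditions can be checked on the generators -/
theorem gen_bil {ι₂ : Type*} [Fintype ι₂] {E₂ : Type*} [AddCommGroup E₂] [Module F E₂]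
    [Module k E₂] [IsScalarTower k F E₂] {hp₂ : 0 < p} {x₂ : ι₂ → E₂} {w₂ : ι₂ → ℤ}
    {hx₂ : ∀ y : E₂, ∃ c : ι₂ → F, y = ∑ i, c i • x₂ i} {β : E →ₗ[F] E₂ →ₗ[F] F} {d : ℤ} :
    (∀ a, ∀ y ∈ (genChain Q hp x w hx).L a, ∀ c, ∀ z ∈ (genChain Q hp₂ x₂ w₂ hx₂).L c,
      β y z ∈ Q.M p (a + c + d)) ↔ ∀ i j, β (x i) (x₂ j) ∈ Q.M p (w i + w₂ j + d) := by
  constructor
  · intro h i j
    exact h _ _ (gen_mem i) _ _ (gen_mem j)
  · rintro h a _ ⟨r, hr, rfl⟩ c _ ⟨t, ht, rfl⟩
    rw [map_sum]
    refine Submodule.sum_mem _ fun j _ => ?_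
    rw [map_sum, LinearMap.sum_apply]
    refine Submodule.sum_mem _ fun i _ => ?_
    rw [map_smul, map_smul, LinearMap.smul_apply, smul_eq_mul, smul_eq_mul]
    have h1 := Q.mul_mem_M (ht j) (Q.mul_mem_M (hr i) (h i j))
    exact Q.M_anti (by linarith) h1

end Local

section Global

variable {k F P : Type*} [Field k] [Field F] [Algebra k F]
variable {E : Type*} [AddCommGroup E] [Module F E] [Module k E] [IsScalarTower k F E]
variable {ι κ : Type*} [Fintype ι] [Fintype κ]

/-- A bundle given by generators: constant combinations of a basis `b`, with the basis among the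
generators, and all weights zero almost everywhere. -/
noncomputable def genBun (C : Curve k F P) (x : ι → E) (w : P → ι → ℤ)
    (hw : ∀ᶠ p in Filter.cofinite, ∀ i, w p i = 0) {n : ℕ} (b : Basis (Fin n) F E)
    (hb : ∀ j, ∃ i, x i = b j) : Bun C E where
  ch p := genChain (C.pl p) (C.per_pos p) x (w p) (by
    classical
    intro y
    choose i hi using hb
    refine ⟨fun l => ∑ j, if i j = l then b.repr y j else 0, ?_⟩
    conv_lhs => rw [← b.sum_repr y]
    have h1 : ∀ l, (∑ j, if i j = l then b.repr y j else 0) • x l =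
        ∑ j, if i j = l then b.repr y j • x l else 0 := by
      intro l
      rw [Finset.sum_smul]
      refine Finset.sum_congr rfl fun j _ => ?_
      split_ifs <;> simp
    simp only [h1]
    rw [Finset.sum_comm]
    refine Finset.sum_congr rfl fun j _ => ?_
    rw [Finset.sum_eq_single (i j)]
    · simp [hi]
    · intro l _ hl
      rw [if_neg (Ne.symm hl)]
    · intro h; exact absurd (Finset.mem_univ _) h)
  std := by
    classical
    refine ⟨n, b, ?_⟩
    have h1 : ∀ᶠ p in Filter.cofinite, ∀ i j, b.repr (x i) j ∈ (C.pl p).M 1 0 := by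
      rw [Filter.eventually_all]
      intro i
      rw [Filter.eventually_all]
      intro j
      exact C.mem_M_ae _
    filter_upwards [hw, h1] with p h2 h3
    rw [Bun.splitBy_zero_iff]
    intro a y
    constructor
    · rintro ⟨c, hc, rfl⟩ j
      rw [map_sum, Finsupp.finsetSum_apply]
      refine Submodule.sum_mem _ fun i _ => ?_
      rw [map_smul, Finsupp.smul_apply, smul_eq_mul]
      have h4 := h3 i j
      rw [← M_zero_eq _ (C.per_pos p)] at h4
      have h5 := (C.pl p).mul_mem_M (hc i) h4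
      rwa [h2 i, sub_zero, add_zero] at h5
    · intro hy
      rw [← b.sum_repr y]
      refine Submodule.sum_mem _ fun j _ => ?_
      obtain ⟨i, hi⟩ := hb j
      rw [← hi]
      refine LChain.smul_mem' _ (hy j) (gen_mem i) ?_
      rw [h2 i]
      linarith

end Global

end Vale.Agent.P182.H430
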