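import Mathlib

/-!
# Fredholm index of linear maps

`Fred f` : kernel and cokernel of `f` are finite-dimensional; `idx f = dim ker f - dim coker f`.
Composition, products with identities, additivity in short exact sequences of maps.
-/

namespace Vale.Agent.P182.H430

open LinearMap Submodule Module

universe u

section Fredholm

variable {k : Type*} [Field k]
variable {A B C : Type*} [AddCommGroup A] [Module k A] [AddCommGroup B] [Module k B]
  [AddCommGroup C] [Module k C]

/-- A linear map with finite-dimensional kernel and cokernel. -/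
structure Fred (f : A →ₗ[k] B) : Prop where
  /-- finite-dimensional kernel -/
  ker : FiniteDimensional k (LinearMap.ker f)
  /-- finite-dimensional cokernel -/
  coker : FiniteDimensional k (B ⧸ LinearMap.range f)

/-- dimension of the kernel -/
noncomputable def kdim (f : A →ₗ[k] B) : ℕ := finrank k (LinearMap.ker f)

/-- dimension of the cokernel -/
noncomputable def cdim (f : A →ₗ[k] B) : ℕ := finrank k (B ⧸ LinearMap.range f)

/-- the index -/
noncomputable def idx (f : A →ₗ[k] B) : ℤ := (kdim f : ℤ) - cdim f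

theorem fred_equiv (e : A ≃ₗ[k] B) : Fred (e : A →ₗ[k] B) := by
  refine ⟨?_, ?_⟩
  · rw [LinearEquiv.ker]; infer_instance
  · rw [LinearEquiv.range]; infer_instance

theorem kdim_equiv (e : A ≃ₗ[k] B) : kdim (e : A →ₗ[k] B) = 0 := by
  unfold kdim; rw [LinearEquiv.ker]; exact finrank_bot k A

theorem cdim_equiv (e : A ≃ₗ[k] B) : cdim (e : A →ₗ[k] B) = 0 := by
  unfold cdim
  rw [LinearEquiv.range]
  exact finrank_zero_of_subsingleton

theorem idx_equiv (e : A ≃ₗ[k] B) : idx (e : A →ₗ[k] B) = 0 := by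
  unfold idx; rw [kdim_equiv, cdim_equiv]; simp

/-- the kernel of a composition, as an extension -/
theorem ker_comp_exact (f : A →ₗ[k] B) (g : B →ₗ[k] C) (hf : FiniteDimensional k (ker f))
    (hg : FiniteDimensional k (ker g)) :
    FiniteDimensional k (ker (g ∘ₗ f)) ∧
      finrank k (ker (g ∘ₗ f)) = finrank k (ker f) +
        finrank k ((range f ⊓ ker g : Submodule k B)) := by
  have hle : ker f ≤ ker (g ∘ₗ f) := LinearMap.ker_le_ker_comp f g
  -- restriction of `f` to `ker (g ∘ f)`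
  let φ : ker (g ∘ₗ f) →ₗ[k] B := f.domRestrict (ker (g ∘ₗ f))
  have hφr : range φ = range f ⊓ ker g := by
    ext b
    constructor
    · rintro ⟨⟨a, ha⟩, rfl⟩
      exact ⟨⟨a, rfl⟩, ha⟩
    · rintro ⟨⟨a, rfl⟩, h⟩
      exact ⟨⟨a, h⟩, rfl⟩
  have hφk : ker φ = (ker f).comap (ker (g ∘ₗ f)).subtype := by
    ext ⟨a, ha⟩
    simp [φ]
  let e : (ker φ) ≃ₗ[k] ker f :=
    (LinearEquiv.ofEq _ _ hφk).trans (Submodule.comapSubtypeEquivOfLe hle)
  have hfk : FiniteDimensional k (ker φ) := Module.Finite.equiv e.symm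
  have hfr : FiniteDimensional k (range φ) := by
    rw [hφr]
    exact Submodule.finiteDimensional_of_le inf_le_right
  have hfin : FiniteDimensional k (ker (g ∘ₗ f)) := by
    have h1 : (⊤ : Submodule k (ker (g ∘ₗ f))).FG := by
      refine Submodule.fg_of_fg_map_of_fg_inf_ker φ ?_ ?_
      · rw [Submodule.map_top]
        exact (Submodule.fg_iff_finiteDimensional _).2 hfr
      · rw [top_inf_eq]
        exact (Submodule.fg_iff_finiteDimensional _).2 hfk
    exact ⟨h1⟩
  refine ⟨hfin, ?_⟩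
  have h2 := LinearMap.finrank_range_add_finrank_ker φ
  rw [e.finrank_eq, hφr] at h2
  omega

/-- the cokernel of a composition, as an extension -/
theorem coker_comp_exact (f : A →ₗ[k] B) (g : B →ₗ[k] C)
    (hf : FiniteDimensional k (B ⧸ range f)) (hg : FiniteDimensional k (C ⧸ range g)) :
    FiniteDimensional k (C ⧸ range (g ∘ₗ f)) ∧
      finrank k (C ⧸ range (g ∘ₗ f)) = finrank k (C ⧸ range g) +
        finrank k (B ⧸ (range f ⊔ ker g)) := by
  have hle : range (g ∘ₗ f) ≤ range g := LinearMap.range_comp_le_range f g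
  -- the projection onto the cokernel of `g`
  let π : (C ⧸ range (g ∘ₗ f)) →ₗ[k] (C ⧸ range g) := Submodule.factor hle
  have hπ : Function.Surjective π := Submodule.factor_surjective hle
  -- the map `B → C / range (g ∘ f)`
  let ψ : B →ₗ[k] (C ⧸ range (g ∘ₗ f)) := (range (g ∘ₗ f)).mkQ ∘ₗ g
  have hψr : range ψ = ker π := by
    ext x
    obtain ⟨c, rfl⟩ := (range (g ∘ₗ f)).mkQ_surjective x
    constructor
    · rintro ⟨b, hb⟩
      have h3 : g b - c ∈ range (g ∘ₗ f) := (Submodule.Quotient.eq _).1 hb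
      have h4 : g b - (g b - c) ∈ range g := sub_mem ⟨b, rfl⟩ (hle h3)
      rw [sub_sub_cancel] at h4
      exact (Submodule.Quotient.mk_eq_zero _).2 h4
    · intro h
      have h' : (Submodule.Quotient.mk c : C ⧸ range g) = 0 := h
      obtain ⟨b, hb⟩ := (Submodule.Quotient.mk_eq_zero _).1 h'
      exact ⟨b, by rw [← hb]; rfl⟩
  have hψk : ker ψ = range f ⊔ ker g := by
    ext b
    simp only [ψ, LinearMap.mem_ker, LinearMap.comp_apply, Submodule.mkQ_apply,
      Submodule.Quotient.mk_eq_zero, LinearMap.mem_range, Submodule.mem_sup]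
    constructor
    · rintro ⟨a, ha⟩
      exact ⟨f a, ⟨a, rfl⟩, b - f a, by simp [ha], by abel⟩
    · rintro ⟨_, ⟨a, rfl⟩, y, hy, rfl⟩
      exact ⟨a, by simp [hy]⟩
  let e1 : (B ⧸ (range f ⊔ ker g)) ≃ₗ[k] ker π :=
    ((Submodule.quotEquivOfEq _ _ hψk.symm).trans ψ.quotKerEquivRange).trans
      (LinearEquiv.ofEq _ _ hψr)
  have hB : FiniteDimensional k (B ⧸ (range f ⊔ ker g)) := by
    have := Submodule.factor_surjective (p := range f) (p' := range f ⊔ ker g) le_sup_left
    exact Module.Finite.of_surjective _ this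
  have hK : FiniteDimensional k (ker π) := Module.Finite.equiv e1
  have hfin : FiniteDimensional k (C ⧸ range (g ∘ₗ f)) := by
    have h1 : (⊤ : Submodule k (C ⧸ range (g ∘ₗ f))).FG := by
      refine Submodule.fg_of_fg_map_of_fg_inf_ker π ?_ ?_
      · rw [Submodule.map_top]
        exact (Submodule.fg_iff_finiteDimensional _).2 inferInstance
      · rw [top_inf_eq]
        exact (Submodule.fg_iff_finiteDimensional _).2 hK
    exact ⟨h1⟩
  refine ⟨hfin, ?_⟩
  have h2 := LinearMap.finrank_range_add_finrank_ker π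
  rw [LinearMap.range_eq_top.2 hπ, finrank_top, ← e1.finrank_eq] at h2
  omega

theorem Fred.comp {f : A →ₗ[k] B} {g : B →ₗ[k] C} (hg : Fred g) (hf : Fred f) :
    Fred (g ∘ₗ f) :=
  ⟨(ker_comp_exact f g hf.ker hg.ker).1, (coker_comp_exact f g hf.coker hg.coker).1⟩

theorem idx_comp {f : A →ₗ[k] B} {g : B →ₗ[k] C} (hg : Fred g) (hf : Fred f) :
    idx (g ∘ₗ f) = idx f + idx g := by
  have h1 := (ker_comp_exact f g hf.ker hg.ker).2
  have h2 := (coker_comp_exact f g hf.coker hg.coker).2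
  have := hf.ker
  have := hf.coker
  have := hg.ker
  have := hg.coker
  -- `dim B/range f = dim B/(range f + ker g) + dim (range f + ker g)/range f`
  let π : (B ⧸ range f) →ₗ[k] (B ⧸ (range f ⊔ ker g)) := Submodule.factor le_sup_left
  have hπ : Function.Surjective π := Submodule.factor_surjective le_sup_left
  let ψ : ker g →ₗ[k] (B ⧸ range f) := (range f).mkQ ∘ₗ (ker g).subtype
  have hψr : range ψ = ker π := by
    ext x
    obtain ⟨b, rfl⟩ := (range f).mkQ_surjective x
    constructor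
    · rintro ⟨⟨y, hy⟩, h⟩
      have h3 : y - b ∈ range f := (Submodule.Quotient.eq _).1 h
      obtain ⟨a, ha⟩ := h3
      refine (Submodule.Quotient.mk_eq_zero (range f ⊔ ker g)).2 ?_
      exact Submodule.mem_sup.2 ⟨f (-a), ⟨-a, rfl⟩, y, hy, by rw [map_neg, ha]; abel⟩
    · intro h
      have h' : (Submodule.Quotient.mk b : B ⧸ (range f ⊔ ker g)) = 0 := h
      obtain ⟨_, ⟨a, rfl⟩, y, hy, hb⟩ := Submodule.mem_sup.1
        ((Submodule.Quotient.mk_eq_zero _).1 h')
      refine ⟨⟨y, hy⟩, ?_⟩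
      refine (Submodule.Quotient.eq _).2 ⟨-a, ?_⟩
      rw [map_neg, ← hb]
      simp
  have hψk : ker ψ = (range f ⊓ ker g).comap (ker g).subtype := by
    ext ⟨y, hy⟩
    simp only [ψ, LinearMap.mem_ker, LinearMap.comp_apply, Submodule.mkQ_apply,
      Submodule.Quotient.mk_eq_zero, Submodule.subtype_apply, Submodule.mem_comap,
      Submodule.mem_inf]
    exact ⟨fun h => ⟨h, hy⟩, fun h => h.1⟩
  have e : (ker ψ) ≃ₗ[k] (range f ⊓ ker g : Submodule k B) :=
    (LinearEquiv.ofEq _ _ hψk).trans (Submodule.comapSubtypeEquivOfLe inf_le_right)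
  have h3 := LinearMap.finrank_range_add_finrank_ker π
  rw [LinearMap.range_eq_top.2 hπ, finrank_top] at h3
  have h4 := LinearMap.finrank_range_add_finrank_ker ψ
  rw [hψr, e.finrank_eq] at h4
  unfold idx kdim cdim
  omega

end Fredholm

section Fredholm2

variable {k : Type*} [Field k]
variable {A B C D : Type*} [AddCommGroup A] [Module k A] [AddCommGroup B] [Module k B]
  [AddCommGroup C] [Module k C] [AddCommGroup D] [Module k D]

theorem ker_prodMap' (f : A →ₗ[k] B) (g : C →ₗ[k] D) :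
    ker (f.prodMap g) = (ker f).prod (ker g) := by
  ext ⟨a, c⟩; simp

theorem range_prodMap' (f : A →ₗ[k] B) (g : C →ₗ[k] D) :
    range (f.prodMap g) = (range f).prod (range g) := by
  ext ⟨b, d⟩
  simp only [LinearMap.mem_range, Submodule.mem_prod, LinearMap.prodMap_apply, Prod.exists,
    Prod.mk.injEq]
  constructor
  · rintro ⟨a, c, h1, h2⟩; exact ⟨⟨a, h1⟩, ⟨c, h2⟩⟩
  · rintro ⟨⟨a, h1⟩, ⟨c, h2⟩⟩; exact ⟨a, c, h1, h2⟩

/-- the submodule `p.prod q` is the product of `p` and `q` -/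
noncomputable def prodEquivProd (p : Submodule k B) (q : Submodule k D) :
    (p.prod q) ≃ₗ[k] p × q where
  toFun x := (⟨x.1.1, x.2.1⟩, ⟨x.1.2, x.2.2⟩)
  invFun x := ⟨(x.1.1, x.2.1), ⟨x.1.2, x.2.2⟩⟩
  map_add' _ _ := rfl
  map_smul' _ _ := rfl
  left_inv _ := rfl
  right_inv _ := rfl

/-- quotient of a product -/
noncomputable def quotProdEquiv (p : Submodule k B) (q : Submodule k D) :
    ((B × D) ⧸ p.prod q) ≃ₗ[k] (B ⧸ p) × (D ⧸ q) := by
  let φ : (B × D) →ₗ[k] (B ⧸ p) × (D ⧸ q) := p.mkQ.prodMap q.mkQ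
  have hk : ker φ = p.prod q := by
    simp only [φ, ker_prodMap', Submodule.ker_mkQ]
  have hr : Function.Surjective φ := by
    rintro ⟨b, d⟩
    obtain ⟨b, rfl⟩ := p.mkQ_surjective b
    obtain ⟨d, rfl⟩ := q.mkQ_surjective d
    exact ⟨(b, d), rfl⟩
  exact (Submodule.quotEquivOfEq _ _ hk.symm).trans (φ.quotKerEquivOfSurjective hr)

theorem Fred.prodMap {f : A →ₗ[k] B} {g : C →ₗ[k] D} (hf : Fred f) (hg : Fred g) :
    Fred (f.prodMap g) := by
  have := hf.ker
  have := hf.coker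
  have := hg.ker
  have := hg.coker
  refine ⟨?_, ?_⟩
  · rw [ker_prodMap']
    exact Module.Finite.equiv (prodEquivProd (LinearMap.ker f) (LinearMap.ker g)).symm
  · rw [range_prodMap']
    exact Module.Finite.equiv (quotProdEquiv (range f) (range g)).symm

theorem kdim_prodMap {f : A →ₗ[k] B} {g : C →ₗ[k] D} (hf : Fred f) (hg : Fred g) :
    kdim (f.prodMap g) = kdim f + kdim g := by
  have := hf.ker
  have := hg.ker
  unfold kdim
  rw [ker_prodMap', (prodEquivProd (LinearMap.ker f) (LinearMap.ker g)).finrank_eq,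
    finrank_prod]

theorem cdim_prodMap {f : A →ₗ[k] B} {g : C →ₗ[k] D} (hf : Fred f) (hg : Fred g) :
    cdim (f.prodMap g) = cdim f + cdim g := by
  have := hf.coker
  have := hg.coker
  unfold cdim
  rw [range_prodMap', (quotProdEquiv (range f) (range g)).finrank_eq, finrank_prod]

theorem idx_prodMap {f : A →ₗ[k] B} {g : C →ₗ[k] D} (hf : Fred f) (hg : Fred g) :
    idx (f.prodMap g) = idx f + idx g := by
  unfold idx
  rw [kdim_prodMap hf hg, cdim_prodMap hf hg]
  push_cast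
  ring

theorem fred_id : Fred (LinearMap.id : A →ₗ[k] A) := fred_equiv (LinearEquiv.refl k A)

theorem idx_id : idx (LinearMap.id : A →ₗ[k] A) = 0 := idx_equiv (LinearEquiv.refl k A)

end Fredholm2

section Exact

variable {k : Type*} [Field k]
variable {A₁ A₂ A₃ B₁ B₂ B₃ : Type*} [AddCommGroup A₁] [Module k A₁] [AddCommGroup A₂]
  [Module k A₂] [AddCommGroup A₃] [Module k A₃] [AddCommGroup B₁] [Module k B₁]
  [AddCommGroup B₂] [Module k B₂] [AddCommGroup B₃] [Module k B₃]

/-- A short exact sequence of vector spaces. -/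
structure SES (i : A₁ →ₗ[k] A₂) (p : A₂ →ₗ[k] A₃) : Prop where
  /-- injective -/
  inj : Function.Injective i
  /-- exact in the middle -/
  exact : LinearMap.range i = LinearMap.ker p
  /-- surjective -/
  surj : Function.Surjective p

/-- a splitting of a short exact sequence of vector spaces -/
theorem SES.split {i : A₁ →ₗ[k] A₂} {p : A₂ →ₗ[k] A₃} (h : SES i p) :
    ∃ e : A₂ ≃ₗ[k] A₁ × A₃, (∀ a, e (i a) = (a, 0)) ∧ ∀ a, (e a).2 = p a := by
  obtain ⟨s, hs⟩ := p.exists_rightInverse_of_surjective (LinearMap.range_eq_top.2 h.surj)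
  have hs' : ∀ a, p (s a) = a := fun a => by
    simpa using LinearMap.congr_fun hs a
  have hpi : ∀ a, p (i a) = 0 := fun a => by
    have : i a ∈ LinearMap.ker p := h.exact ▸ ⟨a, rfl⟩
    exact this
  let φ : (A₁ × A₃) →ₗ[k] A₂ := i.coprod s
  have hφi : Function.Injective φ := by
    rw [← LinearMap.ker_eq_bot, LinearMap.ker_eq_bot']
    rintro ⟨a, c⟩ hac
    have h1 : i a + s c = 0 := by simpa [φ] using hac
    have h2 : c = 0 := by
      have := congrArg p h1
      rw [map_add, hpi, hs', zero_add, map_zero] at this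
      exact this
    subst h2
    have h3 : i a = 0 := by simpa using h1
    have h4 : a = 0 := h.inj (by rw [h3, map_zero])
    rw [h4]; rfl
  have hφs : Function.Surjective φ := by
    intro b
    have h1 : b - s (p b) ∈ LinearMap.ker p := by
      rw [LinearMap.mem_ker, map_sub, hs', sub_self]
    rw [← h.exact] at h1
    obtain ⟨a, ha⟩ := h1
    exact ⟨(a, p b), by simp [φ, ha]⟩
  let e := LinearEquiv.ofBijective φ ⟨hφi, hφs⟩
  have he : ∀ a c, e (a, c) = i a + s c := fun a c => rfl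
  refine ⟨e.symm, fun a => ?_, fun b => ?_⟩
  · rw [LinearEquiv.symm_apply_eq, he, map_zero, add_zero]
  · obtain ⟨⟨a, c⟩, rfl⟩ := e.surjective b
    rw [e.symm_apply_apply, he, map_add, hpi, hs', zero_add]

/-- additivity of the index in short exact sequences of maps -/
theorem idx_ses {i : A₁ →ₗ[k] A₂} {p : A₂ →ₗ[k] A₃} {j : B₁ →ₗ[k] B₂} {q : B₂ →ₗ[k] B₃}
    (hA : SES i p) (hB : SES j q) {f₁ : A₁ →ₗ[k] B₁} {f₂ : A₂ →ₗ[k] B₂} {f₃ : A₃ →ₗ[k] B₃}
    (h1 : ∀ a, f₂ (i a) = j (f₁ a)) (h2 : ∀ a, q (f₂ a) = f₃ (p a))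
    (hf₁ : Fred f₁) (hf₃ : Fred f₃) : Fred f₂ ∧ idx f₂ = idx f₁ + idx f₃ := by
  obtain ⟨e, he1, he2⟩ := hA.split
  obtain ⟨d, hd1, hd2⟩ := hB.split
  -- the off-diagonal entry
  let h : A₃ →ₗ[k] B₁ := (LinearMap.fst k B₁ B₃) ∘ₗ (d : B₂ →ₗ[k] B₁ × B₃) ∘ₗ f₂ ∘ₗ
    (e.symm : A₁ × A₃ →ₗ[k] A₂) ∘ₗ (LinearMap.inr k A₁ A₃)
  -- the shear
  let u : (B₁ × A₃) ≃ₗ[k] (B₁ × A₃) :=
    { toFun := fun x => (x.1 + h x.2, x.2)
      invFun := fun x => (x.1 - h x.2, x.2)
      map_add' := fun x y => by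
        ext <;> simp; abel
      map_smul' := fun c x => by
        ext <;> simp
      left_inv := fun x => by ext <;> simp
      right_inv := fun x => by ext <;> simp }
  have hu : ∀ x, u x = (x.1 + h x.2, x.2) := fun x => rfl
  have key : f₂ = (d.symm : B₁ × B₃ →ₗ[k] B₂) ∘ₗ
      ((LinearMap.id : B₁ →ₗ[k] B₁).prodMap f₃) ∘ₗ (u : (B₁ × A₃) →ₗ[k] (B₁ × A₃)) ∘ₗ
      (f₁.prodMap (LinearMap.id : A₃ →ₗ[k] A₃)) ∘ₗ (e : A₂ →ₗ[k] A₁ × A₃) := by
    apply LinearMap.ext
    intro a
    obtain ⟨⟨a1, a3⟩, rfl⟩ := e.symm.surjective a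
    simp only [LinearMap.comp_apply, LinearEquiv.coe_coe, LinearEquiv.apply_symm_apply,
      LinearMap.prodMap_apply, LinearMap.id_apply, hu]
    rw [LinearEquiv.eq_symm_apply]
    have e1 : e.symm (a1, a3) = i a1 + e.symm (0, a3) := by
      rw [LinearEquiv.symm_apply_eq, map_add, he1, LinearEquiv.apply_symm_apply]
      simp
    rw [e1, map_add, map_add, h1, hd1]
    have e2 : (d (f₂ (e.symm (0, a3)))).1 = h a3 := rfl
    have e3 : (d (f₂ (e.symm (0, a3)))).2 = f₃ a3 := by
      rw [hd2, h2, ← he2, LinearEquiv.apply_symm_apply]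
    ext
    · simp [e2]
    · simp [e3]
  have F1 : Fred (f₁.prodMap (LinearMap.id : A₃ →ₗ[k] A₃)) := hf₁.prodMap fred_id
  have F2 : Fred ((LinearMap.id : B₁ →ₗ[k] B₁).prodMap f₃) := fred_id.prodMap hf₃
  have G1 := F1.comp (fred_equiv e)
  have G2 := (fred_equiv u).comp G1
  have G3 := F2.comp G2
  have G4 := (fred_equiv d.symm).comp G3
  refine ⟨key ▸ G4, ?_⟩
  rw [key, idx_comp (fred_equiv d.symm) G3, idx_comp F2 G2, idx_comp (fred_equiv u) G1,
    idx_comp F1 (fred_equiv e), idx_equiv, idx_equiv, idx_equiv, idx_prodMap hf₁ fred_id,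
    idx_prodMap fred_id hf₃, idx_id, idx_id]
  ring

/-- kernels: the left part of the snake sequence -/
theorem kdim_le_ses {i : A₁ →ₗ[k] A₂} {j : B₁ →ₗ[k] B₂} (hi : Function.Injective i)
    {f₁ : A₁ →ₗ[k] B₁} {f₂ : A₂ →ₗ[k] B₂} (h1 : ∀ a, f₂ (i a) = j (f₁ a))
    (hf₂ : Fred f₂) : kdim f₁ ≤ kdim f₂ := by
  have := hf₂.ker
  have hm : ∀ a : LinearMap.ker f₁, i a ∈ LinearMap.ker f₂ := fun a => by
    rw [LinearMap.mem_ker, h1, LinearMap.mem_ker.1 a.2, map_zero]
  let φ : LinearMap.ker f₁ →ₗ[k] LinearMap.ker f₂ :=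
    (i.domRestrict (LinearMap.ker f₁)).codRestrict (LinearMap.ker f₂) hm
  have hφ : Function.Injective φ := by
    intro a b hab
    have : i a = i b := congrArg Subtype.val hab
    exact Subtype.ext (hi this)
  exact LinearMap.finrank_le_finrank_of_injective hφ

/-- cokernels: the right part of the snake sequence -/
theorem cdim_le_ses {p : A₂ →ₗ[k] A₃} {q : B₂ →ₗ[k] B₃} (hq : Function.Surjective q)
    {f₂ : A₂ →ₗ[k] B₂} {f₃ : A₃ →ₗ[k] B₃} (h2 : ∀ a, q (f₂ a) = f₃ (p a))
    (hf₂ : Fred f₂) : cdim f₃ ≤ cdim f₂ := by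
  have := hf₂.coker
  have hle : LinearMap.range f₂ ≤ (LinearMap.range f₃).comap q := by
    rintro _ ⟨a, rfl⟩
    exact ⟨p a, (h2 a).symm⟩
  let φ := (LinearMap.range f₂).mapQ (LinearMap.range f₃) q hle
  have hφ : Function.Surjective φ := by
    intro x
    obtain ⟨b, rfl⟩ := (LinearMap.range f₃).mkQ_surjective x
    obtain ⟨b, rfl⟩ := hq b
    exact ⟨(LinearMap.range f₂).mkQ b, rfl⟩
  exact LinearMap.finrank_le_finrank_of_surjective hφ

end Exact

end Vale.Agent.P182.H430
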