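import Vale.Agent.P182.H430.Serre

/-!
# The projective line: the function field `F = Frac k[X]`, `k` algebraically closed
-/

namespace Vale.Agent.P182.H430

open Polynomial

section Gen

variable {k F : Type*} [Field k] [Field F] [Algebra k[X] F] [IsFractionRing k[X] F]

/-- every element is a quotient -/
theorem exists_frac (f : F) : ∃ n d : k[X], d ≠ 0 ∧ f * algebraMap k[X] F d = algebraMap k[X] F n := by
  obtain ⟨n, d, hd, h⟩ := IsFractionRing.div_surjective (A := k[X]) f
  refine ⟨n, d, nonZeroDivisors.ne_zero hd, ?_⟩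
  have hd' : algebraMap k[X] F d ≠ 0 := by
    rw [Ne, FaithfulSMul.algebraMap_eq_zero_iff]
    exact nonZeroDivisors.ne_zero hd
  rw [← h, div_mul_cancel₀ _ hd']

theorem amap_ne {d : k[X]} (h : d ≠ 0) : algebraMap k[X] F d ≠ 0 := by
  rw [Ne, FaithfulSMul.algebraMap_eq_zero_iff]
  exact h

theorem amap_inj {n m : k[X]} (h : algebraMap k[X] F n = algebraMap k[X] F m) : n = m :=
  FaithfulSMul.algebraMap_injective k[X] F h

/-- an additive multiplicity function on polynomials extends to the fraction field -/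
noncomputable def ordOf (F : Type*) [Field F] [Algebra k[X] F] [IsFractionRing k[X] F]
    (μ : k[X] → ℤ) (f : F) : ℤ :=
  μ (exists_frac (k := k) f).choose - μ (exists_frac (k := k) f).choose_spec.choose

theorem ordOf_eq {μ : k[X] → ℤ} (hμ : ∀ p q, p ≠ 0 → q ≠ 0 → μ (p * q) = μ p + μ q) {f : F}
    (hf : f ≠ 0) {n d : k[X]} (hd : d ≠ 0) (h : f * algebraMap k[X] F d = algebraMap k[X] F n) :
    ordOf F μ f = μ n - μ d := by
  have key : ∀ n' d' : k[X], d' ≠ 0 → f * algebraMap k[X] F d' = algebraMap k[X] F n' →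
      μ n' - μ d' = μ n - μ d := by
    intro n' d' h1 h2
    have hn : n ≠ 0 := by
      rintro rfl
      rw [map_zero] at h
      exact (mul_ne_zero hf (amap_ne hd)) h
    have hn' : n' ≠ 0 := by
      intro h0
      rw [h0, map_zero] at h2
      exact (mul_ne_zero hf (amap_ne h1)) h2
    have h3 : n * d' = n' * d := by
      apply amap_inj (F := F)
      rw [map_mul, map_mul, ← h, ← h2]
      ring
    have h4 := hμ n d' hn h1
    have h5 := hμ n' d hn' hd
    rw [h3, h5] at h4
    linarith
  obtain ⟨h1, h2⟩ := (exists_frac (k := k) f).choose_spec.choose_spec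
  exact key _ _ h1 h2

/-- the place of an additive multiplicity function -/
noncomputable def placeOf [Algebra k F] [IsScalarTower k k[X] F] (μ : k[X] → ℤ)
    (hμ : ∀ p q, p ≠ 0 → q ≠ 0 → μ (p * q) = μ p + μ q)
    (hadd : ∀ p q, p ≠ 0 → q ≠ 0 → p + q ≠ 0 → min (μ p) (μ q) ≤ μ (p + q))
    (hC : ∀ c : k, c ≠ 0 → μ (C c) = 0) (u : F) (hu : u ≠ 0) (hu1 : ordOf F μ u = 1)
    (hres : ∀ n d : k[X], n ≠ 0 → d ≠ 0 → μ d ≤ μ n →
      ∃ c : k, n = C c * d ∨ (n - C c * d ≠ 0 ∧ μ d < μ (n - C c * d))) : Place k F where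
  ord := ordOf F μ
  ord_mul f g hf hg := by
    obtain ⟨n, d, hd, h⟩ := exists_frac (k := k) f
    obtain ⟨n', d', hd', h'⟩ := exists_frac (k := k) g
    have hn : n ≠ 0 := by
      rintro rfl
      rw [map_zero] at h
      exact (mul_ne_zero hf (amap_ne hd)) h
    have hn' : n' ≠ 0 := by
      rintro rfl
      rw [map_zero] at h'
      exact (mul_ne_zero hg (amap_ne hd')) h'
    rw [ordOf_eq hμ hf hd h, ordOf_eq hμ hg hd' h',
      ordOf_eq hμ (mul_ne_zero hf hg) (mul_ne_zero hd hd') (n := n * n') (by
        rw [map_mul, map_mul, ← h, ← h']; ring), hμ _ _ hn hn', hμ _ _ hd hd']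
    ring
  ord_add f g hf hg hfg := by
    obtain ⟨n, d, hd, h⟩ := exists_frac (k := k) f
    obtain ⟨n', d', hd', h'⟩ := exists_frac (k := k) g
    have hn : n ≠ 0 := by
      rintro rfl
      rw [map_zero] at h
      exact (mul_ne_zero hf (amap_ne hd)) h
    have hn' : n' ≠ 0 := by
      rintro rfl
      rw [map_zero] at h'
      exact (mul_ne_zero hg (amap_ne hd')) h'
    have e : (f + g) * algebraMap k[X] F (d * d') = algebraMap k[X] F (n * d' + n' * d) := by
      rw [map_mul, map_add, map_mul, map_mul, ← h, ← h']; ring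
    have hs : n * d' + n' * d ≠ 0 := by
      intro h0
      rw [h0, map_zero] at e
      exact (mul_ne_zero hfg (amap_ne (mul_ne_zero hd hd'))) e
    rw [ordOf_eq hμ hf hd h, ordOf_eq hμ hg hd' h', ordOf_eq hμ hfg (mul_ne_zero hd hd') e,
      hμ _ _ hd hd']
    have h1 := hadd _ _ (mul_ne_zero hn hd') (mul_ne_zero hn' hd) hs
    rw [hμ _ _ hn hd', hμ _ _ hn' hd] at h1
    rcases min_le_iff.1 h1 with h2 | h2
    · exact min_le_iff.2 (Or.inl (by linarith))
    · exact min_le_iff.2 (Or.inr (by linarith))
  unif := u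
  unif_ne := hu
  ord_unif := hu1
  ord_alg c hc := by
    have hc' : algebraMap k F c ≠ 0 := by simpa using hc
    rw [ordOf_eq hμ hc' (n := C c) (d := 1) one_ne_zero (by
      rw [map_one, mul_one, IsScalarTower.algebraMap_apply k k[X] F]; rfl), hC c hc]
    have := hC 1 one_ne_zero
    rw [map_one] at this
    rw [this, sub_zero]
  resid f hf h0 := by
    obtain ⟨n, d, hd, h⟩ := exists_frac (k := k) f
    have hn : n ≠ 0 := by
      rintro rfl
      rw [map_zero] at h
      exact (mul_ne_zero hf (amap_ne hd)) h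
    rw [ordOf_eq hμ hf hd h] at h0
    obtain ⟨c, hc | ⟨hc1, hc2⟩⟩ := hres n d hn hd (by linarith)
    · refine ⟨c, Or.inl ?_⟩
      rw [hc, map_mul] at h
      have h1 := mul_right_cancel₀ (amap_ne hd) h
      rw [h1, IsScalarTower.algebraMap_apply k k[X] F]; rfl
    · refine ⟨c, Or.inr ?_⟩
      have e : (f - algebraMap k F c) * algebraMap k[X] F d = algebraMap k[X] F (n - C c * d) := by
        rw [sub_mul, h, map_sub, map_mul, IsScalarTower.algebraMap_apply k k[X] F]; rfl
      have h1 : f - algebraMap k F c ≠ 0 := by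
        intro h2
        rw [h2, zero_mul] at e
        exact amap_ne hc1 e.symm
      rw [ordOf_eq hμ h1 hd e]
      linarith

end Gen

section Places

variable {k : Type*} [Field k]

/-- multiplicity at a point of the affine line -/
noncomputable def muA (a : k) (p : k[X]) : ℤ := p.rootMultiplicity a

/-- multiplicity at infinity -/
noncomputable def muI (p : k[X]) : ℤ := -(p.natDegree : ℤ)

theorem muA_mul (a : k) (p q : k[X]) (hp : p ≠ 0) (hq : q ≠ 0) :
    muA a (p * q) = muA a p + muA a q := by
  unfold muA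
  rw [rootMultiplicity_mul (mul_ne_zero hp hq)]
  push_cast
  rfl

theorem muI_mul (p q : k[X]) (hp : p ≠ 0) (hq : q ≠ 0) : muI (p * q) = muI p + muI q := by
  unfold muI
  rw [natDegree_mul hp hq]
  push_cast
  ring

theorem muA_add (a : k) (p q : k[X]) (_hp : p ≠ 0) (_hq : q ≠ 0) (h : p + q ≠ 0) :
    min (muA a p) (muA a q) ≤ muA a (p + q) := by
  unfold muA
  have := rootMultiplicity_add (p := p) (q := q) a h
  exact_mod_cast this

theorem muI_add (p q : k[X]) (_hp : p ≠ 0) (_hq : q ≠ 0) (_h : p + q ≠ 0) :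
    min (muI p) (muI q) ≤ muI (p + q) := by
  unfold muI
  have := natDegree_add_le p q
  rcases le_max_iff.1 this with h | h
  · exact min_le_iff.2 (Or.inl (by omega))
  · exact min_le_iff.2 (Or.inr (by omega))

theorem muA_C (a c : k) (_hc : c ≠ 0) : muA a (C c) = 0 := by
  unfold muA
  simp

theorem muI_C (c : k) (_hc : c ≠ 0) : muI (C c) = 0 := by
  unfold muI
  simp

theorem muA_X (a : k) : muA a (X - C a) = 1 := by
  unfold muA
  rw [rootMultiplicity_X_sub_C_self]
  rfl

theorem muA_one (a : k) : muA a 1 = 0 := by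
  have := muA_C a 1 one_ne_zero
  rwa [map_one] at this

theorem muI_one : muI (1 : k[X]) = 0 := by
  have := muI_C (1 : k) one_ne_zero
  rwa [map_one] at this

theorem muA_res (a : k) (n d : k[X]) (_hn : n ≠ 0) (hd : d ≠ 0) (h : muA a d ≤ muA a n) :
    ∃ c : k, n = C c * d ∨ (n - C c * d ≠ 0 ∧ muA a d < muA a (n - C c * d)) := by
  unfold muA at h
  have h' : rootMultiplicity a d ≤ rootMultiplicity a n := by exact_mod_cast h
  set m := rootMultiplicity a d with hm
  obtain ⟨n', hn'⟩ := (pow_dvd_pow (X - C a) h').trans (pow_rootMultiplicity_dvd n a)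
  obtain ⟨d', hd'⟩ := pow_rootMultiplicity_dvd d a
  rw [← hm] at hd'
  have hda : d'.eval a ≠ 0 := by
    intro h0
    obtain ⟨e, he⟩ := dvd_iff_isRoot.2 h0
    have h1 : (X - C a) ^ (m + 1) ∣ d := by
      rw [hd', he, pow_succ]
      exact ⟨e, by ring⟩
    have h2 := (le_rootMultiplicity_iff hd).2 h1
    omega
  refine ⟨n'.eval a / d'.eval a, ?_⟩
  set c := n'.eval a / d'.eval a with hc
  by_cases h0 : n - C c * d = 0
  · exact Or.inl (sub_eq_zero.1 h0)
  · refine Or.inr ⟨h0, ?_⟩
    have h1 : n - C c * d = (X - C a) ^ m * (n' - C c * d') := by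
      conv_lhs => rw [hn', hd']
      ring
    have h2 : (n' - C c * d').IsRoot a := by
      rw [IsRoot, eval_sub, eval_mul, eval_C, hc, div_mul_cancel₀ _ hda, sub_self]
    obtain ⟨e, he⟩ := dvd_iff_isRoot.2 h2
    have h3 : (X - C a) ^ (m + 1) ∣ n - C c * d := by
      rw [h1, he, pow_succ]
      exact ⟨e, by ring⟩
    have h4 := (le_rootMultiplicity_iff h0).2 h3
    unfold muA
    rw [← hm]
    omega

theorem muI_res (n d : k[X]) (hn : n ≠ 0) (hd : d ≠ 0) (h : muI d ≤ muI n) :
    ∃ c : k, n = C c * d ∨ (n - C c * d ≠ 0 ∧ muI d < muI (n - C c * d)) := by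
  unfold muI at h
  have h' : n.natDegree ≤ d.natDegree := by omega
  rcases h'.lt_or_eq with h1 | h1
  · refine ⟨0, Or.inr ⟨by simpa using hn, ?_⟩⟩
    unfold muI
    simp only [map_zero, zero_mul, sub_zero]
    omega
  · refine ⟨n.leadingCoeff / d.leadingCoeff, ?_⟩
    set c := n.leadingCoeff / d.leadingCoeff with hc
    have hdl : d.leadingCoeff ≠ 0 := leadingCoeff_ne_zero.2 hd
    have hnl : n.leadingCoeff ≠ 0 := leadingCoeff_ne_zero.2 hn
    have hc0 : c ≠ 0 := div_ne_zero hnl hdl
    by_cases h0 : n - C c * d = 0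
    · exact Or.inl (sub_eq_zero.1 h0)
    · refine Or.inr ⟨h0, ?_⟩
      have h2 : degree (n - C c * d) < degree n := by
        apply degree_sub_lt_left
        · rw [degree_C_mul hc0, degree_eq_natDegree hn, degree_eq_natDegree hd, h1]
        · exact hn
        · rw [leadingCoeff_mul, leadingCoeff_C, hc, div_mul_cancel₀ _ hdl]
      have h3 := natDegree_lt_natDegree h0 h2
      unfold muI
      omega

end Places

section Line

variable (k F : Type*) [Field k] [Field F] [Algebra k[X] F] [IsFractionRing k[X] F]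
  [Algebra k F] [IsScalarTower k k[X] F]

/-- the places of the projective line -/
noncomputable def linePl : Option k → Place k F
  | some a => placeOf (muA a) (muA_mul a) (muA_add a) (muA_C a) (algebraMap k[X] F (X - C a))
      (amap_ne (X_sub_C_ne_zero a)) (by
        rw [ordOf_eq (muA_mul a) (amap_ne (X_sub_C_ne_zero a)) one_ne_zero (n := X - C a)
          (by rw [map_one, mul_one]), muA_X, muA_one, sub_zero]) (muA_res a)
  | none => placeOf muI muI_mul muI_add muI_C (algebraMap k[X] F X)⁻¹
      (inv_ne_zero (amap_ne X_ne_zero)) (by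
        rw [ordOf_eq muI_mul (inv_ne_zero (amap_ne X_ne_zero)) X_ne_zero (n := 1)
          (by rw [map_one, inv_mul_cancel₀ (amap_ne X_ne_zero)]), muI_one]
        unfold muI
        simp) muI_res

variable {k F}

theorem linePl_ord_some (a : k) {f : F} (hf : f ≠ 0) {n d : k[X]} (hd : d ≠ 0)
    (h : f * algebraMap k[X] F d = algebraMap k[X] F n) :
    (linePl k F (some a)).ord f = n.rootMultiplicity a - d.rootMultiplicity a :=
  ordOf_eq (muA_mul a) hf hd h

theorem linePl_ord_none {f : F} (hf : f ≠ 0) {n d : k[X]} (hd : d ≠ 0)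
    (h : f * algebraMap k[X] F d = algebraMap k[X] F n) :
    (linePl k F none).ord f = d.natDegree - n.natDegree := by
  have := ordOf_eq (F := F) muI_mul hf hd h
  show ordOf F muI f = _
  rw [this]
  unfold muI
  ring

omit [Algebra k F] [IsScalarTower k k[X] F] in
theorem num_ne {f : F} (hf : f ≠ 0) {n d : k[X]} (hd : d ≠ 0)
    (h : f * algebraMap k[X] F d = algebraMap k[X] F n) : n ≠ 0 := by
  rintro rfl
  rw [map_zero] at h
  exact (mul_ne_zero hf (amap_ne hd)) h

theorem line_ord_ae (f : F) (hf : f ≠ 0) : {p | (linePl k F p).ord f ≠ 0}.Finite := by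
  classical
  obtain ⟨n, d, hd, h⟩ := exists_frac (k := k) f
  have hn := num_ne hf hd h
  refine (((n.roots.toFinset ∪ d.roots.toFinset).image some ∪ {none} :
    Finset (Option k)).finite_toSet).subset ?_
  intro p hp
  match p, hp with
  | none, _ => simp
  | some a, hp =>
    have h1 : (linePl k F (some a)).ord f ≠ 0 := hp
    rw [linePl_ord_some a hf hd h] at h1
    by_contra h2
    simp only [Finset.coe_union, Finset.coe_image, Finset.coe_singleton, Set.mem_union,
      Set.mem_image, Option.some.injEq, exists_eq_right, Finset.mem_coe, Finset.mem_union,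
      Multiset.mem_toFinset, Set.mem_singleton_iff, reduceCtorEq, or_false, not_or] at h2
    apply h1
    rw [← count_roots, ← count_roots, Multiset.count_eq_zero.2 h2.1,
      Multiset.count_eq_zero.2 h2.2]
    simp

theorem line_H0 [IsAlgClosed k] (f : F) (hf : ∀ p, f ∈ (linePl k F p).M 1 0) :
    ∃ c : k, algebraMap k F c = f := by
  classical
  by_cases hf0 : f = 0
  · exact ⟨0, by rw [hf0, map_zero]⟩
  obtain ⟨n, d, hd, h⟩ := exists_frac (k := k) f
  have hn := num_ne hf0 hd h
  have h1 : d ∣ n := by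
    rw [IsAlgClosed.dvd_iff_roots_le_roots hd hn, Multiset.le_iff_count]
    intro a
    rw [count_roots, count_roots]
    have h2 := ((linePl k F (some a)).mem_M_of_ne hf0).1 (hf (some a))
    rw [linePl_ord_some a hf0 hd h] at h2
    push_cast at h2
    omega
  obtain ⟨q, rfl⟩ := h1
  have hq : q ≠ 0 := right_ne_zero_of_mul hn
  have h3 : f = algebraMap k[X] F q := by
    apply mul_right_cancel₀ (amap_ne hd)
    rw [h, map_mul, mul_comm]
  have h4 := ((linePl k F none).mem_M_of_ne hf0).1 (hf none)
  rw [linePl_ord_none hf0 hd h, natDegree_mul hd hq] at h4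
  push_cast at h4
  have h5 : q.natDegree = 0 := by omega
  rw [eq_C_of_natDegree_eq_zero h5] at h3
  exact ⟨q.coeff 0, by rw [h3, IsScalarTower.algebraMap_apply k k[X] F]; rfl⟩

/-- regularity of negative powers of the uniformizer elsewhere -/
theorem line_unif (p q : Option k) (hpq : p ≠ q) (m : ℕ) :
    0 ≤ (linePl k F q).ord ((linePl k F p).unif ^ (-(m : ℤ))) := by
  have hu : (linePl k F p).unif ≠ 0 := (linePl k F p).unif_ne
  have key : 0 ≤ -(linePl k F q).ord (linePl k F p).unif := by
    match p, q, hpq with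
    | none, none, h => exact absurd rfl h
    | none, some b, _ =>
      have h1 : (linePl k F none).unif = (algebraMap k[X] F X)⁻¹ := rfl
      rw [h1, linePl_ord_some b (inv_ne_zero (amap_ne X_ne_zero)) X_ne_zero (n := 1)
          (by rw [map_one, inv_mul_cancel₀ (amap_ne X_ne_zero)])]
      have h2 : (1 : k[X]).rootMultiplicity b = 0 := by
        have := muA_one b
        unfold muA at this
        exact_mod_cast this
      rw [h2]
      simp
    | some a, none, _ =>
      have h1 : (linePl k F (some a)).unif = algebraMap k[X] F (X - C a) := rfl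
      rw [h1, linePl_ord_none (amap_ne (X_sub_C_ne_zero a)) one_ne_zero (n := X - C a)
          (by rw [map_one, mul_one])]
      simp
    | some a, some b, h =>
      have hab : b ≠ a := fun h' => h (by rw [h'])
      have h1 : (linePl k F (some a)).unif = algebraMap k[X] F (X - C a) := rfl
      have h2 : (X - C a).rootMultiplicity b = 0 := by
        apply rootMultiplicity_eq_zero
        rw [IsRoot, eval_sub, eval_X, eval_C]
        exact sub_ne_zero.2 hab
      rw [h1, linePl_ord_some b (amap_ne (X_sub_C_ne_zero a)) one_ne_zero (n := X - C a)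
          (by rw [map_one, mul_one]), h2]
      simp
  rw [ord_zpow _ hu]
  have : (0 : ℤ) ≤ m := Int.natCast_nonneg m
  nlinarith

/-- principal parts at one place -/
theorem line_pp (p : Option k) (m : ℕ) : ∀ g : F, g ∈ (linePl k F p).M 1 (-(m : ℤ)) →
    ∃ f : F, f - g ∈ (linePl k F p).M 1 0 ∧ ∀ q, q ≠ p → f ∈ (linePl k F q).M 1 0 := by
  induction m with
  | zero =>
    intro g hg
    refine ⟨0, ?_, fun q _ => Submodule.zero_mem _⟩
    rw [zero_sub]
    exact Submodule.neg_mem _ (by simpa using hg)
  | succ m ih =>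
    intro g hg
    set Q := linePl k F p with hQ
    set u := Q.unif with hu
    have hu0 : u ≠ 0 := Q.unif_ne
    by_cases hg0 : g = 0
    · refine ⟨0, ?_, fun q _ => Submodule.zero_mem _⟩
      rw [hg0, sub_zero]
      exact Submodule.zero_mem _
    have h1 := (Q.mem_M_of_ne hg0).1 hg
    push_cast at h1
    have h2 : g * u ^ ((m : ℤ) + 1) ≠ 0 := mul_ne_zero hg0 (zpow_ne_zero _ hu0)
    have h3 : Q.ord (g * u ^ ((m : ℤ) + 1)) = Q.ord g + (m + 1) := by
      rw [Q.ord_mul _ _ hg0 (zpow_ne_zero _ hu0), Q.ord_zpow]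
    obtain ⟨c, hc⟩ := Q.resid _ h2 (by rw [h3]; linarith)
    -- subtract `c u^{-(m+1)}`
    have h4 : g - algebraMap k F c * u ^ (-((m : ℤ) + 1)) ∈ Q.M 1 (-(m : ℤ)) := by
      by_cases h0 : g * u ^ ((m : ℤ) + 1) - algebraMap k F c = 0
      · left
        have : g = algebraMap k F c * u ^ (-((m : ℤ) + 1)) := by
          rw [← sub_eq_zero.1 h0, mul_assoc, ← zpow_add₀ hu0]
          simp
        rw [← this, sub_self]
      · have h5 : 0 < Q.ord (g * u ^ ((m : ℤ) + 1) - algebraMap k F c) := by
          rcases hc with h | h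
          · exact absurd (sub_eq_zero.2 h) h0
          · exact h
        have h6 : g - algebraMap k F c * u ^ (-((m : ℤ) + 1)) =
            (g * u ^ ((m : ℤ) + 1) - algebraMap k F c) * u ^ (-((m : ℤ) + 1)) := by
          rw [sub_mul, mul_assoc, ← zpow_add₀ hu0]
          simp
        right
        rw [h6, Q.ord_mul _ _ h0 (zpow_ne_zero _ hu0), Q.ord_zpow]
        push_cast
        linarith
    obtain ⟨f, hf1, hf2⟩ := ih _ h4
    refine ⟨f + algebraMap k F c * u ^ (-((m : ℤ) + 1)), ?_, ?_⟩
    · have : f + algebraMap k F c * u ^ (-((m : ℤ) + 1)) - g =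
          f - (g - algebraMap k F c * u ^ (-((m : ℤ) + 1))) := by ring
      rw [this]
      exact hf1
    · intro q hq
      refine Submodule.add_mem _ (hf2 q hq) ?_
      rw [← Algebra.smul_def]
      refine Submodule.smul_mem _ _ ?_
      right
      have := line_unif (F := F) p q (Ne.symm hq) (m + 1)
      push_cast at this ⊢
      simpa using this

theorem line_H1 (g : Option k → F) (hg : {p | g p ∉ (linePl k F p).M 1 0}.Finite) :
    ∃ f : F, ∀ p, f - g p ∈ (linePl k F p).M 1 0 := by
  classical
  have h1 : ∀ p, ∃ m : ℕ, g p ∈ (linePl k F p).M 1 (-(m : ℤ)) := by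
    intro p
    by_cases h0 : g p = 0
    · exact ⟨0, Or.inl h0⟩
    · refine ⟨((linePl k F p).ord (g p)).natAbs, Or.inr ?_⟩
      push_cast
      have := neg_abs_le ((linePl k F p).ord (g p))
      linarith
  choose m hm using h1
  have h2 : ∀ p, ∃ f : F, f - g p ∈ (linePl k F p).M 1 0 ∧
      ∀ q, q ≠ p → f ∈ (linePl k F q).M 1 0 := fun p => line_pp p (m p) (g p) (hm p)
  choose f hf1 hf2 using h2
  refine ⟨∑ p ∈ hg.toFinset, f p, fun p => ?_⟩
  by_cases hp : p ∈ hg.toFinset
  · rw [← Finset.add_sum_erase _ _ hp, add_sub_right_comm]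
    refine Submodule.add_mem _ (hf1 p) (Submodule.sum_mem _ fun q hq => ?_)
    exact hf2 q p (Finset.ne_of_mem_erase hq).symm
  · have h3 : g p ∈ (linePl k F p).M 1 0 := by
      by_contra h4
      exact hp (hg.mem_toFinset.2 h4)
    refine Submodule.sub_mem _ (Submodule.sum_mem _ fun q hq => ?_) h3
    exact hf2 q p (fun h => hp (h ▸ hq))

variable (k F)

/-- THE PROJECTIVE LINE with periods `per` -/
noncomputable def line [IsAlgClosed k] (per : Option k → ℕ) (h1 : ∀ p, 0 < per p)
    (h2 : {p | per p ≠ 1}.Finite) : Curve k F (Option k) where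
  pl := linePl k F
  per := per
  per_pos := h1
  per_ae := h2
  ord_ae := line_ord_ae
  H0 := line_H0
  H1 := line_H1

end Line

/-- dualizing weights exist as soon as there is an unmarked place -/
theorem exists_dualizing {k F P : Type*} [Field k] [Field F] [Algebra k F] (C : Curve k F P)
    (p0 : P) (h0 : C.per p0 = 1) :
    Dualizing C (fun p => by classical exact if p = p0 then -2 else (C.per p : ℤ) - 1) := by
  classical
  refine ⟨?_, ?_, ?_⟩
  · refine (C.per_ae.union (Set.finite_singleton p0)).subset ?_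
    intro p hp
    by_contra h
    simp only [Set.mem_union, Set.mem_ofPred_eq, Set.mem_singleton_iff, not_or, not_not] at h
    apply hp
    simp [h.1, h.2]
  · intro p
    have hp := C.per_pos p
    by_cases h : p = p0
    · subst h
      simp [h0]
    · simp only [if_neg h]
      rw [Int.emod_eq_of_lt (by omega) (by omega)]
  · unfold Curve.deg
    rw [finsum_eq_single _ p0]
    · simp [h0]
    · intro p hp
      have h3 := C.per_pos p
      simp only [if_neg hp]
      exact Int.ediv_eq_zero_of_lt (by omega) (by omega)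

end Vale.Agent.P182.H430
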