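import Vale.Agent.P182.H430.Gen
import Vale.Agent.P182.H430.RatCurve

/-!
# The concrete bundle `N`
-/

namespace Vale.Agent.P182.H430

open Polynomial Module

/-- the data: three points, arms, column lengths, and a skew matrix -/
structure NData (k : Type*) [Field k] (J : Type*) [Fintype J] where
  n : ℕ
  z : Fin 3 → k
  hz : Function.Injective z
  arm : J → Fin 3
  c : J → ℕ
  hc1 : ∀ l, 1 ≤ c l
  hcn : ∀ l, c l ≤ n
  Ω : Matrix J J k
  skew : ∀ l m, Ω l m = - Ω m l

namespace NData

variable {k : Type*} [Field k] {J : Type*} [Fintype J] [DecidableEq J] (X : NData k J)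

/-- a marked place -/
def Marked (p : Option k) : Prop := ∃ s, p = some (X.z s)

open Classical in
/-- the periods -/
noncomputable def per (p : Option k) : ℕ := if X.Marked p then 2 * X.n + 1 else 1

theorem per_pos (p : Option k) : 0 < X.per p := by
  unfold per; split_ifs <;> omega

theorem marked_finite : {p | X.Marked p}.Finite := by
  have : {p | X.Marked p} = Set.range (fun s => some (X.z s)) := by
    ext p
    constructor
    · rintro ⟨s, hs⟩; exact ⟨s, hs.symm⟩
    · rintro ⟨s, hs⟩; exact ⟨s, hs.symm⟩
  rw [this]
  exact Set.finite_range _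

theorem per_ae : {p | X.per p ≠ 1}.Finite := by
  refine X.marked_finite.subset ?_
  intro p hp
  by_contra h
  have h' : ¬ X.Marked p := h
  exact hp (if_neg h')

theorem per_marked (s : Fin 3) : X.per (some (X.z s)) = 2 * X.n + 1 := if_pos ⟨s, rfl⟩

theorem per_unmarked {p : Option k} (h : ¬ X.Marked p) : X.per p = 1 := if_neg h

theorem not_marked_none : ¬ X.Marked none := by
  rintro ⟨s, h⟩
  exact Option.some_ne_none _ h.symm

variable (F : Type*) [Field F] [Algebra k[X] F] [IsFractionRing k[X] F]
  [Algebra k F] [IsScalarTower k k[X] F]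

/-- the curve -/
noncomputable def cur [IsAlgClosed k] : Curve k F (Option k) := line k F X.per X.per_pos X.per_ae

theorem cur_pl [IsAlgClosed k] (p : Option k) : (X.cur F).pl p = linePl k F p := rfl

theorem cur_per [IsAlgClosed k] (p : Option k) : (X.cur F).per p = X.per p := rfl

open Classical in
/-- the canonical weight -/
noncomputable def kap (p : Option k) : ℤ := if p = none then -2 else (X.per p : ℤ) - 1

theorem kap_none : X.kap none = -2 := by
  unfold kap; rw [if_pos rfl]

theorem kap_some (a : k) : X.kap (some a) = (X.per (some a) : ℤ) - 1 := by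
  unfold kap; rw [if_neg (Option.some_ne_none a)]

theorem kap_z (s : Fin 3) : X.kap (some (X.z s)) = 2 * X.n := by
  rw [kap_some, per_marked]; push_cast; ring

theorem kap_unmarked {a : k} (h : ¬ X.Marked (some a)) : X.kap (some a) = 0 := by
  rw [kap_some, per_unmarked X h]; simp

theorem dualizing [IsAlgClosed k] : Dualizing (X.cur F) X.kap := by
  have h := exists_dualizing (X.cur F) none (X.per_unmarked X.not_marked_none)
  have h2 : X.kap = (fun p => @ite ℤ (p = none) (Classical.propDecidable _) (-2)
      (((X.cur F).per p : ℤ) - 1)) := by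
    funext p
    rcases p with _ | a
    · rw [kap_none]; simp
    · rw [kap_some]; simp [cur_per]
  rw [h2]
  exact h

open Classical in
/-- the base weight -/
noncomputable def w0 (p : Option k) : ℤ := if X.Marked p then -(X.n : ℤ) else 0

open Classical in
/-- weight of `e_l` -/
noncomputable def wA (p : Option k) (l : J) : ℤ :=
  if p = some (X.z (X.arm l)) then X.n + 1 - X.c l else X.w0 p

open Classical in
/-- weight of `eps_l` -/
noncomputable def wB (p : Option k) (l : J) : ℤ :=
  if p = some (X.z (X.arm l)) then X.c l - X.n else X.w0 p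

variable {F}

/-- constant vectors -/
def cv (F : Type*) [Field F] [Algebra k F] (v : J → k) : J → F := fun j => algebraMap k F (v j)

/-- the generators -/
def gx (F : Type*) [Field F] [Algebra k F] : J ⊕ J ⊕ J → (J → F)
  | Sum.inl l => cv F (Pi.single l (1 : k))
  | Sum.inr (Sum.inl l) => cv F (X.Ω l)
  | Sum.inr (Sum.inr l) => cv F (Pi.single l (1 : k))

/-- the weights of the generators -/
noncomputable def gw (p : Option k) : J ⊕ J ⊕ J → ℤ
  | Sum.inl l => X.wA p l
  | Sum.inr (Sum.inl l) => X.wB p l
  | Sum.inr (Sum.inr _) => X.w0 p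

theorem gw_ae : ∀ᶠ p in Filter.cofinite, ∀ i, X.gw p i = 0 := by
  rw [Filter.eventually_cofinite]
  refine X.marked_finite.subset ?_
  intro p hp
  by_contra h
  have h' : ¬ X.Marked p := h
  apply hp
  have h0 : X.w0 p = 0 := if_neg h'
  have hA : ∀ l, X.wA p l = 0 := fun l => by
    unfold wA
    rw [if_neg (fun h1 => h' ⟨_, h1⟩), h0]
  have hB : ∀ l, X.wB p l = 0 := fun l => by
    unfold wB
    rw [if_neg (fun h1 => h' ⟨_, h1⟩), h0]
  rintro (l | l | l)
  · exact hA l
  · exact hB l
  · exact h0

theorem cv_single (l : J) : cv F (Pi.single l (1 : k)) = Pi.single l (1 : F) := by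
  funext j
  unfold cv
  by_cases h : j = l
  · subst h; simp
  · simp [h]

variable (F)

/-- the basis -/
noncomputable def bs (F J : Type*) [Field F] [Fintype J] : Basis (Fin (Fintype.card J)) F (J → F) :=
  (Pi.basisFun F J).reindex (Fintype.equivFin J)

/-- THE BUNDLE `N` -/
noncomputable def N [IsAlgClosed k] : Bun (X.cur F) (J → F) :=
  genBun (X.cur F) (X.gx F) X.gw X.gw_ae (bs F J) (fun j => by
    refine ⟨Sum.inr (Sum.inr ((Fintype.equivFin J).symm j)), ?_⟩
    show cv F (Pi.single _ (1 : k)) = _
    rw [cv_single]
    unfold bs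
    rw [Basis.reindex_apply, Pi.basisFun_apply])

end NData

end Vale.Agent.P182.H430
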