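import Vale.Agent.P182.H430.NBun

/-!
# The self-duality of the concrete bundle `N`
-/

namespace Vale.Agent.P182.H430

open Polynomial Module

namespace NData

variable {k : Type*} [Field k] {J : Type*} [Fintype J] [DecidableEq J] (X : NData k J)
variable (F : Type*) [Field F] [Algebra k[X] F] [IsFractionRing k[X] F]
  [Algebra k F] [IsScalarTower k k[X] F]

/-- the function `z - z_s` -/
noncomputable def lin (s : Fin 3) : F := algebraMap k[X] F (Polynomial.X - C (X.z s))

theorem lin_ne (s : Fin 3) : X.lin F s ≠ 0 := amap_ne (X_sub_C_ne_zero _)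

theorem lin_diff (s t : Fin 3) :
    X.lin F t = X.lin F s + algebraMap k F (X.z s - X.z t) := by
  unfold lin
  rw [IsScalarTower.algebraMap_apply k k[X] F, ← map_add]
  congr 1
  show _ = _ + C (X.z s - X.z t)
  rw [C_sub]
  ring

theorem ord_lin_self (s : Fin 3) : (linePl k F (some (X.z s))).ord (X.lin F s) = 1 :=
  (linePl k F (some (X.z s))).ord_unif

theorem ord_lin_other (s : Fin 3) {a : k} (h : a ≠ X.z s) :
    (linePl k F (some a)).ord (X.lin F s) = 0 := by
  have h2 : (Polynomial.X - C (X.z s)).rootMultiplicity a = 0 := by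
    apply rootMultiplicity_eq_zero
    rw [IsRoot, eval_sub, eval_X, eval_C]
    exact sub_ne_zero.2 h
  have h3 : (1 : k[X]).rootMultiplicity a = 0 := by
    have := muA_one a
    unfold muA at this
    exact_mod_cast this
  rw [linePl_ord_some a (X.lin_ne F s) one_ne_zero (n := Polynomial.X - C (X.z s))
    (by rw [map_one, mul_one]; rfl), h2, h3]
  simp

theorem ord_lin_none (s : Fin 3) : (linePl k F none).ord (X.lin F s) = -1 := by
  rw [linePl_ord_none (X.lin_ne F s) one_ne_zero (n := Polynomial.X - C (X.z s))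
    (by rw [map_one, mul_one]; rfl)]
  simp

variable {F}

theorem const_mem (p : Option k) (w : ℕ) (c : k) : algebraMap k F c ∈ (linePl k F p).M w 0 := by
  by_cases h : c = 0
  · left; rw [h, map_zero]
  · right
    rw [(linePl k F p).ord_alg c h]
    simp

theorem lin_mem_z (s : Fin 3) (w : ℕ) : X.lin F s ∈ (linePl k F (some (X.z s))).M w w := by
  right
  rw [ord_lin_self]
  simp

theorem lin_mem_fin (s : Fin 3) (w : ℕ) (a : k) : X.lin F s ∈ (linePl k F (some a)).M w 0 := by
  right
  by_cases h : a = X.z s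
  · subst h
    rw [ord_lin_self]
    positivity
  · rw [ord_lin_other X F s h]
    simp

theorem lin_mem_none (s : Fin 3) : X.lin F s ∈ (linePl k F none).M 1 (-1) := by
  right
  rw [ord_lin_none]
  simp

theorem inv_mem_z (s : Fin 3) (w : ℕ) : (X.lin F s)⁻¹ ∈ (linePl k F (some (X.z s))).M w (-w) := by
  right
  rw [Place.ord_inv _ (X.lin_ne F s), ord_lin_self]
  simp

theorem inv_mem_other (s : Fin 3) (w : ℕ) {a : k} (h : a ≠ X.z s) :
    (X.lin F s)⁻¹ ∈ (linePl k F (some a)).M w 0 := by
  right
  rw [Place.ord_inv _ (X.lin_ne F s), ord_lin_other X F s h]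
  simp

theorem inv_mem_none (s : Fin 3) : (X.lin F s)⁻¹ ∈ (linePl k F none).M 1 1 := by
  right
  rw [Place.ord_inv _ (X.lin_ne F s), ord_lin_none]
  simp

/-- the symmetric matrix `Ω'` -/
def Om' : Matrix J J k := fun l m => (X.z (X.arm l) - X.z (X.arm m)) * X.Ω l m

theorem Om'_symm (l m : J) : X.Om' l m = X.Om' m l := by
  unfold Om'
  rw [X.skew m l]
  ring

theorem Om'_transpose : X.Om'.transpose = X.Om' := by
  ext l m
  exact X.Om'_symm m l

/-- its inverse -/
noncomputable def Mi : Matrix J J k := X.Om'⁻¹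

theorem Mi_symm (l m : J) : X.Mi l m = X.Mi m l := by
  have : X.Mi.transpose = X.Mi := by
    unfold Mi
    rw [Matrix.transpose_nonsing_inv, Om'_transpose]
  calc X.Mi l m = X.Mi.transpose m l := rfl
    _ = X.Mi m l := by rw [this]

variable (F)

/-- the matrix of the form -/
noncomputable def Bm (l m : J) : F :=
  X.lin F (X.arm l) * X.lin F (X.arm m) * algebraMap k F (X.Mi l m)

theorem Bm_symm (l m : J) : X.Bm F l m = X.Bm F m l := by
  unfold Bm
  rw [X.Mi_symm l m]
  ring

/-- THE FORM on `N` -/
noncomputable def b : (J → F) →ₗ[F] (J → F) →ₗ[F] F :=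
  LinearMap.mk₂ F (fun x y => ∑ l, ∑ m, x l * y m * X.Bm F l m)
    (fun x x' y => by
      rw [← Finset.sum_add_distrib]
      refine Finset.sum_congr rfl fun l _ => ?_
      rw [← Finset.sum_add_distrib]
      exact Finset.sum_congr rfl fun m _ => by rw [Pi.add_apply]; ring)
    (fun r x y => by
      rw [Finset.smul_sum]
      refine Finset.sum_congr rfl fun l _ => ?_
      rw [Finset.smul_sum]
      exact Finset.sum_congr rfl fun m _ => by
        rw [Pi.smul_apply, smul_eq_mul, smul_eq_mul]; ring)
    (fun x y y' => by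
      rw [← Finset.sum_add_distrib]
      refine Finset.sum_congr rfl fun l _ => ?_
      rw [← Finset.sum_add_distrib]
      exact Finset.sum_congr rfl fun m _ => by rw [Pi.add_apply]; ring)
    (fun r x y => by
      rw [Finset.smul_sum]
      refine Finset.sum_congr rfl fun l _ => ?_
      rw [Finset.smul_sum]
      exact Finset.sum_congr rfl fun m _ => by
        rw [Pi.smul_apply, smul_eq_mul, smul_eq_mul]; ring)

theorem b_apply (x y : J → F) : X.b F x y = ∑ l, ∑ m, x l * y m * X.Bm F l m := rfl

theorem b_symm (x y : J → F) : X.b F x y = X.b F y x := by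
  rw [b_apply, b_apply, Finset.sum_comm]
  refine Finset.sum_congr rfl fun l _ => Finset.sum_congr rfl fun m _ => ?_
  rw [X.Bm_symm F m l]
  ring

variable {F}

/-- (K2) -/
theorem b_single (l : J) (y : J → F) : X.b F (cv F (Pi.single l (1 : k))) y =
    X.lin F (X.arm l) * ∑ m, algebraMap k F (X.Mi l m) * X.lin F (X.arm m) * y m := by
  rw [b_apply, Finset.sum_eq_single l]
  · rw [Finset.mul_sum]
    refine Finset.sum_congr rfl fun m _ => ?_
    unfold Bm cv
    rw [Pi.single_eq_same, map_one]
    ring
  · intro j _ hj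
    refine Finset.sum_eq_zero fun m _ => ?_
    unfold cv
    rw [Pi.single_eq_of_ne hj, map_zero]
    ring
  · intro h; exact absurd (Finset.mem_univ _) h

/-- (K1) -/
theorem b_eps (hdet : IsUnit X.Om'.det) (l : J) (y : J → F) : X.b F (cv F (X.Ω l)) y =
    X.lin F (X.arm l) * ((∑ m, algebraMap k F ((X.Ω * X.Mi) l m) * X.lin F (X.arm m) * y m) +
      y l) := by
  have hM : X.Om' * X.Mi = 1 := Matrix.mul_nonsing_inv _ hdet
  have h1 : ∀ m, ∑ j, algebraMap k F (X.Ω l j) * X.lin F (X.arm j) * algebraMap k F (X.Mi j m) =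
      X.lin F (X.arm l) * algebraMap k F ((X.Ω * X.Mi) l m) +
        algebraMap k F ((1 : Matrix J J k) l m) := by
    intro m
    rw [← hM, Matrix.mul_apply, Matrix.mul_apply, map_sum, map_sum, Finset.mul_sum,
      ← Finset.sum_add_distrib]
    refine Finset.sum_congr rfl fun j _ => ?_
    rw [X.lin_diff F (X.arm l) (X.arm j)]
    unfold Om'
    rw [map_mul, map_mul, map_mul]
    ring
  have h2 : X.b F (cv F (X.Ω l)) y = ∑ m, y m * X.lin F (X.arm m) *
      ∑ j, algebraMap k F (X.Ω l j) * X.lin F (X.arm j) * algebraMap k F (X.Mi j m) := by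
    rw [b_apply, Finset.sum_comm]
    refine Finset.sum_congr rfl fun m _ => ?_
    rw [Finset.mul_sum]
    refine Finset.sum_congr rfl fun j _ => ?_
    unfold Bm cv
    ring
  rw [h2]
  simp only [h1]
  have h3 : ∑ m, y m * X.lin F (X.arm m) * algebraMap k F ((1 : Matrix J J k) l m) =
      X.lin F (X.arm l) * y l := by
    rw [Finset.sum_eq_single l]
    · rw [Matrix.one_apply_eq, map_one]; ring
    · intro m _ hm
      rw [Matrix.one_apply_ne (Ne.symm hm), map_zero, mul_zero]
    · intro h; exact absurd (Finset.mem_univ _) h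
  rw [mul_add, ← h3, Finset.mul_sum, ← Finset.sum_add_distrib]
  refine Finset.sum_congr rfl fun m _ => ?_
  ring

end NData

end Vale.Agent.P182.H430
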