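import Vale.Agent.P182.H430.NForm

/-!
# Integrality of the form and of its inverse; self-duality of `N`
-/

namespace Vale.Agent.P182.H430

open Polynomial Module

namespace NData

variable {k : Type*} [Field k] {J : Type*} [Fintype J] [DecidableEq J] (X : NData k J)
variable {F : Type*} [Field F] [Algebra k[X] F] [IsFractionRing k[X] F]
  [Algebra k F] [IsScalarTower k k[X] F]

theorem mul3_mem {Q : Place k F} {w : ℕ} {a b c d : ℤ} {f g h : F} (hf : f ∈ Q.M w a)
    (hg : g ∈ Q.M w b) (hh : h ∈ Q.M w c) (hd : d ≤ a + b + c) : f * g * h ∈ Q.M w d :=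
  Q.M_anti hd (Q.mul_mem_M (Q.mul_mem_M hf hg) hh)

/-- constants pair to regular functions at finite places -/
theorem b_cc (w : ℕ) (a : k) (v v' : J → k) :
    X.b F (cv F v) (cv F v') ∈ (linePl k F (some a)).M w 0 := by
  rw [b_apply]
  refine Submodule.sum_mem _ fun l _ => Submodule.sum_mem _ fun m _ => ?_
  unfold Bm cv
  exact mul3_mem (const_mem _ w _) (const_mem _ w _)
    (mul3_mem (X.lin_mem_fin _ w a) (X.lin_mem_fin _ w a) (const_mem _ w _) le_rfl) (by simp)

theorem b_cc_none (v v' : J → k) :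
    X.b F (cv F v) (cv F v') ∈ (linePl k F none).M 1 (-2) := by
  rw [b_apply]
  refine Submodule.sum_mem _ fun l _ => Submodule.sum_mem _ fun m _ => ?_
  unfold Bm cv
  exact mul3_mem (const_mem _ 1 _) (const_mem _ 1 _)
    (mul3_mem (X.lin_mem_none _) (X.lin_mem_none _) (const_mem _ 1 _) le_rfl) (by norm_num)

/-- the regular factor in (K2) -/
theorem sum_reg (w : ℕ) (a : k) (r : J → k) (v : J → k) :
    ∑ m, algebraMap k F (r m) * X.lin F (X.arm m) * cv F v m ∈
      (linePl k F (some a)).M w 0 := by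
  refine Submodule.sum_mem _ fun m _ => ?_
  exact mul3_mem (const_mem _ w _) (X.lin_mem_fin _ w a) (const_mem _ w _) (by simp)

/-- `e_l` against constants, at the arm of `l` -/
theorem b_ec (w : ℕ) (l : J) (v : J → k) :
    X.b F (cv F (Pi.single l (1 : k))) (cv F v) ∈
      (linePl k F (some (X.z (X.arm l)))).M w w := by
  rw [b_single]
  exact (Place.M_anti _ (by simp))
    (Place.mul_mem_M _ (X.lin_mem_z (F := F) (X.arm l) w) (X.sum_reg w _ _ v))

/-- `eps_l` against constants, at the arm of `l` -/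
theorem b_pc (hdet : IsUnit X.Om'.det) (w : ℕ) (l : J) (v : J → k) :
    X.b F (cv F (X.Ω l)) (cv F v) ∈ (linePl k F (some (X.z (X.arm l)))).M w w := by
  rw [X.b_eps hdet]
  refine (Place.M_anti _ (by simp)) (Place.mul_mem_M _ (X.lin_mem_z (F := F) (X.arm l) w)
    (Submodule.add_mem _ (X.sum_reg w _ _ v) ?_))
  exact const_mem _ w _

/-- `e_l` against `e_m`, same arm -/
theorem b_ee (w : ℕ) (l m : J) (hlm : X.arm m = X.arm l) :
    X.b F (cv F (Pi.single l (1 : k))) (cv F (Pi.single m (1 : k))) ∈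
      (linePl k F (some (X.z (X.arm l)))).M w (w + w) := by
  rw [b_single]
  refine Place.mul_mem_M _ (X.lin_mem_z (F := F) (X.arm l) w) ?_
  refine Submodule.sum_mem _ fun j _ => ?_
  by_cases hj : j = m
  · subst hj
    rw [hlm]
    exact mul3_mem (const_mem _ w _) (X.lin_mem_z (X.arm l) w) (const_mem _ w _) (by simp)
  · have : cv F (Pi.single m (1 : k)) j = 0 := by
      unfold cv; rw [Pi.single_eq_of_ne hj, map_zero]
    rw [this, mul_zero]
    exact Submodule.zero_mem _

/-- `eps_l` against `e_m`, same arm, `l ≠ m` -/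
theorem b_pe (hdet : IsUnit X.Om'.det) (w : ℕ) (l m : J) (hlm : X.arm m = X.arm l) (hne : l ≠ m) :
    X.b F (cv F (X.Ω l)) (cv F (Pi.single m (1 : k))) ∈
      (linePl k F (some (X.z (X.arm l)))).M w (w + w) := by
  rw [X.b_eps hdet]
  refine Place.mul_mem_M _ (X.lin_mem_z (F := F) (X.arm l) w) ?_
  refine Submodule.add_mem _ (Submodule.sum_mem _ fun j _ => ?_) ?_
  · by_cases hj : j = m
    · subst hj
      rw [hlm]
      exact mul3_mem (const_mem _ w _) (X.lin_mem_z (X.arm l) w) (const_mem _ w _) (by simp)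
    · have : cv F (Pi.single m (1 : k)) j = 0 := by
        unfold cv; rw [Pi.single_eq_of_ne hj, map_zero]
      rw [this, mul_zero]
      exact Submodule.zero_mem _
  · have : cv F (Pi.single m (1 : k)) l = 0 := by
      unfold cv; rw [Pi.single_eq_of_ne hne, map_zero]
    rw [this]
    exact Submodule.zero_mem _

theorem w0_none : X.w0 none = 0 := if_neg X.not_marked_none

theorem wA_none (l : J) : X.wA none l = 0 := by
  unfold wA; rw [if_neg (by simp), w0_none]

theorem wB_none (l : J) : X.wB none l = 0 := by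
  unfold wB; rw [if_neg (by simp), w0_none]

theorem w0_unmarked {a : k} (h : ¬ X.Marked (some a)) : X.w0 (some a) = 0 := if_neg h

theorem wA_unmarked {a : k} (h : ¬ X.Marked (some a)) (l : J) : X.wA (some a) l = 0 := by
  unfold wA
  rw [if_neg (fun h1 => h ⟨_, h1⟩), w0_unmarked X h]

theorem wB_unmarked {a : k} (h : ¬ X.Marked (some a)) (l : J) : X.wB (some a) l = 0 := by
  unfold wB
  rw [if_neg (fun h1 => h ⟨_, h1⟩), w0_unmarked X h]

theorem w0_z (s : Fin 3) : X.w0 (some (X.z s)) = -X.n := if_pos ⟨s, rfl⟩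

theorem wA_z (l : J) : X.wA (some (X.z (X.arm l))) l = X.n + 1 - X.c l := if_pos rfl

theorem wB_z (l : J) : X.wB (some (X.z (X.arm l))) l = X.c l - X.n := if_pos rfl

theorem wA_other (s : Fin 3) {l : J} (h : X.arm l ≠ s) : X.wA (some (X.z s)) l = -X.n := by
  unfold wA
  rw [if_neg, w0_z]
  intro h1
  exact h (X.hz (Option.some_injective _ h1).symm)

theorem wB_other (s : Fin 3) {l : J} (h : X.arm l ≠ s) : X.wB (some (X.z s)) l = -X.n := by
  unfold wB
  rw [if_neg, w0_z]
  intro h1
  exact h (X.hz (Option.some_injective _ h1).symm)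

theorem gw_none (i : J ⊕ J ⊕ J) : X.gw none i = 0 := by
  rcases i with l | l | l
  · exact X.wA_none l
  · exact X.wB_none l
  · exact X.w0_none

theorem gw_unmarked {a : k} (h : ¬ X.Marked (some a)) (i : J ⊕ J ⊕ J) : X.gw (some a) i = 0 := by
  rcases i with l | l | l
  · exact X.wA_unmarked h l
  · exact X.wB_unmarked h l
  · exact X.w0_unmarked h

theorem gx_cv (i : J ⊕ J ⊕ J) : ∃ v : J → k, X.gx F i = cv F v := by
  rcases i with l | l | l
  · exact ⟨_, rfl⟩
  · exact ⟨_, rfl⟩
  · exact ⟨_, rfl⟩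

/-- classification of the generators at a marked place -/
theorem gen_cases (s : Fin 3) (i : J ⊕ J ⊕ J) :
    (∃ l, X.arm l = s ∧ X.gx F i = cv F (Pi.single l (1 : k)) ∧
        X.gw (some (X.z s)) i = X.n + 1 - X.c l) ∨
      (∃ l, X.arm l = s ∧ X.gx F i = cv F (X.Ω l) ∧ X.gw (some (X.z s)) i = X.c l - X.n) ∨
      (∃ v : J → k, X.gx F i = cv F v ∧ X.gw (some (X.z s)) i = -X.n) := by
  rcases i with l | l | l
  · by_cases h : X.arm l = s
    · subst h
      exact Or.inl ⟨l, rfl, rfl, X.wA_z l⟩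
    · exact Or.inr (Or.inr ⟨_, rfl, X.wA_other s h⟩)
  · by_cases h : X.arm l = s
    · subst h
      exact Or.inr (Or.inl ⟨l, rfl, rfl, X.wB_z l⟩)
    · exact Or.inr (Or.inr ⟨_, rfl, X.wB_other s h⟩)
  · exact Or.inr (Or.inr ⟨_, rfl, X.w0_z s⟩)

/-- INTEGRALITY of the form on the generators -/
theorem b_gen (hdet : IsUnit X.Om'.det) (p : Option k) (i j : J ⊕ J ⊕ J) :
    X.b F (X.gx F i) (X.gx F j) ∈ (linePl k F p).M (X.per p) (X.gw p i + X.gw p j + X.kap p) := by
  rcases p with _ | a
  · obtain ⟨v, hv⟩ := X.gx_cv (F := F) i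
    obtain ⟨v', hv'⟩ := X.gx_cv (F := F) j
    rw [hv, hv', gw_none, gw_none, kap_none, per_unmarked X X.not_marked_none]
    exact Place.M_anti _ (by norm_num) (X.b_cc_none v v')
  by_cases hm : X.Marked (some a)
  · obtain ⟨s, hs⟩ := hm
    rw [hs, per_marked, kap_z]
    have hB : ∀ l m, X.arm l = s → X.arm m = s →
        X.b F (cv F (X.Ω l)) (cv F (Pi.single m (1 : k))) ∈
          (linePl k F (some (X.z s))).M (2 * X.n + 1)
            ((X.c l - X.n) + (X.n + 1 - X.c m) + 2 * X.n) := by
      intro l m hl hm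
      have h1 := X.hcn l
      have h2 := X.hc1 m
      by_cases hlm : l = m
      · subst hlm
        have := X.b_pc (F := F) hdet (2 * X.n + 1) l (Pi.single l 1)
        rw [hl] at this
        exact Place.M_anti _ (by push_cast; omega) this
      · have := X.b_pe (F := F) hdet (2 * X.n + 1) l m (hm.trans hl.symm) hlm
        rw [hl] at this
        exact Place.M_anti _ (by push_cast; omega) this
    rcases X.gen_cases (F := F) s i with ⟨l, hl, hx, hw⟩ | ⟨l, hl, hx, hw⟩ | ⟨v, hx, hw⟩ <;>
      rcases X.gen_cases (F := F) s j with ⟨m, hm, hy, hw'⟩ | ⟨m, hm, hy, hw'⟩ | ⟨v', hy, hw'⟩ <;>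
      rw [hx, hy, hw, hw']
    · have h1 := X.hc1 l
      have h2 := X.hc1 m
      have := X.b_ee (F := F) (2 * X.n + 1) l m (hm.trans hl.symm)
      rw [hl] at this
      exact Place.M_anti _ (by push_cast; omega) this
    · rw [b_symm]
      exact Place.M_anti _ (by linarith) (hB m l hm hl)
    · have h1 := X.hc1 l
      have := X.b_ec (F := F) (2 * X.n + 1) l v'
      rw [hl] at this
      exact Place.M_anti _ (by push_cast; omega) this
    · exact hB l m hl hm
    · have h1 := X.hcn l
      have h2 := X.hcn m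
      have := X.b_pc (F := F) hdet (2 * X.n + 1) l (X.Ω m)
      rw [hl] at this
      exact Place.M_anti _ (by push_cast; omega) this
    · have h1 := X.hcn l
      have := X.b_pc (F := F) hdet (2 * X.n + 1) l v'
      rw [hl] at this
      exact Place.M_anti _ (by push_cast; omega) this
    · rw [b_symm]
      have h1 := X.hc1 m
      have := X.b_ec (F := F) (2 * X.n + 1) m v
      rw [hm] at this
      exact Place.M_anti _ (by push_cast; omega) this
    · rw [b_symm]
      have h1 := X.hcn m
      have := X.b_pc (F := F) hdet (2 * X.n + 1) m v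
      rw [hm] at this
      exact Place.M_anti _ (by push_cast; omega) this
    · exact Place.M_anti _ (by linarith) (X.b_cc (2 * X.n + 1) _ v v')
  · obtain ⟨v, hv⟩ := X.gx_cv (F := F) i
    obtain ⟨v', hv'⟩ := X.gx_cv (F := F) j
    rw [hv, hv', gw_unmarked X hm, gw_unmarked X hm, kap_unmarked X hm]
    exact Place.M_anti _ (by norm_num) (X.b_cc _ a v v')

end NData

end Vale.Agent.P182.H430
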