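import Vale.Agent.P182.H430.NVers

/-!
# The Kodaira–Spencer pairing on the concrete bundle `N`
-/

namespace Vale.Agent.P182.H430

open Polynomial Module

namespace NData

variable {k : Type*} [Field k] {J : Type*} [Fintype J] [DecidableEq J] (X : NData k J)
variable {F : Type*} [Field F] [Algebra k[X] F] [IsFractionRing k[X] F]
  [Algebra k F] [IsScalarTower k k[X] F]

section closed

variable [IsAlgClosed k]

omit [DecidableEq J] in
/-- a regular function vanishing at infinity is zero -/
theorem reg_zero {f : F} (h : ∀ a : k, f ∈ (linePl k F (some a)).M 1 0)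
    (h1 : f ∈ (linePl k F none).M 1 1) : f = 0 := by
  obtain ⟨c, hc⟩ := line_H0 (k := k) f (fun p => by
    rcases p with _ | a
    · exact Place.M_anti _ (by norm_num) h1
    · exact h a)
  by_contra hf
  have hc0 : c ≠ 0 := by
    rintro rfl
    exact hf (by rw [← hc, map_zero])
  rw [Place.mem_M_of_ne _ hf, ← hc, (linePl k F none).ord_alg c hc0] at h1
  norm_num at h1

/-- THE RESIDUE THEOREM, for simple poles at the marked points -/
theorem res_sum (g : Fin 3 → k) (G : F)
    (h1 : ∀ a : k, ¬ X.Marked (some a) → G ∈ (linePl k F (some a)).M 1 0)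
    (h2 : G ∈ (linePl k F none).M 1 2)
    (h3 : ∀ s, G + algebraMap k F (g s) * (X.lin F s)⁻¹ ∈ (linePl k F (some (X.z s))).M 1 0) :
    ∑ s, g s = 0 := by
  have hreg : ∀ (c : k) s (a : k), a ≠ X.z s →
      algebraMap k F c * (X.lin F s)⁻¹ ∈ (linePl k F (some a)).M 1 0 := fun c s a ha =>
    Place.M_anti _ (by norm_num) (Place.mul_mem_M _ (const_mem _ 1 c) (X.inv_mem_other s 1 ha))
  have hinf : ∀ (c : k) s, algebraMap k F c * (X.lin F s)⁻¹ ∈ (linePl k F none).M 1 1 :=
    fun c s => Place.M_anti _ (by norm_num) (Place.mul_mem_M _ (const_mem _ 1 c)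
      (X.inv_mem_none s))
  have h4 : G + ∑ s, algebraMap k F (g s) * (X.lin F s)⁻¹ = 0 := by
    apply reg_zero (k := k)
    · intro a
      by_cases hm : X.Marked (some a)
      · obtain ⟨s, hs⟩ := hm
        obtain rfl : a = X.z s := Option.some_injective _ hs
        rw [← Finset.add_sum_erase _ _ (Finset.mem_univ s), ← add_assoc]
        refine Submodule.add_mem _ (h3 s) (Submodule.sum_mem _ fun t ht => ?_)
        exact hreg _ _ _ (fun h => (Finset.ne_of_mem_erase ht) (X.hz h).symm)
      · refine Submodule.add_mem _ (h1 a hm) (Submodule.sum_mem _ fun s _ => ?_)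
        exact hreg _ _ _ (fun h => hm ⟨s, by rw [h]⟩)
    · exact Submodule.add_mem _ (Place.M_anti _ (by norm_num) h2)
        (Submodule.sum_mem _ fun s _ => hinf _ _)
  have h5 : algebraMap k F (∑ s, g s) = -(X.lin F 0 * G) -
      ∑ s, algebraMap k F (g s * (X.z s - X.z 0)) * (X.lin F s)⁻¹ := by
    have e1 : G = -∑ s, algebraMap k F (g s) * (X.lin F s)⁻¹ := eq_neg_of_add_eq_zero_left h4
    rw [e1, mul_neg, neg_neg, Finset.mul_sum, ← Finset.sum_sub_distrib, map_sum]
    refine Finset.sum_congr rfl fun s _ => ?_
    rw [X.lin_diff F s 0, map_mul]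
    have := X.lin_ne F s
    field_simp
    ring
  have h6 : algebraMap k F (∑ s, g s) ∈ (linePl k F none).M 1 1 := by
    rw [h5]
    refine Submodule.sub_mem _ (Submodule.neg_mem _ ?_) (Submodule.sum_mem _ fun s _ => hinf _ _)
    exact Place.M_anti _ (by norm_num) (Place.mul_mem_M _ (X.lin_mem_none 0) h2)
  have h7 := reg_zero (k := k) (f := algebraMap k F (∑ s, g s)) (fun a => const_mem _ 1 _) h6
  have h8 : Function.Injective (algebraMap k F) := (algebraMap k F).injective
  exact (map_eq_zero_iff _ h8).1 h7

omit [IsAlgClosed k] in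
theorem M_marked (s : Fin 3) : (linePl k F (some (X.z s))).M (X.per (some (X.z s)))
    (-(2 * X.n : ℤ)) = (linePl k F (some (X.z s))).M 1 0 := by
  rw [M_eq _ (X.per_pos _), per_marked]
  have : (2 * X.n : ℤ) / ((2 * X.n + 1 : ℕ) : ℤ) = 0 := by
    apply Int.ediv_eq_zero_of_lt
    · positivity
    · push_cast; omega
  rw [this, neg_zero]

/-- the constants of a Higgs field -/
theorem exists_psi (hdet : IsUnit X.Om'.det) {Y : (J → F) →ₗ[F] (J → F)}
    (hY : ∀ p, Y ∈ (((X.N' F).hom (X.N' F)).ch p).L (-X.kap p)) (v v' : J → k) :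
    ∃ c : k, X.b F (Y (cv F v)) (cv F v') = algebraMap k F c := by
  have h : ∀ p, X.b F (Y (cv F v)) (cv F v') ∈ (linePl k F p).M 1 0 := by
    intro p
    have h1 := (X.hom_N'.1 (hY p)) _ _ (X.const_mem_N (F := F) p v)
    have h2 := X.b_mem hdet p h1 (X.const_mem_N (F := F) p v')
    rcases p with _ | q
    · rw [per_unmarked X X.not_marked_none, w0_none] at h2
      exact Place.M_anti _ (by linarith) h2
    by_cases hm : X.Marked (some q)
    · obtain ⟨s, hs⟩ := hm
      obtain rfl : q = X.z s := Option.some_injective _ hs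
      rw [← M_marked]
      rw [w0_z] at h2
      exact Place.M_anti _ (by linarith) h2
    · rw [per_unmarked X hm, w0_unmarked X hm] at h2
      exact Place.M_anti _ (by linarith) h2
  obtain ⟨c, hc⟩ := line_H0 (k := k) _ h
  exact ⟨c, hc.symm⟩

omit [IsAlgClosed k] in
theorem trace_Ys (d : Ders X) (s : Fin 3) (Y : (J → F) →ₗ[F] (J → F)) :
    LinearMap.trace F (J → F) (Y * X.Ys F d s) =
      ∑ l, if X.arm l = s then
        (X.lin F s)⁻¹ * X.b F (cv F (Pi.single l (1 : k))) (Y (X.vv F d l)) else 0 := by
  classical
  unfold Ys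
  rw [Finset.mul_sum, map_sum]
  refine Finset.sum_congr rfl fun l _ => ?_
  by_cases h : X.arm l = s
  · rw [if_pos h, if_pos h]
    have h1 : Y * ((X.lin F s)⁻¹ • X.b F (cv F (Pi.single l (1 : k)))).smulRight (X.vv F d l) =
        ((X.lin F s)⁻¹ • X.b F (cv F (Pi.single l (1 : k)))).smulRight (Y (X.vv F d l)) := by
      apply LinearMap.ext
      intro x
      rw [Module.End.mul_apply, LinearMap.smulRight_apply, LinearMap.smulRight_apply, map_smul]
    rw [h1, LinearMap.trace_smulRight]
    rfl
  · rw [if_neg h, if_neg h, mul_zero, map_zero]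

/-- the versality hypothesis on the matrix `Ω` -/
def VersΩ : Prop := ∀ η : J → J → k, (∀ l m, η l m = -η m l) →
  ∃ d : Ders X, ∀ l m, d.1 (X.Ω l m) = η l m

/-- THE BUNDLE `N` IS VERSAL -/
noncomputable def vers (hdet : IsUnit X.Om'.det) (h2 : (2 : k) ≠ 0) (hΩ : X.VersΩ) :
    H578.Vers (X.N' F) (X.b F) X.kap (Ders X) where
  δ := X.dF F
  D := X.Dp F
  conn := X.Dp_conn
  comm := X.comm_mem hdet
  vers := by
    intro Y hYa hY hD
    have hYs : ∀ x y, X.b F (Y x) y = -X.b F x (Y y) := fun x y => by
      rw [hYa x y, neg_one_mul]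
    choose ψ hψ using fun l m : J => X.exists_psi hdet hY (Pi.single l (1 : k)) (Pi.single m (1 : k))
    have key : ∀ η : J → J → k, (∀ l m, η l m = -η m l) → ∑ l, ∑ m, η l m * ψ l m = 0 := by
      intro η hη
      obtain ⟨d, hd⟩ := hΩ η hη
      obtain ⟨D0, h0, -, hI⟩ := hD d
      set G : F := LinearMap.trace F (J → F) (Y * H578.diffL (X.Dc_conn d) h0) with hG
      have hdiff : ∀ p, LinearMap.trace F (J → F) (Y * H578.diffL (X.Dp_conn d p) h0) =
          G - LinearMap.trace F (J → F) (Y * X.Yp F d p) := by
        intro p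
        rw [hG, ← map_sub, ← mul_sub]
        congr 2
        apply LinearMap.ext
        intro x
        show X.Dc F d x - X.Yp F d p x - D0 x = X.Dc F d x - D0 x - X.Yp F d p x
        abel
      have hI' : ∀ p, G - LinearMap.trace F (J → F) (Y * X.Yp F d p) ∈
          (linePl k F p).M (X.per p) (-X.kap p) := fun p => by
        rw [← hdiff]
        exact hI p
      have hψv : ∀ l, X.b F (cv F (Pi.single l (1 : k))) (Y (X.vv F d l)) =
          -algebraMap k F (∑ m, η l m * ψ l m) := by
        intro l
        have e1 := hYs (cv F (Pi.single l (1 : k))) (X.vv F d l)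
        have e2 : X.vv F d l = ∑ m, algebraMap k F (η l m) • ev (k := k) F m := by
          unfold vv
          rw [cv_eq_sum]
          exact Finset.sum_congr rfl fun m _ => by rw [hd]
        have e3 : X.b F (Y (cv F (Pi.single l (1 : k)))) (X.vv F d l) =
            algebraMap k F (∑ m, η l m * ψ l m) := by
          rw [e2, map_sum, map_sum]
          refine Finset.sum_congr rfl fun m _ => ?_
          rw [map_smul, smul_eq_mul, map_mul, ← hψ]
          rfl
        rw [e3] at e1
        rw [e1, neg_neg]
      have h3 := X.res_sum (F := F) (fun s => ∑ l, if X.arm l = s then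
          ∑ m, η l m * ψ l m else 0) G ?_ ?_ ?_
      · rw [Finset.sum_comm] at h3
        have h4 : ∀ l, ∑ s, (if X.arm l = s then ∑ m, η l m * ψ l m else 0) =
            ∑ m, η l m * ψ l m := by
          intro l
          rw [Finset.sum_ite_eq]
          simp
        simpa only [h4] using h3
      · intro a ha
        have := hI' (some a)
        rw [Yp_unmarked X d ha, mul_zero, map_zero, sub_zero, kap_unmarked X ha,
          per_unmarked X ha, neg_zero] at this
        exact this
      · have := hI' none
        rw [Yp_unmarked X d X.not_marked_none, mul_zero, map_zero, sub_zero, kap_none,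
          per_unmarked X X.not_marked_none, neg_neg] at this
        exact this
      · intro s
        have := hI' (some (X.z s))
        rw [Yp_z, kap_z, M_marked, trace_Ys] at this
        convert this using 1
        rw [sub_eq_add_neg]
        congr 1
        rw [map_sum, Finset.sum_mul, ← Finset.sum_neg_distrib]
        refine Finset.sum_congr rfl fun l _ => ?_
        by_cases hl : X.arm l = s
        · rw [if_pos hl, if_pos hl, hψv]
          ring
        · rw [if_neg hl, if_neg hl]
          simp
    have hskew : ∀ l m, ψ l m = -ψ m l := by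
      intro l m
      have hinj : Function.Injective (algebraMap k F) := (algebraMap k F).injective
      apply hinj
      rw [map_neg, ← hψ, ← hψ, hYs, b_symm]
    have hz : ∀ a b, ψ a b = 0 := by
      intro a b
      by_cases hab : a = b
      · subst hab
        have := hskew a a
        have h3 : (2 : k) * ψ a a = 0 := by
          linear_combination this
        exact (mul_eq_zero.1 h3).resolve_left h2
      have h3 := key (fun l m => if l = a ∧ m = b then 1 else if l = b ∧ m = a then -1 else 0) (by
        intro l m
        by_cases h1 : l = a ∧ m = b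
        · obtain ⟨rfl, rfl⟩ := h1
          have h4 : ¬ (m = l ∧ l = m) := fun h => hab h.2
          simp [h4]
        · by_cases h4 : l = b ∧ m = a
          · obtain ⟨rfl, rfl⟩ := h4
            simp [hab]
          · have h5 : ¬ (m = a ∧ l = b) := fun h => h4 ⟨h.2, h.1⟩
            have h6 : ¬ (m = b ∧ l = a) := fun h => h1 ⟨h.2, h.1⟩
            simp [h1, h4, h5, h6])
      rw [Finset.sum_eq_add a b hab] at h3
      · rw [Finset.sum_eq_single b, Finset.sum_eq_single a] at h3
        · simp only [and_self, if_true, hab, if_false, Ne.symm hab] at h3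
          rw [hskew b a] at h3
          have h4 : (2 : k) * ψ a b = 0 := by linear_combination h3
          exact (mul_eq_zero.1 h4).resolve_left h2
        · intro c _ hc
          simp [hc, Ne.symm hab]
        · intro h; exact absurd (Finset.mem_univ _) h
        · intro c _ hc
          simp [hc, hab]
        · intro h; exact absurd (Finset.mem_univ _) h
      · rintro l _ ⟨h1, h4⟩
        refine Finset.sum_eq_zero fun m _ => ?_
        simp [h1, h4]
      · intro h; exact absurd (Finset.mem_univ _) h
      · intro h; exact absurd (Finset.mem_univ _) h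
    apply LinearMap.ext
    intro x
    rw [LinearMap.zero_apply]
    apply X.b_nondeg hdet
    intro y
    have e1 : Y x = ∑ l, x l • Y (ev (k := k) F l) := by
      conv_lhs => rw [sum_ev (k := k) x, map_sum]
      exact Finset.sum_congr rfl fun l _ => by rw [map_smul]
    have e2 : y = ∑ m, y m • ev (k := k) F m := sum_ev (k := k) y
    rw [e1, e2, map_sum]
    refine Finset.sum_eq_zero fun m _ => ?_
    rw [map_sum, LinearMap.sum_apply]
    refine Finset.sum_eq_zero fun l _ => ?_
    rw [map_smul, map_smul, LinearMap.smul_apply]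
    have h5 : X.b F (Y (ev (k := k) F l)) (ev (k := k) F m) = 0 := by
      have h6 := hψ l m
      rw [hz, map_zero] at h6
      exact h6
    rw [h5, smul_zero, smul_zero]

end closed

end NData

end Vale.Agent.P182.H430
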