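import Vale.Agent.P182.H430.NConst

/-!
# Construction of the data of `N` from a versal matrix `Ω`
-/

namespace Vale.Agent.P182.H430

open Polynomial Module Matrix

/-- an additive Leibniz map is a derivation -/
def derOf {k : Type*} [Field k] (d : k →+ k) (h : ∀ a b, d (a * b) = d a * b + a * d b) :
    Derivation ℤ k k :=
  Derivation.mk' d.toIntLinearMap (fun a b => by
    show d (a * b) = a • d b + b • d a
    rw [h, smul_eq_mul, smul_eq_mul]
    ring)

theorem derOf_apply {k : Type*} [Field k] (d : k →+ k)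
    (h : ∀ a b, d (a * b) = d a * b + a * d b) (x : k) : derOf d h x = d x := rfl

namespace NData

variable {k : Type*} [Field k] [CharZero k] {J : Type*} [Fintype J]

/-- the data of `N`, with the points `0, 1, 2` -/
def mk0 (n : ℕ) (arm : J → Fin 3) (c : J → ℕ) (hc1 : ∀ l, 1 ≤ c l) (hcn : ∀ l, c l ≤ n)
    (Ω : Matrix J J k) (skew : Ωᵀ = -Ω) : NData k J where
  n := n
  z s := ((s : ℕ) : k)
  hz s t h := by
    have h1 : ((s : ℕ) : k) = ((t : ℕ) : k) := h
    exact Fin.ext (Nat.cast_injective h1)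
  arm := arm
  c := c
  hc1 := hc1
  hcn := hcn
  Ω := Ω
  skew l m := by
    have := congrFun (congrFun skew m) l
    simpa using this

/-- versality of the data -/
theorem versΩ_mk0 {n : ℕ} {arm : J → Fin 3} {c : J → ℕ} {hc1 : ∀ l, 1 ≤ c l}
    {hcn : ∀ l, c l ≤ n} {Ω : Matrix J J k} {skew : Ωᵀ = -Ω}
    (h : ∀ η : Matrix J J k, ηᵀ = -η → ∃ d : k →+ k, (∀ a b, d (a * b) = d a * b + a * d b) ∧
      ∀ l m, d (Ω l m) = η l m) : (mk0 n arm c hc1 hcn Ω skew).VersΩ := by
  intro η hη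
  obtain ⟨d, hd, hd2⟩ := h (Matrix.of η) (by
    ext l m
    show η m l = -η l m
    exact hη m l)
  refine ⟨⟨derOf d hd, fun s => ?_⟩, fun l m => hd2 l m⟩
  show (derOf d hd) (((s : ℕ) : k)) = 0
  exact Derivation.map_natCast _ _

/-- **N1, constants form**, for a versal skew matrix over an algebraically closed field of
characteristic zero. -/
theorem N1_versal [DecidableEq J] [IsAlgClosed k] {arm : J → Fin 3} {c : J → ℕ}
    (hc1 : ∀ l, 1 ≤ c l) {Ω : Matrix J J k} (skew : Ωᵀ = -Ω)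
    (hΩ : ∀ η : Matrix J J k, ηᵀ = -η → ∃ d : k →+ k, (∀ a b, d (a * b) = d a * b + a * d b) ∧
      ∀ l m, d (Ω l m) = η l m)
    (hJ : ∀ s, 2 * Fintype.card {l // arm l = s} ≤ Fintype.card J)
    {F : Type*} [Field F] [Algebra k[X] F] [IsFractionRing k[X] F]
    [Algebra k F] [IsScalarTower k k[X] F]
    {g : Matrix J J k} (hg : gᵀ = g)
    (h0 : ∀ l m, arm l = arm m → g l m = 0)
    (h1 : ∀ l m, arm l = arm m → c l ≤ c m → ∑ j, g l j * Ω m j = 0)
    (hn : IsNilpotent ((Matrix.of fun l m => algebraMap k F (Ω l m) *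
      ((algebraMap k[X] F (X - C (((arm l : Fin 3) : ℕ) : k)))⁻¹ -
        (algebraMap k[X] F (X - C (((arm m : Fin 3) : ℕ) : k)))⁻¹)) *
      g.map (algebraMap k F))) : g = 0 := by
  obtain ⟨n, hcn⟩ : ∃ n, ∀ l, c l ≤ n :=
    ⟨∑ l, c l, fun l => Finset.single_le_sum (fun _ _ => Nat.zero_le _) (Finset.mem_univ l)⟩
  let Y : NData k J := mk0 n arm c hc1 hcn Ω skew
  have hV : Y.VersΩ := versΩ_mk0 hΩ
  have hdet : IsUnit Y.Om'.det := Y.det_unit two_ne_zero hV hJ
  refine Y.N1_const (F := F) hdet two_ne_zero hV (fun l m => ?_) h0 h1 ?_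
  · have := congrFun (congrFun hg m) l
    simpa using this
  · convert hn using 2
    ext l m
    rw [GG_eq]
    rfl

end NData

end Vale.Agent.P182.H430
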