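import Vale.Agent.P182.H430.NDual
import Vale.Agent.P182.H430.Der
import Vale.Agent.P182.H578.N1

/-!
# Versality of the concrete bundle `N`
-/

namespace Vale.Agent.P182.H430

open Polynomial Module

namespace NData

variable {k : Type*} [Field k] {J : Type*} [Fintype J] [DecidableEq J] (X : NData k J)
variable {F : Type*} [Field F] [Algebra k[X] F] [IsFractionRing k[X] F]
  [Algebra k F] [IsScalarTower k k[X] F]

/-- the derivations of the ground field fixing the three points -/
abbrev Ders : Type _ := {d : Derivation ℤ k k // ∀ s, d (X.z s) = 0}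

theorem exists_dF (F : Type*) [Field F] [Algebra k[X] F] [IsFractionRing k[X] F]
    [Algebra k F] [IsScalarTower k k[X] F] (d : Ders X) :
    ∃ D : Derivation ℤ F F, (∀ c : k, D (algebraMap k F c) = algebraMap k F (d.1 c)) ∧
      (∀ p f, f ∈ (linePl k F p).M 1 0 → D f ∈ (linePl k F p).M 1 0) ∧
      (∀ p, (p = none ∨ X.Marked p) → ∀ (w : ℕ) (c : ℤ) (f : F),
        f ∈ (linePl k F p).M w c → D f ∈ (linePl k F p).M w c) := by
  obtain ⟨D, h1, -, h3, h4⟩ := exists_der_line (F := F) d.1
  refine ⟨D, h1, h3, ?_⟩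
  intro p hp
  refine h4 p ?_
  rcases hp with h | ⟨s, rfl⟩
  · exact Or.inl h
  · exact Or.inr ⟨_, rfl, d.2 s⟩

/-- the extended derivation -/
noncomputable def dF (F : Type*) [Field F] [Algebra k[X] F] [IsFractionRing k[X] F]
    [Algebra k F] [IsScalarTower k k[X] F] (d : Ders X) : Derivation ℤ F F :=
  (X.exists_dF F d).choose

theorem dF_alg (d : Ders X) (c : k) : X.dF F d (algebraMap k F c) = algebraMap k F (d.1 c) :=
  (X.exists_dF F d).choose_spec.1 c

theorem dF_reg (d : Ders X) (p : Option k) {f : F} (hf : f ∈ (linePl k F p).M 1 0) :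
    X.dF F d f ∈ (linePl k F p).M 1 0 :=
  (X.exists_dF F d).choose_spec.2.1 p f hf

theorem dF_fil (d : Ders X) {p : Option k} (hp : p = none ∨ X.Marked p) (w : ℕ) (c : ℤ) {f : F}
    (hf : f ∈ (linePl k F p).M w c) : X.dF F d f ∈ (linePl k F p).M w c :=
  (X.exists_dF F d).choose_spec.2.2 p hp w c f hf

/-- the coordinatewise connection -/
noncomputable def Dc (F : Type*) [Field F] [Algebra k[X] F] [IsFractionRing k[X] F]
    [Algebra k F] [IsScalarTower k k[X] F] (d : Ders X) (x : J → F) : J → F :=
  fun j => X.dF F d (x j)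

theorem Dc_conn (d : Ders X) : H578.IsConn (X.dF F d) (X.Dc F d) := by
  refine ⟨fun x y => ?_, fun f x => ?_⟩
  · funext j
    exact map_add _ _ _
  · funext j
    show X.dF F d (f * x j) = f * X.dF F d (x j) + X.dF F d f * x j
    rw [Derivation.leibniz, smul_eq_mul, smul_eq_mul]
    ring

theorem Dc_cv (d : Ders X) (v : J → k) : X.Dc F d (cv F v) = cv F (fun j => d.1 (v j)) := by
  funext j
  exact X.dF_alg d (v j)

/-- the derivative of `eps_l` -/
def vv (F : Type*) [Field F] [Algebra k F] (d : Ders X) (l : J) : J → F :=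
  cv F (fun m => d.1 (X.Ω l m))

open Classical in
/-- the correction at the marked point `z_s` -/
noncomputable def Ys (F : Type*) [Field F] [Algebra k[X] F] [IsFractionRing k[X] F]
    [Algebra k F] [IsScalarTower k k[X] F] (d : Ders X) (s : Fin 3) : (J → F) →ₗ[F] (J → F) :=
  ∑ l, if X.arm l = s then
    ((X.lin F s)⁻¹ • X.b F (cv F (Pi.single l (1 : k)))).smulRight (X.vv F d l) else 0

theorem Ys_apply (d : Ders X) (s : Fin 3) (x : J → F) : X.Ys F d s x =
    ∑ l, if X.arm l = s then
      ((X.lin F s)⁻¹ * X.b F (cv F (Pi.single l (1 : k))) x) • X.vv F d l else 0 := by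
  classical
  unfold Ys
  rw [LinearMap.sum_apply]
  refine Finset.sum_congr rfl fun l _ => ?_
  by_cases h : X.arm l = s
  · rw [if_pos h, if_pos h]
    rfl
  · rw [if_neg h, if_neg h]
    rfl

open Classical in
/-- the correction at a place -/
noncomputable def Yp (F : Type*) [Field F] [Algebra k[X] F] [IsFractionRing k[X] F]
    [Algebra k F] [IsScalarTower k k[X] F] (d : Ders X) (p : Option k) : (J → F) →ₗ[F] (J → F) :=
  if h : X.Marked p then X.Ys F d h.choose else 0

theorem Yp_z (d : Ders X) (s : Fin 3) : X.Yp F d (some (X.z s)) = X.Ys F d s := by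
  have h : X.Marked (some (X.z s)) := ⟨s, rfl⟩
  unfold Yp
  rw [dif_pos h]
  congr 1
  have h1 := h.choose_spec
  exact (X.hz (Option.some_injective _ h1)).symm

theorem Yp_unmarked (d : Ders X) {p : Option k} (h : ¬ X.Marked p) : X.Yp F d p = 0 := dif_neg h

/-- the local connection -/
noncomputable def Dp (F : Type*) [Field F] [Algebra k[X] F] [IsFractionRing k[X] F]
    [Algebra k F] [IsScalarTower k k[X] F] (d : Ders X) (p : Option k) (x : J → F) : J → F :=
  X.Dc F d x - X.Yp F d p x

theorem Dp_conn (d : Ders X) (p : Option k) : H578.IsConn (X.dF F d) (X.Dp F d p) := by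
  refine ⟨fun x y => ?_, fun f x => ?_⟩
  · unfold Dp
    rw [(X.Dc_conn d).1, map_add]
    abel
  · unfold Dp
    rw [(X.Dc_conn d).2, map_smul, smul_sub]
    abel

section closed

variable [IsAlgClosed k]

/-- a connection preserving the generators preserves the chain -/
theorem conn_pres {δ : Derivation ℤ F F} {D : (J → F) → (J → F)} (hD : H578.IsConn δ D)
    (p : Option k) (hδ : ∀ (c : ℤ) (f : F), f ∈ (linePl k F p).M (X.per p) c →
      δ f ∈ (linePl k F p).M (X.per p) c)
    (hg : ∀ i, D (X.gx F i) ∈ ((X.N F).ch p).L (X.gw p i)) {a : ℤ} {x : J → F}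
    (hx : x ∈ ((X.N F).ch p).L a) : D x ∈ ((X.N F).ch p).L a := by
  obtain ⟨c, hc, rfl⟩ := hx
  have h0 : D 0 = 0 := by
    have := hD.1 0 0
    rw [add_zero] at this
    exact left_eq_add.1 this
  have h1 : D (∑ i, c i • X.gx F i) = ∑ i, D (c i • X.gx F i) := by
    have : ∀ s : Finset (J ⊕ J ⊕ J), D (∑ i ∈ s, c i • X.gx F i) = ∑ i ∈ s, D (c i • X.gx F i) := by
      classical
      intro s
      induction s using Finset.induction_on with
      | empty => simpa using h0
      | insert i s hi ih => rw [Finset.sum_insert hi, Finset.sum_insert hi, hD.1, ih]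
    exact this Finset.univ
  rw [h1]
  refine Submodule.sum_mem _ fun i _ => ?_
  rw [hD.2]
  refine Submodule.add_mem _ ?_ ?_
  · exact LChain.smul_mem' _ (hc i) (hg i) (by linarith)
  · exact LChain.smul_mem' _ (hδ _ _ (hc i)) (gen_mem (hx := X.hgen) i) (by linarith)

theorem sm_mem {p : Option k} {a c e : ℤ} {f : F} {x : J → F}
    (hf : f ∈ (linePl k F p).M (X.per p) c) (hx : x ∈ ((X.N F).ch p).L a) (he : e ≤ c + a) :
    f • x ∈ ((X.N F).ch p).L e :=
  LChain.smul_mem' _ hf hx (by linarith)

theorem gen_const (p : Option k) (i : J ⊕ J ⊕ J) (h : X.gw p i = X.w0 p) (d : Ders X) :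
    X.Dc F d (X.gx F i) ∈ ((X.N F).ch p).L (X.gw p i) := by
  obtain ⟨v, hv⟩ := X.gx_cv (F := F) i
  rw [hv, Dc_cv, h]
  exact X.const_mem_N p _

/-- the local connections preserve the chains at infinity and at the marked points -/
theorem Dp_pres (hdet : IsUnit X.Om'.det) (d : Ders X) {p : Option k}
    (hp : p = none ∨ X.Marked p) {a : ℤ} {x : J → F} (hx : x ∈ ((X.N F).ch p).L a) :
    X.Dp F d p x ∈ ((X.N F).ch p).L a := by
  refine X.conn_pres (X.Dp_conn d p) p (fun c f hf => X.dF_fil d hp _ c hf) ?_ hx
  intro i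
  rcases hp with rfl | ⟨s, rfl⟩
  · unfold Dp
    rw [Yp_unmarked X d X.not_marked_none, LinearMap.zero_apply, sub_zero]
    exact X.gen_const none i (by rw [gw_none, w0_none]) d
  unfold Dp
  rw [Yp_z, Ys_apply]
  -- the vectors `vv`
  have hv : ∀ m, X.vv F d m ∈ ((X.N F).ch (some (X.z s))).L (-X.n) := fun m => by
    have := X.const_mem_N (F := F) (some (X.z s)) (fun j => d.1 (X.Ω m j))
    rwa [w0_z] at this
  have hli : (X.lin F s)⁻¹ ∈ (linePl k F (some (X.z s))).M (X.per (some (X.z s)))
      (-(2 * X.n + 1)) := by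
    rw [per_marked]
    have := X.inv_mem_z (F := F) s (2 * X.n + 1)
    push_cast at this
    exact this
  rcases X.gen_cases (F := F) s i with ⟨l, hl, hx, hw⟩ | ⟨l, hl, hx, hw⟩ | ⟨v, hx, hw⟩ <;>
    rw [hx, hw]
  · -- `e_l`
    have h0 : X.Dc F d (cv F (Pi.single l (1 : k))) = 0 := by
      rw [Dc_cv]
      funext j
      show algebraMap k F (d.1 ((Pi.single l (1 : k) : J → k) j)) = 0
      by_cases hj : j = l
      · subst hj; simp
      · rw [Pi.single_eq_of_ne hj]; simp
    rw [h0, zero_sub]
    refine Submodule.neg_mem _ (Submodule.sum_mem _ fun m _ => ?_)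
    by_cases hm : X.arm m = s
    · rw [if_pos hm]
      have h1 := X.b_ee (F := F) (2 * X.n + 1) m l (hl.trans hm.symm)
      rw [hm, ← per_marked X s] at h1
      refine X.sm_mem (Place.mul_mem_M _ hli h1) (hv m) ?_
      have := X.hc1 l
      rw [per_marked]
      push_cast
      omega
    · rw [if_neg hm]
      exact Submodule.zero_mem _
  · -- `eps_l`
    have h0 : X.Dc F d (cv F (X.Ω l)) = X.vv F d l := X.Dc_cv d _
    have hcn := X.hcn l
    have key : ∀ m, (if X.arm m = s then
        ((X.lin F s)⁻¹ * X.b F (cv F (Pi.single m (1 : k))) (cv F (X.Ω l))) • X.vv F d m else 0) -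
        (if m = l then X.vv F d l else 0) ∈ ((X.N F).ch (some (X.z s))).L (X.c l - X.n) := by
      intro m
      by_cases hm : X.arm m = s
      · rw [if_pos hm]
        by_cases hml : m = l
        · subst hml
          rw [if_pos rfl, b_symm, X.b_eps hdet, hm]
          have h2 : (X.lin F s)⁻¹ * (X.lin F s * (∑ j, algebraMap k F ((X.Ω * X.Mi) m j) *
              X.lin F (X.arm j) * cv F (Pi.single m (1 : k)) j + cv F (Pi.single m (1 : k)) m)) =
              algebraMap k F ((X.Ω * X.Mi) m m) * X.lin F s + 1 := by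
            rw [← mul_assoc, inv_mul_cancel₀ (X.lin_ne F s), one_mul, Finset.sum_eq_single m]
            · unfold cv
              rw [Pi.single_eq_same, map_one, mul_one, hm]
            · intro j _ hj
              unfold cv
              rw [Pi.single_eq_of_ne hj, map_zero, mul_zero]
            · intro h; exact absurd (Finset.mem_univ _) h
          rw [h2, add_smul, one_smul, add_sub_cancel_right]
          have h3 := Place.mul_mem_M _ (const_mem (F := F) (some (X.z s)) (2 * X.n + 1)
            ((X.Ω * X.Mi) m m)) (X.lin_mem_z (F := F) s (2 * X.n + 1))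
          rw [← per_marked X s] at h3
          refine X.sm_mem h3 (hv m) ?_
          rw [per_marked]
          push_cast
          omega
        · rw [if_neg hml, sub_zero, b_symm]
          have h1 := X.b_pe (F := F) hdet (2 * X.n + 1) l m (hm.trans hl.symm) (Ne.symm hml)
          rw [hl, ← per_marked X s] at h1
          refine X.sm_mem (Place.mul_mem_M _ hli h1) (hv m) ?_
          rw [per_marked]
          push_cast
          omega
      · have hml : m ≠ l := by
          rintro rfl
          exact hm hl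
        rw [if_neg hm, if_neg hml, sub_zero]
        exact Submodule.zero_mem _
    rw [h0]
    have h4 := Submodule.neg_mem _ (Submodule.sum_mem _ (fun m (_ : m ∈ Finset.univ) => key m))
    rw [Finset.sum_sub_distrib, Finset.sum_ite_eq' Finset.univ l, if_pos (Finset.mem_univ _),
      neg_sub] at h4
    exact h4
  · -- constants
    have h0 : X.Dc F d (cv F v) ∈ ((X.N F).ch (some (X.z s))).L (-X.n) := by
      rw [Dc_cv, ← w0_z]
      exact X.const_mem_N _ _
    refine Submodule.sub_mem _ h0 (Submodule.sum_mem _ fun m _ => ?_)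
    by_cases hm : X.arm m = s
    · rw [if_pos hm]
      have h1 := X.b_ec (F := F) (2 * X.n + 1) m v
      rw [hm, ← per_marked X s] at h1
      refine X.sm_mem (Place.mul_mem_M _ hli h1) (hv m) ?_
      rw [per_marked]
      push_cast
      omega
    · rw [if_neg hm]
      exact Submodule.zero_mem _

/-- the chain at an unmarked finite place -/
theorem mem_unmarked {a : k} (h : ¬ X.Marked (some a)) {c : ℤ} {x : J → F} :
    x ∈ ((X.N F).ch (some a)).L c ↔ ∀ j, x j ∈ (linePl k F (some a)).M 1 c := by
  constructor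
  · rintro ⟨r, hr, rfl⟩ j
    rw [Finset.sum_apply]
    refine Submodule.sum_mem _ fun i _ => ?_
    have h1 := hr i
    rw [gw_unmarked X h, sub_zero, cur_per, per_unmarked X h] at h1
    obtain ⟨v, hv⟩ := X.gx_cv (F := F) i
    rw [Pi.smul_apply, hv, smul_eq_mul]
    exact Place.M_anti _ (by simp) (Place.mul_mem_M _ h1 (const_mem _ 1 (v j)))
  · intro hx
    rw [sum_ev (k := k) x]
    refine Submodule.sum_mem _ fun j _ => ?_
    have h1 := X.const_mem_N (F := F) (some a) (Pi.single j (1 : k))
    rw [w0_unmarked X h] at h1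
    have h2 := hx j
    rw [← per_unmarked X h] at h2
    exact X.sm_mem h2 h1 (by simp)

/-- the commutators are integral -/
theorem comm_mem (hdet : IsUnit X.Om'.det) (d : Ders X) (p : Option k) (c : ℤ)
    (hc : c = 0 ∨ c = -X.kap p) (T : (J → F) →ₗ[F] (J → F))
    (hT : T ∈ (((X.N' F).hom (X.N' F)).ch p).L c) :
    H578.commL (X.Dp_conn d p) T ∈ (((X.N' F).hom (X.N' F)).ch p).L c := by
  rw [X.hom_N'] at hT ⊢
  by_cases hp : p = none ∨ X.Marked p
  · intro a x hx
    exact Submodule.sub_mem _ (X.Dp_pres hdet d hp (hT a x hx))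
      (hT a _ (X.Dp_pres hdet d hp hx))
  · push Not at hp
    obtain ⟨h1, hm⟩ := hp
    rcases p with _ | q
    · exact absurd rfl h1
    have hc0 : c = 0 := by
      rcases hc with h | h
      · exact h
      · rw [h, kap_unmarked X hm, neg_zero]
    subst hc0
    have key : ∀ j, H578.commL (X.Dp_conn d (some q)) T (ev (k := k) F j) ∈
        ((X.N F).ch (some q)).L 0 := by
      intro j
      have h2 : X.Dp F d (some q) (ev (k := k) F j) = 0 := by
        unfold Dp ev
        rw [Yp_unmarked X d hm, LinearMap.zero_apply, sub_zero, Dc_cv]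
        funext i
        show algebraMap k F (d.1 ((Pi.single j (1 : k) : J → k) i)) = 0
        by_cases hi : i = j
        · subst hi; simp
        · rw [Pi.single_eq_of_ne hi]; simp
      show X.Dp F d (some q) (T (ev (k := k) F j)) - T (X.Dp F d (some q) (ev (k := k) F j)) ∈ _
      rw [h2, map_zero, sub_zero]
      have h3 := X.const_mem_N (F := F) (some q) (Pi.single j (1 : k))
      rw [w0_unmarked X hm] at h3
      have h4 := hT 0 _ h3
      rw [add_zero, mem_unmarked X hm] at h4
      unfold Dp
      rw [Yp_unmarked X d hm, LinearMap.zero_apply, sub_zero, mem_unmarked X hm]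
      intro i
      exact X.dF_reg d _ (h4 i)
    intro a x hx
    rw [sum_ev (k := k) x, map_sum]
    refine Submodule.sum_mem _ fun j _ => ?_
    rw [map_smul]
    have h5 := (X.mem_unmarked hm).1 hx j
    rw [← per_unmarked X hm] at h5
    exact X.sm_mem h5 (key j) (by simp)

end closed

end NData

end Vale.Agent.P182.H430
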