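import Vale.Agent.P182.H430.Chi
import Vale.Agent.P182.H62.Place

/-!
# Relative dimensions, and Riemann–Roch in rank one
-/

namespace Vale.Agent.P182.H430

open LinearMap Submodule Module


section Rdim

variable {k : Type*} [Field k] {E : Type*} [AddCommGroup E] [Module k E]

/-- `A` has finite codimension in `A + B` -/
def FinRel (A B : Submodule k E) : Prop := FiniteDimensional k (B.map A.mkQ)

theorem finRel_of_le {A B : Submodule k E} (h : B ≤ A) : FinRel A B ∧ rdim A B = 0 := by
  have h1 : B.map A.mkQ = ⊥ := by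
    rw [eq_bot_iff]
    rintro _ ⟨x, hx, rfl⟩
    exact (Submodule.Quotient.mk_eq_zero _).2 (h hx)
  refine ⟨?_, ?_⟩
  · unfold FinRel
    rw [h1]; infer_instance
  · unfold rdim
    rw [h1]; exact finrank_bot k _

theorem rdim_trans {A B C : Submodule k E} (hAB : A ≤ B) (hBC : B ≤ C) (h1 : FinRel A B)
    (h2 : FinRel B C) : FinRel A C ∧ rdim A C = rdim A B + rdim B C := by
  unfold FinRel at *
  -- the map `C/A → C/B`
  let π : (C.map A.mkQ) →ₗ[k] (C.map B.mkQ) :=
    ((Submodule.factor hAB).domRestrict (C.map A.mkQ)).codRestrict (C.map B.mkQ) (by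
      rintro ⟨_, ⟨x, hx, rfl⟩⟩
      exact ⟨x, hx, rfl⟩)
  have hπ : Function.Surjective π := by
    rintro ⟨_, ⟨x, hx, rfl⟩⟩
    exact ⟨⟨A.mkQ x, ⟨x, hx, rfl⟩⟩, rfl⟩
  have hk : LinearMap.ker π = (B.map A.mkQ).comap (C.map A.mkQ).subtype := by
    ext ⟨y, hy⟩
    have : π ⟨y, hy⟩ = 0 ↔ Submodule.factor hAB y = 0 := by
      constructor
      · intro h; exact congrArg Subtype.val h
      · intro h; exact Subtype.ext h
    rw [LinearMap.mem_ker, this, factor_eq_zero_iff]
    rfl
  have hle : B.map A.mkQ ≤ C.map A.mkQ := Submodule.map_mono hBC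
  let e : LinearMap.ker π ≃ₗ[k] B.map A.mkQ :=
    (LinearEquiv.ofEq _ _ hk).trans (Submodule.comapSubtypeEquivOfLe hle)
  have hkf : FiniteDimensional k (LinearMap.ker π) := Module.Finite.equiv e.symm
  have hfin : FiniteDimensional k (C.map A.mkQ) := by
    have h4 : (⊤ : Submodule k (C.map A.mkQ)).FG := by
      refine Submodule.fg_of_fg_map_of_fg_inf_ker π ?_ ?_
      · exact (Submodule.fg_iff_finiteDimensional _).2 inferInstance
      · rw [top_inf_eq]
        exact (Submodule.fg_iff_finiteDimensional _).2 hkf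
    exact ⟨h4⟩
  refine ⟨hfin, ?_⟩
  have h5 := LinearMap.finrank_range_add_finrank_ker π
  rw [LinearMap.range_eq_top.2 hπ, finrank_top, e.finrank_eq] at h5
  unfold rdim
  omega

end Rdim

section Local

variable {k F : Type*} [Field k] [Field F] [Algebra k F] (P : Place k F)

theorem mem_M {p : ℕ} {c : ℤ} {f : F} : f ∈ P.M p c ↔ f = 0 ∨ c ≤ p * P.ord f := Iff.rfl

theorem M_eq {p : ℕ} (hp : 0 < p) (n : ℤ) : P.M p (-n) = P.M 1 (-(n / p)) := by
  ext f
  rw [mem_M, mem_M]
  refine or_congr_right ?_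
  have hp' : (0 : ℤ) < p := by exact_mod_cast hp
  have h1 : -P.ord f ≤ n / p ↔ -P.ord f * p ≤ n := Int.le_ediv_iff_mul_le hp'
  constructor
  · intro h
    have : -P.ord f * p ≤ n := by linarith
    have := h1.2 this
    push_cast
    linarith
  · intro h
    push_cast at h
    have : -P.ord f ≤ n / p := by linarith
    have := h1.1 this
    linarith

theorem M_mono {p : ℕ} {a b : ℤ} (h : a ≤ b) : P.M p b ≤ P.M p a := by
  intro f hf
  rcases hf with hf | hf
  · exact Or.inl hf
  · exact Or.inr (h.trans hf)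

theorem ord_one : P.ord 1 = 0 := by
  have := P.ord_alg 1 one_ne_zero
  rwa [map_one] at this

theorem ord_inv {f : F} (hf : f ≠ 0) : P.ord f⁻¹ = -P.ord f := by
  have h := P.ord_mul f f⁻¹ hf (inv_ne_zero hf)
  rw [mul_inv_cancel₀ hf, ord_one] at h
  linarith

theorem ord_zpow {f : F} (hf : f ≠ 0) (n : ℤ) : P.ord (f ^ n) = n * P.ord f := by
  have hnat : ∀ m : ℕ, P.ord (f ^ m) = m * P.ord f := by
    intro m
    induction m with
    | zero => simp [ord_one]
    | succ m ih =>
      rw [pow_succ, P.ord_mul _ _ (pow_ne_zero m hf) hf, ih]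
      push_cast; ring
  obtain ⟨m, rfl | rfl⟩ := n.eq_nat_or_neg
  · rw [zpow_natCast, hnat]
  · rw [zpow_neg, zpow_natCast, ord_inv P (pow_ne_zero m hf), hnat]
    ring

theorem ord_unif_zpow (n : ℤ) : P.ord (P.unif ^ n) = n := by
  rw [ord_zpow P P.unif_ne, P.ord_unif, mul_one]

/-- one step -/
theorem rdim_step (a : ℤ) : FinRel (P.M 1 (a + 1)) (P.M 1 a) ∧
    rdim (P.M 1 (a + 1)) (P.M 1 a) = 1 := by
  set A := P.M 1 (a + 1) with hA
  set B := P.M 1 a with hB
  have hu : P.unif ^ a ≠ 0 := zpow_ne_zero a P.unif_ne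
  have huB : P.unif ^ a ∈ B := Or.inr (by rw [ord_unif_zpow]; simp)
  have huA : P.unif ^ a ∉ A := by
    intro h
    rcases h with h | h
    · exact hu h
    · rw [ord_unif_zpow] at h
      push_cast at h
      linarith
  -- every element of `B / A` is a multiple of the class of `unif ^ a`
  have hspan : B.map A.mkQ = Submodule.span k {A.mkQ (P.unif ^ a)} := by
    apply le_antisymm
    · rintro _ ⟨f, hf, rfl⟩
      rw [Submodule.mem_span_singleton]
      by_cases hf0 : f = 0
      · exact ⟨0, by rw [hf0]; simp⟩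
      have hfB : a ≤ P.ord f := by
        rcases hf with h | h
        · exact absurd h hf0
        · simpa using h
      have hg : f * P.unif ^ (-a) ≠ 0 := mul_ne_zero hf0 (zpow_ne_zero _ P.unif_ne)
      have hgo : P.ord (f * P.unif ^ (-a)) = P.ord f - a := by
        rw [P.ord_mul _ _ hf0 (zpow_ne_zero _ P.unif_ne), ord_unif_zpow]; ring
      obtain ⟨c, hc⟩ := P.resid (f * P.unif ^ (-a)) hg (by rw [hgo]; linarith)
      have hfu : f = (f * P.unif ^ (-a)) * P.unif ^ a := by
        rw [mul_assoc, ← zpow_add₀ P.unif_ne]; simp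
      refine ⟨c, ?_⟩
      rw [← map_smul]
      have : f - c • P.unif ^ a ∈ A := by
        by_cases h0 : f * P.unif ^ (-a) - algebraMap k F c = 0
        · left
          rw [Algebra.smul_def, ← sub_eq_zero.1 h0, ← hfu, sub_self]
        right
        have h1 : 0 < P.ord (f * P.unif ^ (-a) - algebraMap k F c) := by
          rcases hc with h | h
          · exact absurd (sub_eq_zero.2 h) h0
          · exact h
        have h2 : f - c • P.unif ^ a = (f * P.unif ^ (-a) - algebraMap k F c) * P.unif ^ a := by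
          rw [sub_mul, ← hfu, Algebra.smul_def]
        rw [h2, P.ord_mul _ _ h0 hu, ord_unif_zpow]
        push_cast
        linarith
      have h3 := (Submodule.Quotient.eq A).2 this
      exact h3.symm
    · rw [Submodule.span_singleton_le_iff_mem]
      exact ⟨_, huB, rfl⟩
  have hne : A.mkQ (P.unif ^ a) ≠ 0 := fun h =>
    huA ((Submodule.Quotient.mk_eq_zero _).1 h)
  refine ⟨?_, ?_⟩
  · unfold FinRel
    rw [hspan]
    infer_instance
  · unfold rdim
    rw [hspan]
    exact finrank_span_singleton hne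

theorem rdim_M_nat (a : ℤ) (m : ℕ) : FinRel (P.M 1 (a + m)) (P.M 1 a) ∧
    rdim (P.M 1 (a + m)) (P.M 1 a) = m := by
  induction m with
  | zero =>
    have := finRel_of_le (A := P.M 1 (a + (0 : ℕ))) (B := P.M 1 a) (by simp)
    exact this
  | succ m ih =>
    have h1 := rdim_step P (a + m)
    have h2 := rdim_trans (M_mono P (p := 1) (a := a + m) (b := a + m + 1) (by linarith))
      (M_mono P (p := 1) (a := a) (b := a + m) (by linarith)) h1.1 ih.1
    have h3 : a + ((m + 1 : ℕ) : ℤ) = a + m + 1 := by push_cast; ring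
    rw [h3]
    refine ⟨h2.1, ?_⟩
    rw [h2.2, h1.2, ih.2]
    ring

theorem rdim_M {p : ℕ} (hp : 0 < p) {n n' : ℤ} (h : n ≤ n') :
    FinRel (P.M p (-n)) (P.M p (-n')) ∧
      (rdim (P.M p (-n)) (P.M p (-n')) : ℤ) = n' / p - n / p := by
  rw [M_eq P hp, M_eq P hp]
  have hle : n / p ≤ n' / p := Int.ediv_le_ediv (by exact_mod_cast hp) h
  obtain ⟨m, hm⟩ := Int.eq_ofNat_of_zero_le (sub_nonneg.2 hle)
  have h1 := rdim_M_nat P (-(n' / p)) m
  have h2 : -(n' / (p : ℤ)) + m = -(n / p) := by linarith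
  rw [h2] at h1
  refine ⟨h1.1, ?_⟩
  rw [h1.2, hm]

end Local

/-- A weighted curve of genus zero: a field `F` over `k` with a family of places such that the
only everywhere regular functions are constants and principal parts can be prescribed. -/
structure Curve (k F P : Type*) [Field k] [Field F] [Algebra k F] where
  /-- the places -/
  pl : P → Place k F
  /-- the weights (periods) -/
  per : P → ℕ
  per_pos : ∀ p, 0 < per p
  per_ae : {p | per p ≠ 1}.Finite
  ord_ae : ∀ f : F, f ≠ 0 → {p | (pl p).ord f ≠ 0}.Finite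
  H0 : ∀ f : F, (∀ p, f ∈ (pl p).M 1 0) → ∃ c : k, algebraMap k F c = f
  H1 : ∀ g : P → F, {p | g p ∉ (pl p).M 1 0}.Finite → ∃ f : F, ∀ p, f - g p ∈ (pl p).M 1 0

section RankOne

variable {k F P : Type*} [Field k] [Field F] [Algebra k F] (C : Curve k F P)

/-- the fractional ideals of a divisor with parabolic shifts -/
def Curve.I (n : P → ℤ) : P → Submodule k F := fun p => (C.pl p).M (C.per p) (-n p)

theorem Curve.I_mono {n n' : P → ℤ} (h : ∀ p, n p ≤ n' p) (p : P) : C.I n p ≤ C.I n' p :=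
  M_mono _ (by linarith [h p])

theorem Curve.adm_I {n : P → ℤ} (hn : {p | n p ≠ 0}.Finite) : Adm (C.I n) := by
  intro f
  by_cases hf : f = 0
  · refine Set.finite_empty.subset ?_
    intro p hp
    exact (hp (Or.inl hf)).elim
  · refine (hn.union (C.ord_ae f hf)).subset ?_
    intro p hp
    by_contra h
    simp only [Set.mem_union, Set.mem_ofPred_eq, not_or, not_not] at h
    refine hp (Or.inr ?_)
    rw [h.1, h.2]
    simp

theorem Curve.I_zero (p : P) : C.I 0 p = (C.pl p).M 1 0 := by
  show (C.pl p).M (C.per p) (-0) = (C.pl p).M 1 0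
  rw [M_eq _ (C.per_pos p)]
  simp

theorem Curve.rr_zero : FinCoh (C.I 0) ∧ chi (C.I 0) = 1 ∧ h1 (C.I 0) = 0 := by
  have h : Adm (C.I 0) := C.adm_I (by simp)
  have hker : HZ (C.I 0) = Submodule.span k {(1 : F)} := by
    ext f
    rw [mem_HZ, Submodule.mem_span_singleton]
    constructor
    · intro hf
      obtain ⟨c, hc⟩ := C.H0 f (fun p => by rw [← C.I_zero]; exact hf p)
      exact ⟨c, by rw [← hc, Algebra.smul_def, mul_one]⟩
    · rintro ⟨c, rfl⟩ p
      rw [C.I_zero]
      by_cases hc : c = 0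
      · left; rw [hc, zero_smul]
      · right
        rw [Algebra.smul_def, mul_one, (C.pl p).ord_alg c hc]
        simp
  have hr : diag (C.I 0) = ⊤ := by
    classical
    rw [eq_top_iff]
    rintro y -
    have h1 : ∀ p, ∃ g : F, (C.I 0 p).mkQ g = y.1 p := fun p => (C.I 0 p).mkQ_surjective _
    choose g hg using h1
    obtain ⟨f, hf⟩ := C.H1 (fun p => if y.1 p = 0 then 0 else g p) (by
      refine Set.Finite.subset y.2 ?_
      intro p hp h0
      refine hp ?_
      rw [if_pos h0]
      exact Submodule.zero_mem _)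
    refine ⟨f, fun p => ?_⟩
    have h2 := hf p
    rw [← C.I_zero] at h2
    by_cases h0 : y.1 p = 0
    · rw [if_pos h0, sub_zero] at h2
      rw [h0]
      exact ((Submodule.Quotient.mk_eq_zero _).2 h2).symm
    · rw [if_neg h0] at h2
      rw [← hg p]
      exact ((Submodule.Quotient.eq _).2 h2).symm
  have hs : Subsingleton (HO (C.I 0)) := by
    unfold HO
    rw [hr]; infer_instance
  have hc : h1 (C.I 0) = 0 := finrank_zero_of_subsingleton
  refine ⟨⟨h, ?_, ?_⟩, ?_, hc⟩
  · rw [hker]; infer_instance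
  · infer_instance
  · unfold chi
    rw [hc]
    unfold h0
    rw [hker, finrank_span_singleton one_ne_zero]
    simp

/-- the degree of a divisor with parabolic shifts -/
noncomputable def Curve.deg (n : P → ℤ) : ℤ := ∑ᶠ p, n p / C.per p

theorem Curve.deg_eq_sum {n : P → ℤ} (S : Finset P) (hS : ∀ p, p ∉ S → n p = 0) :
    C.deg n = ∑ p ∈ S, n p / C.per p := by
  unfold Curve.deg
  refine finsum_eq_sum_of_support_subset _ ?_
  intro p hp
  by_contra h
  exact hp (by simp [hS p h])

/-- RIEMANN–ROCH in rank one -/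
theorem Curve.rr_one {n : P → ℤ} (hn : {p | n p ≠ 0}.Finite) :
    FinCoh (C.I n) ∧ chi (C.I n) = 1 + C.deg n := by
  classical
  have h := C.adm_I hn
  let S := hn.toFinset
  have hS : ∀ p, p ∉ S → n p = 0 := by
    intro p hp
    by_contra h0
    exact hp (hn.mem_toFinset.2 h0)
  let n' : P → ℤ := fun p => max (n p) 0
  have hn' : {p | n' p ≠ 0}.Finite := by
    refine hn.subset ?_
    intro p hp h0
    exact hp (by simp [n', h0])
  have hS' : ∀ p, p ∉ S → n' p = 0 := by
    intro p hp
    simp [n', hS p hp]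
  have h0' : {p : P | (0 : P → ℤ) p ≠ 0}.Finite := by simp
  have c1 := chi_change (k := k) (Λ := C.I 0) (Λ' := C.I n') (C.I_mono fun p => le_max_right _ _) S
    (fun p hp => by
      show (C.pl p).M (C.per p) (-n' p) ≤ (C.pl p).M (C.per p) (-0)
      rw [hS' p hp])
    (fun p => (rdim_M (C.pl p) (C.per_pos p) (le_max_right (n p) 0)).1)
    (C.adm_I h0')
  have c2 := chi_change (k := k) (Λ := C.I n) (Λ' := C.I n') (C.I_mono fun p => le_max_left _ _) S
    (fun p hp => by
      show (C.pl p).M (C.per p) (-n' p) ≤ (C.pl p).M (C.per p) (-n p)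
      rw [hS' p hp, hS p hp])
    (fun p => (rdim_M (C.pl p) (C.per_pos p) (le_max_left (n p) 0)).1)
    h
  obtain ⟨hz1, hz2, -⟩ := C.rr_zero
  have f1 := c1.1.1 hz1
  have f2 := c2.1.2 f1
  refine ⟨f2, ?_⟩
  have e1 := c1.2 hz1
  have e2 := c2.2 f2
  have d1 : ∑ p ∈ S, (rdim (C.I 0 p) (C.I n' p) : ℤ) = ∑ p ∈ S, n' p / C.per p := by
    refine Finset.sum_congr rfl fun p _ => ?_
    have := (rdim_M (C.pl p) (C.per_pos p) (le_max_right (n p) 0)).2
    simp only [Int.zero_ediv, sub_zero] at this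
    exact this
  have d2 : ∑ p ∈ S, (rdim (C.I n p) (C.I n' p) : ℤ) =
      ∑ p ∈ S, n' p / C.per p - ∑ p ∈ S, n p / C.per p := by
    rw [← Finset.sum_sub_distrib]
    refine Finset.sum_congr rfl fun p _ => ?_
    exact (rdim_M (C.pl p) (C.per_pos p) (le_max_left (n p) 0)).2
  rw [d1] at e1
  rw [d2] at e2
  rw [C.deg_eq_sum S hS]
  linarith

end RankOne

end Vale.Agent.P182.H430
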