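import Vale.Agent.P182.H430.Chi

/-!
# Maps on cohomology and the six-term sequence
-/

namespace Vale.Agent.P182.H430

open LinearMap Submodule Module

section Maps

variable {k : Type*} [Field k] {P : Type*} {E₁ E₂ E₃ : Type*}
  [AddCommGroup E₁] [Module k E₁] [AddCommGroup E₂] [Module k E₂] [AddCommGroup E₃] [Module k E₃]
  {Λ₁ : P → Submodule k E₁} {Λ₂ : P → Submodule k E₂} {Λ₃ : P → Submodule k E₃}

/-- `g` maps `Λ₁` into `Λ₂` at every place -/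
abbrev Maps (g : E₁ →ₗ[k] E₂) (Λ₁ : P → Submodule k E₁) (Λ₂ : P → Submodule k E₂) : Prop :=
  ∀ p, Λ₁ p ≤ (Λ₂ p).comap g

theorem Maps.comp {g : E₁ →ₗ[k] E₂} {h : E₂ →ₗ[k] E₃} (hh : Maps h Λ₂ Λ₃) (hg : Maps g Λ₁ Λ₂) :
    Maps (h ∘ₗ g) Λ₁ Λ₃ := fun p _ hx => hh p (hg p hx)

/-- the map on `H⁰` -/
def hzMap (g : E₁ →ₗ[k] E₂) (hg : Maps g Λ₁ Λ₂) : HZ Λ₁ →ₗ[k] HZ Λ₂ :=
  (g.domRestrict (HZ Λ₁)).codRestrict (HZ Λ₂) fun x =>
    mem_HZ.2 fun p => hg p (mem_HZ.1 x.2 p)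

theorem hzMap_coe (g : E₁ →ₗ[k] E₂) (hg : Maps g Λ₁ Λ₂) (x : HZ Λ₁) :
    (hzMap g hg x : E₂) = g x := rfl

theorem fsLift_diag (g : E₁ →ₗ[k] E₂) (hg : Maps g Λ₁ Λ₂) :
    diag Λ₁ ≤ (diag Λ₂).comap (fsLift g hg) := by
  rintro y ⟨x, hx⟩
  refine ⟨g x, fun p => ?_⟩
  rw [fsLift_apply, hx]
  rfl

/-- the map on `H¹` -/
def hoMap (g : E₁ →ₗ[k] E₂) (hg : Maps g Λ₁ Λ₂) : HO Λ₁ →ₗ[k] HO Λ₂ :=
  (diag Λ₁).mapQ (diag Λ₂) (fsLift g hg) (fsLift_diag g hg)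

theorem hoMap_mk (g : E₁ →ₗ[k] E₂) (hg : Maps g Λ₁ Λ₂) (y : FS Λ₁) :
    hoMap g hg ((diag Λ₁).mkQ y) = (diag Λ₂).mkQ (fsLift g hg y) := rfl

/-- the class of a family of principal parts -/
def cls (Λ : P → Submodule k E₁) : FS Λ →ₗ[k] HO Λ := (diag Λ).mkQ

theorem cls_surjective (Λ : P → Submodule k E₁) : Function.Surjective (cls Λ) :=
  (diag Λ).mkQ_surjective

theorem cls_eq_zero {Λ : P → Submodule k E₁} {u : FS Λ} : cls Λ u = 0 ↔ u ∈ diag Λ :=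
  Submodule.Quotient.mk_eq_zero _

theorem hoMap_cls (g : E₁ →ₗ[k] E₂) (hg : Maps g Λ₁ Λ₂) (y : FS Λ₁) :
    hoMap g hg (cls Λ₁ y) = cls Λ₂ (fsLift g hg y) := rfl

theorem fsLift_comp (g : E₁ →ₗ[k] E₂) (hg : Maps g Λ₁ Λ₂) (h : E₂ →ₗ[k] E₃) (hh : Maps h Λ₂ Λ₃)
    (y : FS Λ₁) : fsLift (h ∘ₗ g) (hh.comp hg) y = fsLift h hh (fsLift g hg y) := by
  apply Subtype.ext
  funext p
  obtain ⟨x, hx⟩ := (Λ₁ p).mkQ_surjective (y.1 p)
  rw [fsLift_apply, fsLift_apply, fsLift_apply, ← hx]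
  rfl

theorem hoMap_comp (g : E₁ →ₗ[k] E₂) (hg : Maps g Λ₁ Λ₂) (h : E₂ →ₗ[k] E₃) (hh : Maps h Λ₂ Λ₃)
    (y : HO Λ₁) : hoMap (h ∘ₗ g) (hh.comp hg) y = hoMap h hh (hoMap g hg y) := by
  obtain ⟨y, rfl⟩ := (diag Λ₁).mkQ_surjective y
  rw [hoMap_mk, hoMap_mk, hoMap_mk, fsLift_comp]

theorem fsLift_surjective (g : E₁ →ₗ[k] E₂) (hg : Maps g Λ₁ Λ₂) (hs : Function.Surjective g) :
    Function.Surjective (fsLift g hg) := by
  classical
  intro y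
  have h4 : ∀ p, ∃ x : E₁, (Λ₂ p).mkQ (g x) = y.1 p := by
    intro p
    obtain ⟨b, hb⟩ := (Λ₂ p).mkQ_surjective (y.1 p)
    obtain ⟨x, hx⟩ := hs b
    exact ⟨x, by rw [hx, hb]⟩
  choose x hx using h4
  refine ⟨⟨fun p => if y.1 p = 0 then 0 else (Λ₁ p).mkQ (x p), ?_⟩, ?_⟩
  · refine Set.Finite.subset y.2 ?_
    intro p hp h
    exact hp (by simp [h])
  · apply Subtype.ext
    funext p
    rw [fsLift_apply]
    by_cases h : y.1 p = 0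
    · simp [h]
    · simp only [h, if_false]
      exact hx p

/-- `H¹` is right exact; more generally every `g` onto generically induces a surjection -/
theorem hoMap_surjective (g : E₁ →ₗ[k] E₂) (hg : Maps g Λ₁ Λ₂) (hs : Function.Surjective g) :
    Function.Surjective (hoMap g hg) := by
  intro y
  obtain ⟨y, rfl⟩ := (diag Λ₂).mkQ_surjective y
  obtain ⟨x, rfl⟩ := fsLift_surjective g hg hs y
  exact ⟨(diag Λ₁).mkQ x, rfl⟩

theorem h1_le_of_surjective (F1 : FinCoh Λ₁) (g : E₁ →ₗ[k] E₂) (hg : Maps g Λ₁ Λ₂)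
    (hs : Function.Surjective g) : h1 Λ₂ ≤ h1 Λ₁ := by
  have := F1.fin1
  exact LinearMap.finrank_le_finrank_of_surjective (hoMap_surjective g hg hs)

theorem h0_le_of_injective (F2 : FinCoh Λ₂) (g : E₁ →ₗ[k] E₂) (hg : Maps g Λ₁ Λ₂)
    (hi : Function.Injective g) : h0 Λ₁ ≤ h0 Λ₂ := by
  have := F2.fin0
  refine LinearMap.finrank_le_finrank_of_injective (f := hzMap g hg) ?_
  intro a b hab
  exact Subtype.ext (hi (congrArg Subtype.val hab))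

theorem fsLift_add (g g' : E₁ →ₗ[k] E₂) (hg : Maps g Λ₁ Λ₂) (hg' : Maps g' Λ₁ Λ₂)
    (hs : Maps (g + g') Λ₁ Λ₂) (y : FS Λ₁) :
    fsLift (g + g') hs y = fsLift g hg y + fsLift g' hg' y := by
  apply Subtype.ext
  funext p
  obtain ⟨x, hx⟩ := (Λ₁ p).mkQ_surjective (y.1 p)
  have h1 : (fsLift (g + g') hs y).1 p = (Λ₂ p).mkQ ((g + g') x) := by
    rw [fsLift_apply, ← hx]; rfl
  have h2 : (fsLift g hg y).1 p = (Λ₂ p).mkQ (g x) := by
    rw [fsLift_apply, ← hx]; rfl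
  have h3 : (fsLift g' hg' y).1 p = (Λ₂ p).mkQ (g' x) := by
    rw [fsLift_apply, ← hx]; rfl
  rw [h1]
  show _ = (fsLift g hg y).1 p + (fsLift g' hg' y).1 p
  rw [h2, h3, ← map_add]
  rfl

theorem fsLift_smul (c : k) (g : E₁ →ₗ[k] E₂) (hg : Maps g Λ₁ Λ₂)
    (hs : Maps (c • g) Λ₁ Λ₂) (y : FS Λ₁) :
    fsLift (c • g) hs y = c • fsLift g hg y := by
  apply Subtype.ext
  funext p
  obtain ⟨x, hx⟩ := (Λ₁ p).mkQ_surjective (y.1 p)
  have h1 : (fsLift (c • g) hs y).1 p = (Λ₂ p).mkQ ((c • g) x) := by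
    rw [fsLift_apply, ← hx]; rfl
  have h2 : (fsLift g hg y).1 p = (Λ₂ p).mkQ (g x) := by
    rw [fsLift_apply, ← hx]; rfl
  rw [h1]
  show _ = c • (fsLift g hg y).1 p
  rw [h2, ← map_smul]
  rfl

/-- the space of maps preserving the families -/
def mapsSub (Λ₁ : P → Submodule k E₁) (Λ₂ : P → Submodule k E₂) :
    Submodule k (E₁ →ₗ[k] E₂) where
  carrier := {g | Maps g Λ₁ Λ₂}
  zero_mem' := fun p _ _ => (Λ₂ p).zero_mem
  add_mem' := fun hg hh p _ hx => (Λ₂ p).add_mem (hg p hx) (hh p hx)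
  smul_mem' := fun c _ hg p _ hx => (Λ₂ p).smul_mem c (hg p hx)

theorem mapsSub_maps (g : mapsSub Λ₁ Λ₂) : Maps g.1 Λ₁ Λ₂ := g.2

/-- the map on `H¹`, linear in the map -/
def hoL : mapsSub Λ₁ Λ₂ →ₗ[k] (HO Λ₁ →ₗ[k] HO Λ₂) where
  toFun g := hoMap g.1 (mapsSub_maps g)
  map_add' g g' := by
    apply LinearMap.ext
    intro y
    obtain ⟨y, rfl⟩ := (diag Λ₁).mkQ_surjective y
    rw [LinearMap.add_apply, hoMap_mk, hoMap_mk, hoMap_mk, ← map_add]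
    exact congrArg _ (fsLift_add g.1 g'.1 g.2 g'.2 (g + g').2 y)
  map_smul' c g := by
    apply LinearMap.ext
    intro y
    obtain ⟨y, rfl⟩ := (diag Λ₁).mkQ_surjective y
    rw [RingHom.id_apply, LinearMap.smul_apply, hoMap_mk, hoMap_mk, ← map_smul]
    exact congrArg _ (fsLift_smul c g.1 g.2 (c • g).2 y)

theorem hoL_apply (g : mapsSub Λ₁ Λ₂) (y : HO Λ₁) : hoL g y = hoMap g.1 (mapsSub_maps g) y := rfl

/-- pullback along the identity: the class of a family -/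
def fsMk {Λ : P → Submodule k E₁} (x : P → E₁) (h : {p | x p ∉ Λ p}.Finite) : FS Λ :=
  ⟨fun p => (Λ p).mkQ (x p), h.subset fun _ hp hx =>
    hp ((Submodule.Quotient.mk_eq_zero _).2 hx)⟩

theorem fsMk_apply {Λ : P → Submodule k E₁} (x : P → E₁) (h : {p | x p ∉ Λ p}.Finite) (p : P) :
    (fsMk x h).1 p = (Λ p).mkQ (x p) := rfl

theorem fs_exists_rep {Λ : P → Submodule k E₁} (y : FS Λ) :
    ∃ (x : P → E₁), {p | x p ≠ 0}.Finite ∧ ∀ p, y.1 p = (Λ p).mkQ (x p) := by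
  classical
  have h4 : ∀ p, ∃ x : E₁, (Λ p).mkQ x = y.1 p := fun p => (Λ p).mkQ_surjective (y.1 p)
  choose x hx using h4
  refine ⟨fun p => if y.1 p = 0 then 0 else x p, ?_, ?_⟩
  · refine Set.Finite.subset y.2 ?_
    intro p hp h
    exact hp (by simp [h])
  · intro p
    by_cases h : y.1 p = 0
    · simp [h]
    · simp only [h, if_false]
      exact (hx p).symm

end Maps

section Six

variable {k : Type*} [Field k] {P : Type*} {E₁ E₂ E₃ : Type*}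
  [AddCommGroup E₁] [Module k E₁] [AddCommGroup E₂] [Module k E₂] [AddCommGroup E₃] [Module k E₃]

/-- a short exact sequence of families -/
structure FamSES (i : E₁ →ₗ[k] E₂) (q : E₂ →ₗ[k] E₃) (Λ₁ : P → Submodule k E₁)
    (Λ₂ : P → Submodule k E₂) (Λ₃ : P → Submodule k E₃) : Prop where
  ses : SES i q
  sub : ∀ p, Λ₁ p = (Λ₂ p).comap i
  quo : ∀ p, (Λ₂ p).map q = Λ₃ p
  adm : Adm Λ₂

variable {i : E₁ →ₗ[k] E₂} {q : E₂ →ₗ[k] E₃} {Λ₁ : P → Submodule k E₁}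
  {Λ₂ : P → Submodule k E₂} {Λ₃ : P → Submodule k E₃}

namespace FamSES

theorem mapi (h : FamSES i q Λ₁ Λ₂ Λ₃) : Maps i Λ₁ Λ₂ := fun p => (h.sub p).le

theorem mapq (h : FamSES i q Λ₁ Λ₂ Λ₃) : Maps q Λ₂ Λ₃ := fun p =>
  Submodule.map_le_iff_le_comap.1 (h.quo p).le

theorem adm3 (h : FamSES i q Λ₁ Λ₂ Λ₃) : Adm Λ₃ :=
  Adm.of_quot h.ses.surj (fun p => (h.quo p).le) h.adm

theorem adm1 (h : FamSES i q Λ₁ Λ₂ Λ₃) : Adm Λ₁ :=
  Adm.of_sub (fun p => (h.sub p).ge) h.adm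

theorem fs (h : FamSES i q Λ₁ Λ₂ Λ₃) : SES (fsLift i h.mapi) (fsLift q h.mapq) :=
  fs_ses h.ses h.sub h.quo

theorem qi (h : FamSES i q Λ₁ Λ₂ Λ₃) (x : E₁) : q (i x) = 0 := by
  have : i x ∈ LinearMap.ker q := h.ses.exact ▸ ⟨x, rfl⟩
  exact this

theorem exists_i (h : FamSES i q Λ₁ Λ₂ Λ₃) {x : E₂} (hx : q x = 0) : ∃ y, i y = x := by
  have : x ∈ LinearMap.ker q := hx
  rw [← h.ses.exact] at this
  exact this

/-- exactness at `H⁰(E₂)` -/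
theorem exact_hz2 (h : FamSES i q Λ₁ Λ₂ Λ₃) {x : HZ Λ₂} (hx : hzMap q h.mapq x = 0) :
    ∃ y, hzMap i h.mapi y = x := by
  obtain ⟨y, hy⟩ := h.exists_i (x := (x : E₂)) (congrArg Subtype.val hx)
  refine ⟨⟨y, mem_HZ.2 fun p => ?_⟩, Subtype.ext hy⟩
  rw [h.sub p, Submodule.mem_comap, hy]
  exact mem_HZ.1 x.2 p

/-- the relation defining the connecting map: `u` represents `δ z` if `i u` is the principal part
of a lift of `z` -/
def Rel (h : FamSES i q Λ₁ Λ₂ Λ₃) (z : HZ Λ₃) (u : FS Λ₁) : Prop :=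
  ∃ x : E₂, q x = z ∧ fsLift i h.mapi u = adf Λ₂ h.adm x

theorem rel_exists (h : FamSES i q Λ₁ Λ₂ Λ₃) (z : HZ Λ₃) : ∃ u, h.Rel z u := by
  obtain ⟨x, hx⟩ := h.ses.surj (z : E₃)
  have h1 : adf Λ₂ h.adm x ∈ LinearMap.ker (fsLift q h.mapq) := by
    rw [LinearMap.mem_ker, fsLift_adf q h.mapq h.adm h.adm3, hx, ← LinearMap.mem_ker, ker_adf]
    exact z.2
  rw [← h.fs.exact] at h1
  obtain ⟨u, hu⟩ := h1
  exact ⟨u, x, hx, hu⟩

theorem rel_unique (h : FamSES i q Λ₁ Λ₂ Λ₃) {z : HZ Λ₃} {u u' : FS Λ₁} (hu : h.Rel z u)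
    (hu' : h.Rel z u') : (diag Λ₁).mkQ u = (diag Λ₁).mkQ u' := by
  obtain ⟨x, hx, hux⟩ := hu
  obtain ⟨x', hx', hux'⟩ := hu'
  obtain ⟨y, hy⟩ := h.exists_i (x := x - x') (by rw [map_sub, hx, hx', sub_self])
  refine (Submodule.Quotient.eq _).2 ?_
  rw [← range_adf h.adm1]
  refine ⟨y, h.fs.inj ?_⟩
  rw [fsLift_adf i h.mapi h.adm1 h.adm, hy, map_sub, map_sub, hux, hux']

theorem rel_add (h : FamSES i q Λ₁ Λ₂ Λ₃) {z z' : HZ Λ₃} {u u' : FS Λ₁} (hu : h.Rel z u)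
    (hu' : h.Rel z' u') : h.Rel (z + z') (u + u') := by
  obtain ⟨x, hx, hux⟩ := hu
  obtain ⟨x', hx', hux'⟩ := hu'
  exact ⟨x + x', by rw [map_add, hx, hx']; rfl, by rw [map_add, map_add, hux, hux']⟩

theorem rel_smul (h : FamSES i q Λ₁ Λ₂ Λ₃) {z : HZ Λ₃} {u : FS Λ₁} (c : k) (hu : h.Rel z u) :
    h.Rel (c • z) (c • u) := by
  obtain ⟨x, hx, hux⟩ := hu
  exact ⟨c • x, by rw [map_smul, hx]; rfl, by rw [map_smul, map_smul, hux]⟩

/-- the connecting map -/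
noncomputable def delta (h : FamSES i q Λ₁ Λ₂ Λ₃) : HZ Λ₃ →ₗ[k] HO Λ₁ where
  toFun z := (diag Λ₁).mkQ (h.rel_exists z).choose
  map_add' z z' := by
    rw [← map_add]
    exact h.rel_unique (h.rel_exists _).choose_spec
      (h.rel_add (h.rel_exists _).choose_spec (h.rel_exists _).choose_spec)
  map_smul' c z := by
    rw [RingHom.id_apply, ← map_smul]
    exact h.rel_unique (h.rel_exists _).choose_spec
      (h.rel_smul c (h.rel_exists _).choose_spec)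

theorem delta_eq (h : FamSES i q Λ₁ Λ₂ Λ₃) {z : HZ Λ₃} {u : FS Λ₁} (hu : h.Rel z u) :
    h.delta z = (diag Λ₁).mkQ u :=
  h.rel_unique (h.rel_exists _).choose_spec hu

/-- exactness at `H⁰(E₃)` -/
theorem exact_hz3 (h : FamSES i q Λ₁ Λ₂ Λ₃) (z : HZ Λ₃) :
    h.delta z = 0 ↔ ∃ x, hzMap q h.mapq x = z := by
  constructor
  · intro hz
    obtain ⟨u, hu⟩ := h.rel_exists z
    rw [h.delta_eq hu] at hz
    have h1 : u ∈ diag Λ₁ := (Submodule.Quotient.mk_eq_zero _).1 hz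
    rw [← range_adf h.adm1] at h1
    obtain ⟨y, rfl⟩ := h1
    obtain ⟨x, hx, hux⟩ := hu
    rw [fsLift_adf i h.mapi h.adm1 h.adm] at hux
    have h2 : x - i y ∈ HZ Λ₂ := by
      rw [← ker_adf h.adm, LinearMap.mem_ker, map_sub, hux, sub_self]
    refine ⟨⟨x - i y, h2⟩, Subtype.ext ?_⟩
    show q (x - i y) = z
    rw [map_sub, h.qi, sub_zero, hx]
  · rintro ⟨x, rfl⟩
    have : h.Rel (hzMap q h.mapq x) 0 := by
      refine ⟨x, rfl, ?_⟩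
      rw [map_zero]
      have h2 : (x : E₂) ∈ LinearMap.ker (adf Λ₂ h.adm) := by
        rw [ker_adf]; exact x.2
      exact (LinearMap.mem_ker.1 h2).symm
    rw [h.delta_eq this, map_zero]

/-- exactness at `H¹(E₁)` -/
theorem exact_ho1 (h : FamSES i q Λ₁ Λ₂ Λ₃) (y : HO Λ₁) :
    hoMap i h.mapi y = 0 ↔ ∃ z, h.delta z = y := by
  constructor
  · intro hy
    obtain ⟨u, rfl⟩ := (diag Λ₁).mkQ_surjective y
    rw [hoMap_mk] at hy
    have h1 : fsLift i h.mapi u ∈ diag Λ₂ := (Submodule.Quotient.mk_eq_zero _).1 hy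
    rw [← range_adf h.adm] at h1
    obtain ⟨x, hx⟩ := h1
    have h2 : fsLift q h.mapq (fsLift i h.mapi u) = 0 := by
      have : fsLift i h.mapi u ∈ LinearMap.ker (fsLift q h.mapq) := by
        rw [← h.fs.exact]; exact ⟨u, rfl⟩
      exact this
    rw [← hx, fsLift_adf q h.mapq h.adm h.adm3] at h2
    have h3 : q x ∈ HZ Λ₃ := by
      rw [← ker_adf h.adm3]; exact h2
    exact ⟨⟨q x, h3⟩, h.delta_eq ⟨x, rfl, hx.symm⟩⟩
  · rintro ⟨z, rfl⟩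
    obtain ⟨u, hu⟩ := h.rel_exists z
    rw [h.delta_eq hu, hoMap_mk]
    obtain ⟨x, hx, hux⟩ := hu
    refine (Submodule.Quotient.mk_eq_zero _).2 ?_
    rw [hux, ← range_adf h.adm]
    exact ⟨x, rfl⟩

/-- exactness at `H¹(E₂)` -/
theorem exact_ho2 (h : FamSES i q Λ₁ Λ₂ Λ₃) (y : HO Λ₂) :
    hoMap q h.mapq y = 0 ↔ ∃ z, hoMap i h.mapi z = y := by
  constructor
  · intro hy
    obtain ⟨u, rfl⟩ := (diag Λ₂).mkQ_surjective y
    rw [hoMap_mk] at hy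
    have h1 : fsLift q h.mapq u ∈ diag Λ₃ := (Submodule.Quotient.mk_eq_zero _).1 hy
    rw [← range_adf h.adm3] at h1
    obtain ⟨c, hc⟩ := h1
    obtain ⟨x, rfl⟩ := h.ses.surj c
    rw [← fsLift_adf q h.mapq h.adm h.adm3] at hc
    have h2 : u - adf Λ₂ h.adm x ∈ LinearMap.ker (fsLift q h.mapq) := by
      rw [LinearMap.mem_ker, map_sub, hc, sub_self]
    rw [← h.fs.exact] at h2
    obtain ⟨z, hz⟩ := h2
    refine ⟨(diag Λ₁).mkQ z, ?_⟩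
    rw [hoMap_mk, hz]
    refine (Submodule.Quotient.eq _).2 ?_
    rw [← range_adf h.adm]
    exact ⟨-x, by rw [map_neg]; abel⟩
  · rintro ⟨z, rfl⟩
    obtain ⟨u, rfl⟩ := (diag Λ₁).mkQ_surjective z
    rw [hoMap_mk, hoMap_mk]
    have : fsLift i h.mapi u ∈ LinearMap.ker (fsLift q h.mapq) := by
      rw [← h.fs.exact]; exact ⟨u, rfl⟩
    rw [LinearMap.mem_ker] at this
    rw [this, map_zero]

/-- surjectivity at `H¹(E₃)` -/
theorem surj_ho3 (h : FamSES i q Λ₁ Λ₂ Λ₃) : Function.Surjective (hoMap q h.mapq) :=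
  hoMap_surjective q h.mapq h.ses.surj

end FamSES

end Six

end Vale.Agent.P182.H430
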