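import Vale.Agent.P182.H430.Compare
import Vale.Agent.P182.H430.SixTerm

/-!
# Serre duality on a weighted curve of genus zero
-/

namespace Vale.Agent.P182.H430

open LinearMap Submodule Module

universe u

variable {k F P : Type*} [Field k] [Field F] [Algebra k F]

/-- a dualizing weight: the degree of the canonical bundle is `-2`, and all jumps are allowed at
the marked places -/
structure Dualizing (C : Curve k F P) (κ : P → ℤ) : Prop where
  fin : {p | κ p ≠ 0}.Finite
  cong : ∀ p, κ p % C.per p = C.per p - 1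
  deg : C.deg κ = -2

theorem Dualizing.div_sub {C : Curve k F P} {κ : P → ℤ} (hκ : Dualizing C κ) (p : P) (w : ℤ) :
    (κ p - w) / C.per p = κ p / C.per p - w / C.per p := by
  have hpp : (0 : ℤ) < C.per p := by exact_mod_cast C.per_pos p
  have h3 := hκ.cong p
  have h4 := Int.emod_add_mul_ediv (κ p) (C.per p)
  have h5 := Int.emod_add_mul_ediv w (C.per p)
  have h6 := Int.emod_nonneg w hpp.ne'
  have h7 := Int.emod_lt_of_pos w hpp
  refine ((Int.ediv_emod_unique (r := C.per p - 1 - w % C.per p) hpp).2 ⟨?_, ?_, ?_⟩).1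
  · rw [h3] at h4
    rw [mul_sub]
    linarith
  · linarith
  · linarith

theorem chi_subsingleton {k P E : Type*} [Field k] [AddCommGroup E] [Module k E]
    [hE : Subsingleton E] (Λ : P → Submodule k E) : chi Λ = 0 := by
  have h1 : ∀ p, Subsingleton (E ⧸ Λ p) := fun p => inferInstance
  have h2 : Subsingleton (∀ p, E ⧸ Λ p) := inferInstance
  have h3 : Subsingleton (FS Λ) := inferInstance
  have h4 : Subsingleton (HO Λ) := inferInstance
  unfold chi h0 Vale.Agent.P182.H430.h1
  rw [finrank_zero_of_subsingleton, finrank_zero_of_subsingleton]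
  simp

theorem surjective_of_pairing {k X Y : Type*} [Field k] [AddCommGroup X] [Module k X]
    [AddCommGroup Y] [Module k Y] [FiniteDimensional k X] [FiniteDimensional k Y]
    (f : X →ₗ[k] (Y →ₗ[k] k)) (h : Function.Injective f) (hd : finrank k X = finrank k Y) :
    Function.Surjective f := by
  have i3 : FiniteDimensional k (Y →ₗ[k] k) :=
    (inferInstance : FiniteDimensional k (Module.Dual k Y))
  have h2 : finrank k (Y →ₗ[k] k) = finrank k Y := Subspace.dual_finrank_eq
  exact (LinearMap.injective_iff_surjective_of_finrank_eq_finrank (hd.trans h2.symm)).1 h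

theorem eq_zero_of_pairing {k X Y : Type*} [Field k] [AddCommGroup X] [Module k X]
    [AddCommGroup Y] [Module k Y] [FiniteDimensional k X] [FiniteDimensional k Y]
    (f : X →ₗ[k] (Y →ₗ[k] k)) (h : Function.Injective f) (hd : finrank k X = finrank k Y)
    (y : Y) (hy : ∀ x, f x y = 0) : y = 0 := by
  rw [← Module.forall_dual_apply_eq_zero_iff k]
  intro φ
  obtain ⟨x, rfl⟩ := surjective_of_pairing f h hd φ
  exact hy x

namespace Bun

variable {C : Curve k F P} {E : Type*} [AddCommGroup E] [Module F E] [Module k E]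
  [IsScalarTower k F E]

/-- the dual lattices, twisted by `κ` -/
def dl (κ : P → ℤ) (B : Bun C E) : P → Submodule k (Module.Dual F E) := fun p =>
  { carrier := {ξ | ∀ x ∈ B.lat p, ξ x ∈ C.I κ p}
    zero_mem' := fun _ _ => (C.I κ p).zero_mem
    add_mem' := fun {_ _} hξ hη x hx => (C.I κ p).add_mem (hξ x hx) (hη x hx)
    smul_mem' := fun c _ hξ x hx => (C.I κ p).smul_mem c (hξ x hx) }

omit [IsScalarTower k F E] in
theorem mem_dl {κ : P → ℤ} {B : Bun C E} {p : P} {ξ : Module.Dual F E} :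
    ξ ∈ B.dl κ p ↔ ∀ x ∈ B.lat p, ξ x ∈ C.I κ p := Iff.rfl

omit [IsScalarTower k F E] in
theorem adm_dl {κ : P → ℤ} (hκ : {p | κ p ≠ 0}.Finite) (B : Bun C E) : Adm (B.dl κ) := by
  intro ξ
  rw [← Filter.eventually_cofinite (p := fun p => ξ ∈ B.dl κ p)]
  obtain ⟨n, b, hb⟩ := B.std
  have h1 : ∀ᶠ p in Filter.cofinite, ∀ i, ξ (b i) ∈ (C.pl p).M 1 0 := by
    rw [Filter.eventually_all]
    intro i
    exact C.mem_M_ae _
  have h2 : ∀ᶠ p in Filter.cofinite, κ p = 0 := by
    rw [Filter.eventually_cofinite]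
    exact hκ
  filter_upwards [hb, h1, h2] with p h3 h4 h5
  rw [splitBy_zero_iff] at h3
  intro x hx
  show ξ x ∈ (C.pl p).M (C.per p) (-κ p)
  rw [h5, neg_zero]
  have h6 : ξ x = ∑ i, b.repr x i * ξ (b i) := by
    conv_lhs => rw [← b.sum_repr x]
    rw [map_sum]
    exact Finset.sum_congr rfl fun i _ => by rw [map_smul, smul_eq_mul]
  rw [h6]
  refine Submodule.sum_mem _ fun i _ => ?_
  have h7 := h4 i
  rw [← M_zero_eq _ (C.per_pos p)] at h7
  have h8 := (C.pl p).mul_mem_M ((h3 0 x).1 hx i) h7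
  rwa [add_zero] at h8

omit [Module k E] [IsScalarTower k F E] in
theorem dual_ses [FiniteDimensional F E] (S : Submodule F E) :
    SES (k := k) (S.mkQ.dualMap.restrictScalars k) (S.subtype.dualMap.restrictScalars k) := by
  refine ⟨?_, ?_, ?_⟩
  · intro ξ η h
    apply LinearMap.ext
    intro x
    obtain ⟨x, rfl⟩ := S.mkQ_surjective x
    exact LinearMap.congr_fun h x
  · ext ξ
    constructor
    · rintro ⟨η, rfl⟩
      rw [LinearMap.mem_ker]
      apply LinearMap.ext
      intro x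
      show η (S.mkQ (x : E)) = 0
      have : S.mkQ (x : E) = 0 := by simp
      rw [this, map_zero]
    · intro h
      have h1 : S ≤ LinearMap.ker ξ := fun x hx => by
        have := LinearMap.congr_fun h ⟨x, hx⟩
        exact this
      exact ⟨S.liftQ ξ h1, by
        apply LinearMap.ext
        intro x
        rfl⟩
  · intro η
    obtain ⟨ξ, hξ⟩ := LinearMap.exists_extend η
    exact ⟨ξ, hξ⟩

theorem dl_famSES {κ : P → ℤ} (hκ : {p | κ p ≠ 0}.Finite) (B : Bun C E) (S : Submodule F E) :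
    FamSES (S.mkQ.dualMap.restrictScalars k) (S.subtype.dualMap.restrictScalars k)
      ((B.quo S).dl κ) (B.dl κ) ((B.sub S).dl κ) := by
  have := B.finiteDimensional
  refine ⟨dual_ses S, ?_, ?_, adm_dl hκ B⟩
  · intro p
    ext ξ
    constructor
    · intro h x hx
      exact h (S.mkQ x) ⟨x, hx, rfl⟩
    · rintro h _ ⟨x, hx, rfl⟩
      exact h x hx
  · intro p
    ext η
    constructor
    · rintro ⟨ξ, hξ, rfl⟩ x hx
      exact hξ (x : E) hx
    · intro hη
      obtain ⟨e, he1, he2, he3⟩ := (B.ch p).exists_proj S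
      let e' : E →ₗ[F] S := e.codRestrict S he1
      refine ⟨η ∘ₗ e', ?_, ?_⟩
      · intro x hx
        exact hη (e' x) (he3 0 x hx)
      · apply LinearMap.ext
        intro x
        show η (e' (x : E)) = η x
        congr 1
        exact Subtype.ext (he2 x x.2)

theorem famSES (B : Bun C E) (S : Submodule F E) :
    FamSES (S.subtype.restrictScalars k) (S.mkQ.restrictScalars k)
      (B.sub S).lat B.lat (B.quo S).lat :=
  ⟨ses S, fun _ => rfl, fun _ => rfl, B.adm⟩

omit [IsScalarTower k F E] in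
/-- rank one -/
theorem dl_rank_one {κ : P → ℤ} (hκ : Dualizing C κ) (B : Bun C E) [IsScalarTower k F E] (x : E)
    (hx0 : x ≠ 0) (hx : ∀ y : E, ∃ c : F, c • x = y) :
    FinCoh (B.dl κ) ∧ chi (B.dl κ) = -chi B.lat := by
  obtain ⟨w, hw0, hw, h1, h2⟩ := B.rank_one x hx0 hx
  -- evaluation at `x`
  let ev : Module.Dual F E →ₗ[F] F := LinearMap.applyₗ x
  have hev : ∀ ξ, ev ξ = ξ x := fun ξ => rfl
  have hinj : Function.Injective ev := by
    intro ξ η h
    apply LinearMap.ext
    intro y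
    obtain ⟨c, rfl⟩ := hx y
    rw [map_smul, map_smul, ← hev, ← hev, h]
  have hsurj : Function.Surjective ev := by
    obtain ⟨φ, hφ⟩ := LChain.exists_functional (F := F) hx0
    intro c
    refine ⟨(c / φ x) • φ, ?_⟩
    rw [hev, LinearMap.smul_apply, smul_eq_mul, div_mul_cancel₀ _ hφ]
  let e : Module.Dual F E ≃ₗ[F] F := LinearEquiv.ofBijective ev ⟨hinj, hsurj⟩
  have hmem : ∀ p (ξ : Module.Dual F E), ξ ∈ B.dl κ p ↔
      (e.restrictScalars k) ξ ∈ C.I (κ - w) p := by
    intro p ξ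
    have hlat : ∀ c : F, c • x ∈ B.lat p ↔ c ∈ (C.pl p).M 1 (-(w p / C.per p)) := by
      intro c
      rw [← M_eq _ (C.per_pos p)]
      show c • x ∈ (B.ch p).L 0 ↔ _
      by_cases hc : c = 0
      · simp [hc]
      · rw [(B.ch p).smul_iff c hc, hw, (C.pl p).mem_M_of_ne hc]
        constructor <;> intro h <;> linarith
    have hdiv := hκ.div_sub p (w p)
    have hI : C.I κ p = (C.pl p).M 1 (-(κ p / C.per p)) := M_eq _ (C.per_pos p) _
    have hI' : C.I (κ - w) p = (C.pl p).M 1 (-((κ p - w p) / C.per p)) := M_eq _ (C.per_pos p) _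
    show ξ ∈ B.dl κ p ↔ ξ x ∈ C.I (κ - w) p
    rw [hI', hdiv, mem_dl]
    constructor
    · intro h
      have h3 : (C.pl p).unif ^ (-(w p / C.per p)) • x ∈ B.lat p := by
        rw [hlat, (C.pl p).mem_M_of_ne (zpow_ne_zero _ (C.pl p).unif_ne), (C.pl p).ord_zpow]
        simp
      have h4 := h _ h3
      rw [map_smul, smul_eq_mul, hI, (C.pl p).smul_mem_iff (zpow_ne_zero _ (C.pl p).unif_ne),
        (C.pl p).ord_zpow] at h4
      convert h4 using 2
      push_cast
      ring
    · intro h y hy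
      obtain ⟨c, rfl⟩ := hx y
      rw [hlat] at hy
      have h4 := (C.pl p).mul_mem_M hy h
      rw [map_smul, smul_eq_mul, hI]
      convert h4 using 2
      ring
  have h3 := coh_equiv (e.restrictScalars k) hmem
  have hfin : {p | (κ - w) p ≠ 0}.Finite := by
    refine (hκ.fin.union hw0).subset ?_
    intro p hp
    by_contra h
    simp only [Set.mem_union, Set.mem_ofPred_eq, not_or, not_not] at h
    exact hp (by rw [Pi.sub_apply, h.1, h.2, sub_zero])
  have h4 := C.rr_one hfin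
  refine ⟨h3.1.2 h4.1, ?_⟩
  rw [h3.2.2.2, h4.2, h2]
  have hdeg : C.deg (κ - w) = C.deg κ - C.deg w := by
    classical
    let S := hκ.fin.toFinset ∪ hw0.toFinset
    have hSκ : ∀ p, p ∉ S → κ p = 0 := by
      intro p hp
      by_contra h0
      exact hp (Finset.mem_union_left _ (hκ.fin.mem_toFinset.2 h0))
    have hSw : ∀ p, p ∉ S → w p = 0 := by
      intro p hp
      by_contra h0
      exact hp (Finset.mem_union_right _ (hw0.mem_toFinset.2 h0))
    rw [C.deg_eq_sum S hSκ, C.deg_eq_sum S hSw, C.deg_eq_sum S (fun p hp => by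
      rw [Pi.sub_apply, hSκ p hp, hSw p hp, sub_zero]), ← Finset.sum_sub_distrib]
    refine Finset.sum_congr rfl fun p _ => ?_
    exact hκ.div_sub p (w p)
  rw [hdeg, hκ.deg]
  ring

/-- `χ` of the dual -/
theorem dl_aux {κ : P → ℤ} (hκ : Dualizing C κ) (n : ℕ) : ∀ (E : Type u) [AddCommGroup E]
    [Module F E] [Module k E] [IsScalarTower k F E], finrank F E = n → ∀ B : Bun C E,
      FinCoh (B.dl κ) ∧ chi (B.dl κ) = -chi B.lat := by
  induction n with
  | zero =>
    intro E _ _ _ _ h B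
    have := B.finiteDimensional
    have hs : Subsingleton E := finrank_zero_iff.1 h
    have hd : Subsingleton (Module.Dual F E) := by
      refine ⟨fun a b => LinearMap.ext fun x => ?_⟩
      rw [Subsingleton.elim x 0, map_zero, map_zero]
    have c1 : FinCoh (B.dl κ) := by
      refine ⟨adm_dl hκ.fin B, ?_, ?_⟩
      · infer_instance
      · have h1 : ∀ p, Subsingleton (Module.Dual F E ⧸ B.dl κ p) := fun p => inferInstance
        have h2 : Subsingleton (∀ p, Module.Dual F E ⧸ B.dl κ p) := inferInstance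
        have h3 : Subsingleton (FS (B.dl κ)) := inferInstance
        have h4 : Subsingleton (HO (B.dl κ)) := inferInstance
        infer_instance
    refine ⟨c1, ?_⟩
    rw [chi_subsingleton, chi_subsingleton, neg_zero]
  | succ n ih =>
    intro E _ _ _ _ h B
    have := B.finiteDimensional
    have hnt : Nontrivial E := by
      apply nontrivial_of_finrank_pos (R := F)
      omega
    obtain ⟨x, hx⟩ := exists_ne (0 : E)
    let S : Submodule F E := Submodule.span F {x}
    have hS1 : finrank F S = 1 := finrank_span_singleton hx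
    have hQ : finrank F (E ⧸ S) = n := by
      have := S.finrank_quotient_add_finrank
      omega
    obtain ⟨h3, h4⟩ := ih (E ⧸ S) hQ (B.quo S)
    let x' : S := ⟨x, Submodule.mem_span_singleton_self x⟩
    have hx'0 : x' ≠ 0 := fun h => hx (congrArg Subtype.val h)
    have hx' : ∀ y : S, ∃ c : F, c • x' = y := by
      rintro ⟨y, hy⟩
      obtain ⟨c, hc⟩ := Submodule.mem_span_singleton.1 hy
      exact ⟨c, Subtype.ext hc⟩
    obtain ⟨h1, h2⟩ := (B.sub S).dl_rank_one hκ x' hx'0 hx'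
    have hf := dl_famSES hκ.fin B S
    obtain ⟨c1, c2⟩ := chi_ses hf.ses hf.sub hf.quo hf.adm h3 h1
    refine ⟨c1, ?_⟩
    rw [c2, h2, h4, B.chi_add S]
    ring

theorem finCoh_dl {κ : P → ℤ} (hκ : Dualizing C κ) (B : Bun C E) : FinCoh (B.dl κ) :=
  (dl_aux hκ _ E rfl B).1

theorem chi_dl {κ : P → ℤ} (hκ : Dualizing C κ) (B : Bun C E) : chi (B.dl κ) = -chi B.lat :=
  (dl_aux hκ _ E rfl B).2

end Bun

/-- a dualizing functional -/
theorem Dualizing.exists_functional {C : Curve k F P} {κ : P → ℤ} (hκ : Dualizing C κ) :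
    ∃ ρ : HO (C.I κ) →ₗ[k] k, ρ ≠ 0 := by
  have h1 := C.rr_one hκ.fin
  rw [hκ.deg] at h1
  have h2 : 0 < Vale.Agent.P182.H430.h1 (C.I κ) := by
    have := h1.2
    unfold chi at this
    omega
  have h3 := h1.1.fin1
  have h4 : Nontrivial (HO (C.I κ)) := by
    apply nontrivial_of_finrank_pos (R := k)
    exact h2
  obtain ⟨x, hx⟩ := exists_ne (0 : HO (C.I κ))
  obtain ⟨φ, hφ⟩ : ∃ φ : Module.Dual k (HO (C.I κ)), φ x ≠ 0 := by
    by_contra h
    push Not at h
    exact hx ((Module.forall_dual_apply_eq_zero_iff k x).mp h)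
  exact ⟨φ, fun h => hφ (by rw [h]; rfl)⟩

namespace Bun

variable {C : Curve k F P} {E : Type*} [AddCommGroup E] [Module F E] [Module k E]
  [IsScalarTower k F E] {κ : P → ℤ}

/-- a section of the dual maps the bundle to the canonical bundle -/
theorem maps_of_hz (B : Bun C E) (ξ : HZ (B.dl κ)) :
    Maps ((ξ : Module.Dual F E).restrictScalars k) B.lat (C.I κ) := fun p x hx =>
  mem_HZ.1 ξ.2 p x hx

/-- evaluation, linear over `k` -/
def ev (x : E) : Module.Dual F E →ₗ[k] F where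
  toFun ξ := ξ x
  map_add' _ _ := rfl
  map_smul' _ _ := rfl

omit [IsScalarTower k F E] in
/-- evaluation at a section -/
theorem maps_of_ev (B : Bun C E) (x : HZ B.lat) :
    Maps (ev (k := k) (F := F) (x : E)) (B.dl κ) (C.I κ) := fun p _ hξ =>
  hξ x (mem_HZ.1 x.2 p)

/-- sections of the dual as maps -/
def spAux (κ : P → ℤ) (B : Bun C E) : HZ (B.dl κ) →ₗ[k] mapsSub B.lat (C.I κ) where
  toFun ξ := ⟨(ξ : Module.Dual F E).restrictScalars k, B.maps_of_hz ξ⟩
  map_add' _ _ := rfl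
  map_smul' _ _ := rfl

/-- sections as maps on the dual -/
def spAux' (κ : P → ℤ) (B : Bun C E) : HZ B.lat →ₗ[k] mapsSub (B.dl κ) (C.I κ) where
  toFun x := ⟨ev (k := k) (F := F) (x : E), B.maps_of_ev x⟩
  map_add' x x' := by
    apply Subtype.ext
    apply LinearMap.ext
    intro ξ
    show ξ ((x : E) + x') = ξ x + ξ x'
    rw [map_add]
  map_smul' c x := by
    apply Subtype.ext
    apply LinearMap.ext
    intro ξ
    show ξ (c • (x : E)) = c • ξ x
    rw [← algebraMap_smul F c (x : E), map_smul, algebraMap_smul]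

/-- the Serre pairing `H⁰(E^* ω) × H¹(E) → k` -/
noncomputable def sp (ρ : HO (C.I κ) →ₗ[k] k) (B : Bun C E) :
    HZ (B.dl κ) →ₗ[k] (HO B.lat →ₗ[k] k) :=
  (LinearMap.llcomp k (HO B.lat) (HO (C.I κ)) k ρ) ∘ₗ hoL ∘ₗ B.spAux κ

theorem sp_apply (ρ : HO (C.I κ) →ₗ[k] k) (B : Bun C E) (ξ : HZ (B.dl κ)) (y : HO B.lat) :
    B.sp ρ ξ y = ρ (hoMap _ (B.maps_of_hz ξ) y) := rfl

/-- the pairing `H⁰(E) × H¹(E^* ω) → k` -/
noncomputable def sp' (ρ : HO (C.I κ) →ₗ[k] k) (B : Bun C E) :
    HZ B.lat →ₗ[k] (HO (B.dl κ) →ₗ[k] k) :=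
  (LinearMap.llcomp k (HO (B.dl κ)) (HO (C.I κ)) k ρ) ∘ₗ hoL ∘ₗ B.spAux' κ

theorem sp'_apply (ρ : HO (C.I κ) →ₗ[k] k) (B : Bun C E) (x : HZ B.lat) (y : HO (B.dl κ)) :
    B.sp' ρ x y = ρ (hoMap _ (B.maps_of_ev x) y) := rfl

theorem sp_injective {ρ : HO (C.I κ) →ₗ[k] k} (hρ : ρ ≠ 0) (B : Bun C E) :
    Function.Injective (B.sp ρ) := by
  rw [injective_iff_map_eq_zero]
  intro ξ hξ
  by_contra h0
  have h1 : (ξ : Module.Dual F E) ≠ 0 := fun h => h0 (Subtype.ext h)
  have hs : Function.Surjective (ξ : Module.Dual F E) := LinearMap.surjective h1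
  apply hρ
  apply LinearMap.ext
  intro y
  obtain ⟨z, rfl⟩ := hoMap_surjective _ (B.maps_of_hz ξ) hs y
  exact LinearMap.congr_fun hξ z

theorem sp'_injective {ρ : HO (C.I κ) →ₗ[k] k} (hρ : ρ ≠ 0) (B : Bun C E) :
    Function.Injective (B.sp' ρ) := by
  rw [injective_iff_map_eq_zero]
  intro x hx
  by_contra h0
  have h1 : (x : E) ≠ 0 := fun h => h0 (Subtype.ext h)
  obtain ⟨φ, hφ⟩ := LChain.exists_functional (F := F) h1
  have hs : Function.Surjective (ev (k := k) (F := F) (x : E)) := by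
    intro c
    refine ⟨(c / φ x) • φ, ?_⟩
    show (c / φ x) * φ x = c
    rw [div_mul_cancel₀ _ hφ]
  apply hρ
  apply LinearMap.ext
  intro y
  obtain ⟨z, rfl⟩ := hoMap_surjective _ (B.maps_of_ev x) hs y
  exact LinearMap.congr_fun hx z

/-- SERRE DUALITY, dimensions -/
theorem serre (hκ : Dualizing C κ) (B : Bun C E) :
    h0 (B.dl κ) = h1 B.lat ∧ h1 (B.dl κ) = h0 B.lat := by
  obtain ⟨ρ, hρ⟩ := hκ.exists_functional
  have F1 := B.finCoh
  have F2 := B.finCoh_dl hκ
  have i1 := F1.fin1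
  have i2 := F2.fin1
  have i3 : FiniteDimensional k (HO B.lat →ₗ[k] k) := inferInstance
  have i4 : FiniteDimensional k (HO (B.dl κ) →ₗ[k] k) := inferInstance
  have e1 : h0 (B.dl κ) ≤ h1 B.lat := by
    have := LinearMap.finrank_le_finrank_of_injective (B.sp_injective hρ)
    rwa [Subspace.dual_finrank_eq] at this
  have e2 : h0 B.lat ≤ h1 (B.dl κ) := by
    have := LinearMap.finrank_le_finrank_of_injective (B.sp'_injective hρ)
    rwa [Subspace.dual_finrank_eq] at this
  have e3 := B.chi_dl hκ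
  unfold chi at e3
  omega

/-- SERRE DUALITY: a class in `H¹(E)` orthogonal to `H⁰(E^* ω)` vanishes -/
theorem eq_zero_of_sp (hκ : Dualizing C κ) {ρ : HO (C.I κ) →ₗ[k] k} (hρ : ρ ≠ 0) (B : Bun C E)
    (y : HO B.lat) (hy : ∀ ξ, B.sp ρ ξ y = 0) : y = 0 := by
  have i1 := B.finCoh.fin1
  have i2 := (B.finCoh_dl hκ).fin0
  exact eq_zero_of_pairing (k := k) (X := HZ (B.dl κ)) (Y := HO B.lat) (B.sp ρ) (B.sp_injective hρ)
    (by
      have h := (B.serre hκ).1
      unfold h0 h1 at h
      exact h) y hy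

/-- SERRE DUALITY: a class in `H¹(E^* ω)` orthogonal to `H⁰(E)` vanishes -/
theorem eq_zero_of_sp' (hκ : Dualizing C κ) {ρ : HO (C.I κ) →ₗ[k] k} (hρ : ρ ≠ 0) (B : Bun C E)
    (y : HO (B.dl κ)) (hy : ∀ x, B.sp' ρ x y = 0) : y = 0 := by
  have i1 := B.finCoh.fin0
  have i2 := (B.finCoh_dl hκ).fin1
  exact eq_zero_of_pairing (B.sp' ρ) (B.sp'_injective hρ) (B.serre hκ).2.symm y hy

/-- every functional on `H¹(E)` is given by a section of the dual -/
theorem sp_surjective (hκ : Dualizing C κ) {ρ : HO (C.I κ) →ₗ[k] k} (hρ : ρ ≠ 0) (B : Bun C E)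
    (φ : HO B.lat →ₗ[k] k) : ∃ ξ, B.sp ρ ξ = φ := by
  have i1 := B.finCoh.fin1
  have i2 := (B.finCoh_dl hκ).fin0
  exact surjective_of_pairing (k := k) (X := HZ (B.dl κ)) (Y := HO B.lat) (B.sp ρ) (B.sp_injective hρ)
    (by
      have h := (B.serre hκ).1
      unfold h0 h1 at h
      exact h) φ

/-- every functional on `H¹(E^* ω)` is given by a section -/
theorem sp'_surjective (hκ : Dualizing C κ) {ρ : HO (C.I κ) →ₗ[k] k} (hρ : ρ ≠ 0) (B : Bun C E)
    (φ : HO (B.dl κ) →ₗ[k] k) : ∃ x, B.sp' ρ x = φ := by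
  have i1 := B.finCoh.fin0
  have i2 := (B.finCoh_dl hκ).fin1
  exact surjective_of_pairing (B.sp' ρ) (B.sp'_injective hρ) (B.serre hκ).2.symm φ

end Bun

end Vale.Agent.P182.H430
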